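import Crest.Agent.R182.A.CoreB

/-! R182/A: coordinates and topology of a model. -/

set_option autoImplicit false
set_option linter.unusedVariables false
set_option linter.unusedSectionVars false
open Set Filter Topology MeasureTheory Crest.GroupTheory
open scoped Pointwise commutatorElement

noncomputable section
namespace Crest.Agent.R182

namespace Model
variable {h k : ℕ} (M : Model h k)

theorem mem_W {α : Fin k → ℝ} {X : V h} : X ∈ M.W α ↔ ∀ j, M.wt j ≠ α → X j = 0 := by
  simp [W, coordW, Submodule.mem_iInf]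

theorem grading : M.Grading M.C M.W := M.gr

theorem gen_mem (i : Fin k) : M.gen i ∈ M.C := (Classical.choose_spec (M.gr.C_surj (Pi.single i 1))).1

theorem tv_gen (i : Fin k) : M.tv (M.gen i) = Pi.single i 1 := (Classical.choose_spec (M.gr.C_surj (Pi.single i 1))).2

theorem sec_mem (a : Fin k → ℤ) : M.sec a ∈ M.C := by
  refine M.C.list_prod_mem fun x hx => ?_
  obtain ⟨i, rfl⟩ := List.mem_ofFn.1 hx
  exact zpow_mem (M.gen_mem i) _

theorem tv_sec (a : Fin k → ℤ) : M.tv (M.sec a) = a := by
  have : M.tv (M.sec a) = ∑ i, M.tv (M.gen i ^ a i) := by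
    simp only [Core.tv, sec, map_list_prod, List.map_ofFn, List.prod_ofFn, toAdd_prod, Function.comp_apply]
  rw [this]
  ext j
  simp [M.tv_zpow, M.tv_gen, Finset.sum_apply, Pi.single_apply]

theorem sec_zero : M.sec 0 = 1 := by
  simp [sec]

theorem exp_lgm (g : M.G) : M.exp (M.lgm g) * M.sec (M.tv g) = g := by
  obtain ⟨X, hX⟩ := M.exists_exp_mul (M.tv_sec (M.tv g)).symm
  rw [lgm, Function.invFun_eq ⟨X, eq_mul_inv_of_mul_eq hX.symm⟩, inv_mul_cancel_right]

theorem par_chart (g : M.G) : M.par (M.chart g) = g := M.exp_lgm g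

theorem apico_eq {g : M.G} {X : V h} (e : M.exp X * M.sec (M.tv g) = g) : M.lgm g = X :=
  M.exp_inj (mul_right_cancel ((M.exp_lgm g).trans e.symm))

theorem tv_par (p : V h × (Fin k → ℤ)) : M.tv (M.par p) = p.2 := by
  rw [par, M.tv_mul, M.tv_exp, M.tv_sec, zero_add]

theorem lgm_par (p : V h × (Fin k → ℤ)) : M.lgm (M.par p) = p.1 := by
  exact M.apico_eq (by rw [M.tv_par, par])

theorem chart_par (p : V h × (Fin k → ℤ)) : M.chart (M.par p) = p := Prod.ext (M.lgm_par p) (M.tv_par p)

theorem lgm_exp (X : V h) : M.lgm (M.exp X) = X := by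
  exact M.apico_eq (by rw [M.tv_exp, M.sec_zero, mul_one])

theorem lgm_exp_mul (X : V h) (g : M.G) : M.lgm (M.exp X * g) = M.bch X (M.lgm g) := by
  exact M.apico_eq (by rw [M.tv_mul, M.tv_exp, zero_add, ← M.exp_bch, mul_assoc, M.exp_lgm])

theorem lgm_mul_exp (g : M.G) (X : V h) : M.lgm (g * M.exp X) = M.bch (M.lgm g) (M.Ad (M.sec (M.tv g)) X) := by
  exact M.apico_eq (by rw [M.tv_mul, M.tv_exp, add_zero, ← M.exp_bch, mul_assoc, ← M.mul_exp, ← mul_assoc, M.exp_lgm])

theorem lgm_mul (g g' : M.G) : M.lgm (g * g') =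
    M.bch (M.bch (M.lgm g) (M.Ad (M.sec (M.tv g)) (M.lgm g'))) (M.lgm (M.sec (M.tv g) * M.sec (M.tv g'))) := by
  refine M.apico_eq ?_
  have := M.exp_lgm (M.sec (M.tv g) * M.sec (M.tv g'))
  rw [M.tv_mul, M.tv_sec, M.tv_sec] at this
  rw [M.tv_mul, ← M.exp_bch, ← M.exp_bch, mul_assoc, this, mul_assoc, ← mul_assoc (M.exp (M.Ad _ _)), ← M.mul_exp,
    mul_assoc, M.exp_lgm, ← mul_assoc, M.exp_lgm]

theorem lgm_inv (g : M.G) : M.lgm g⁻¹ = M.bch (-M.Ad (M.sec (M.tv g))⁻¹ (M.lgm g)) (M.lgm (M.sec (M.tv g))⁻¹) := by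
  refine M.apico_eq ?_
  have := M.exp_lgm (M.sec (M.tv g))⁻¹
  rw [M.tv_inv, M.tv_sec] at this
  rw [M.tv_inv, ← M.exp_bch, mul_assoc, this, ← map_neg, ← M.mul_exp, M.exp_neg, ← mul_inv_rev, M.exp_lgm]

theorem mem_C {g : M.G} : g ∈ M.C ↔ M.lgm g ∈ M.W 0 := by
  rw [← M.grading.C_exp, ← M.C.mul_mem_cancel_right (y := M.exp _) (M.sec_mem (M.tv g)), M.exp_lgm]

/-- the coordinates as a homeomorphism -/
def chartHomeo : M.G ≃ₜ V h × (Fin k → ℤ) :=
  (Equiv.mk M.chart M.par M.par_chart M.chart_par).toHomeomorphOfIsInducing ⟨rfl⟩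

theorem continuous_chart : Continuous M.chart := M.chartHomeo.continuous
theorem continuous_par : Continuous M.par := M.chartHomeo.symm.continuous
theorem continuous_lgm : Continuous M.lgm := continuous_fst.comp M.continuous_chart
theorem continuous_tv : Continuous M.tv := continuous_snd.comp M.continuous_chart

theorem continuous_exp : Continuous M.exp := by
  exact (M.continuous_par.comp (Continuous.prodMk_left 0)).congr fun X => by simp [par, M.sec_zero]

theorem apico_Ad (f : (Fin k → ℤ) → M.G) : Continuous fun p : V h × (Fin k → ℤ) => M.Ad (f p.2) p.1 :=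
  continuous_prod_of_discrete_right.2 fun a => (M.Ad (f a)).continuous_of_finiteDimensional

/-- `lgm_mul`, `lgm_inv`, `continuous_bch`; the dependence on the discrete variables is handled by `continuous_prod_of_discrete_right` -/
instance : IsTopologicalGroup M.G := by
  have hb : ∀ {β : Type} [TopologicalSpace β] {f g : β → V h}, Continuous f → Continuous g →
      Continuous fun b => M.bch (f b) (g b) := fun hf hg => M.continuous_bch.comp (hf.prodMk hg)
  have l := M.continuous_lgm
  have t := M.continuous_tv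
  refine { continuous_mul := continuous_induced_rng.2 (Continuous.prodMk ?_ ?_)
           continuous_inv := continuous_induced_rng.2 (Continuous.prodMk ?_ ?_) }
  · exact (hb (hb (l.comp continuous_fst) ((M.apico_Ad M.sec).comp ((l.comp continuous_snd).prodMk (t.comp continuous_fst))))
      ((continuous_of_discreteTopology (f := fun p : (Fin k → ℤ) × (Fin k → ℤ) => M.lgm (M.sec p.1 * M.sec p.2))).comp
        (t.prodMap t))).congr fun p => (M.lgm_mul p.1 p.2).symm
  · simp only [M.tv_mul]
    exact (t.comp continuous_fst).add (t.comp continuous_snd)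
  · exact (hb ((M.apico_Ad fun a => (M.sec a)⁻¹).comp (l.prodMk t)).neg
      ((continuous_of_discreteTopology (f := fun a : Fin k → ℤ => M.lgm (M.sec a)⁻¹)).comp t)).congr
        fun g => (M.lgm_inv g).symm
  · simp only [M.tv_inv]
    exact t.neg

instance : T2Space M.G := M.chartHomeo.symm.t2Space
instance : LocallyCompactSpace M.G := M.chartHomeo.isClosedEmbedding.locallyCompactSpace
instance : SecondCountableTopology M.G := M.chartHomeo.secondCountableTopology
instance : PolishSpace M.G := M.chartHomeo.isClosedEmbedding.polishSpace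

theorem continuous_Ad : Continuous fun p : M.G × V h => M.Ad p.1 p.2 := by
  refine (M.continuous_Ad_exp.comp ((M.continuous_lgm.comp continuous_fst).prodMk ((M.apico_Ad M.sec).comp
    (continuous_snd.prodMk (M.continuous_tv.comp continuous_fst))))).congr fun p => ?_
  simp only [Function.comp_apply, ← Module.End.mul_apply, ← map_mul, M.exp_lgm]

theorem continuous_ht (α : Fin k → ℝ) : Continuous (M.ht α) := by
  exact (continuous_of_discreteTopology (f := fun a : Fin k → ℤ => α ⬝ᵥ fun i => (a i : ℝ))).comp M.continuous_tv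

theorem isClosed_expSub {U : Submodule ℝ (V h)} (hU : M.IsSub U) : IsClosed (M.expSub U : Set M.G) := by
  have : (M.expSub U : Set M.G) = M.lgm ⁻¹' U ∩ M.tv ⁻¹' {0} := by
    ext g
    rw [SetLike.mem_coe, M.mem_expSub hU]
    refine ⟨?_, fun ⟨h1, h2⟩ => ?_⟩
    · rintro ⟨X, hX, rfl⟩
      exact ⟨by simpa [M.lgm_exp] using hX, M.tv_exp X⟩
    · obtain ⟨X, rfl⟩ := M.tv_eq_zero.1 h2
      exact ⟨X, by simpa [M.lgm_exp] using h1, rfl⟩
  rw [this]
  exact (U.closed_of_finiteDimensional.preimage M.continuous_lgm).inter (isClosed_singleton.preimage M.continuous_tv)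

theorem isClosed_C : IsClosed (M.C : Set M.G) := by
  have : (M.C : Set M.G) = M.lgm ⁻¹' (M.W 0) := Set.ext fun g => M.mem_C
  exact this ▸ (M.W 0).closed_of_finiteDimensional.preimage M.continuous_lgm

end Model

end Crest.Agent.R182
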