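import Crest.Agent.R182.A.Defs

/-! R182/A: word metrics and quasi-isometries. -/

set_option autoImplicit false
set_option linter.unusedVariables false
set_option linter.unusedSectionVars false
open Set Filter Topology MeasureTheory Crest.GroupTheory
open scoped Pointwise commutatorElement

noncomputable section
namespace Crest.Agent.R182

open Crest.Geometry
variable {G G' G'' : Type*} [Group G] [Group G'] [Group G''] {S : Set G} {T : Set G'} {U : Set G''}

theorem wl_le {l : List G} (hl : ∀ x ∈ l, x ∈ S ∨ x⁻¹ ∈ S) : wordLength S l.prod ≤ l.length := by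
  exact Nat.sInf_le ⟨l, rfl, hl, rfl⟩

theorem wl_ex (hS : Subgroup.closure S = ⊤) (g : G) :
    ∃ l : List G, l.length = wordLength S g ∧ (∀ x ∈ l, x ∈ S ∨ x⁻¹ ∈ S) ∧ l.prod = g := by
  apply Nat.sInf_mem (s := {n : ℕ | ∃ l : List G, l.length = n ∧
    (∀ x ∈ l, x ∈ S ∨ x⁻¹ ∈ S) ∧ l.prod = g})
  have hm : g ∈ Subgroup.closure S := by rw [hS]; trivial
  rw [← Subgroup.mem_toSubmonoid, Subgroup.closure_toSubmonoid] at hm
  obtain ⟨l, h1, h2⟩ := Submonoid.exists_list_of_mem_closure hm
  exact ⟨_, l, rfl, h1, h2⟩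

theorem wl_one : wordLength S (1 : G) = 0 := by
  have := wl_le (S := S) (l := []) (by simp)
  simpa using this

theorem wl_eq_zero (hS : Subgroup.closure S = ⊤) {g : G} : wordLength S g = 0 ↔ g = 1 := by
  refine ⟨fun h => ?_, fun h => h ▸ wl_one⟩
  obtain ⟨l, h1, -, h3⟩ := wl_ex hS g
  rw [h, List.length_eq_zero_iff] at h1
  rw [← h3, h1, List.prod_nil]

theorem wl_le_one {g : G} (hg : g ∈ S) : wordLength S g ≤ 1 := by
  have := wl_le (S := S) (l := [g]) (by simp [hg])
  simpa using this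

theorem wl_inv (hS : Subgroup.closure S = ⊤) (g : G) : wordLength S g⁻¹ = wordLength S g := by
  have h : ∀ g : G, wordLength S g⁻¹ ≤ wordLength S g := by
    intro g
    obtain ⟨l, h1, h2, h3⟩ := wl_ex hS g
    have := wl_le (S := S) (l := (l.map fun x => x⁻¹).reverse) (by
      intro x hx
      simp only [List.mem_reverse, List.mem_map] at hx
      obtain ⟨y, hy, rfl⟩ := hx
      rw [inv_inv]
      exact (h2 y hy).symm)
    rw [← List.prod_inv_reverse, h3] at this
    simpa [h1] using this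
  refine le_antisymm (h g) ?_
  simpa using h g⁻¹

theorem wl_mul (hS : Subgroup.closure S = ⊤) (g g' : G) : wordLength S (g * g') ≤ wordLength S g + wordLength S g' := by
  obtain ⟨l, h1, h2, h3⟩ := wl_ex hS g
  obtain ⟨l', h1', h2', h3'⟩ := wl_ex hS g'
  have := wl_le (S := S) (l := l ++ l') (by
    intro a ha
    rcases List.mem_append.1 ha with ha | ha
    · exact h2 a ha
    · exact h2' a ha)
  rwa [List.prod_append, h3, h3', List.length_append, h1, h1'] at this

theorem wl_zpow (hS : Subgroup.closure S = ⊤) (g : G) (n : ℤ) : wordLength S (g ^ n) ≤ n.natAbs * wordLength S g := by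
  have h : ∀ m : ℕ, wordLength S (g ^ m) ≤ m * wordLength S g := by
    intro m
    induction m with
    | zero => simp [wl_one]
    | succ m ih =>
      rw [pow_succ, add_mul, one_mul]
      exact (wl_mul hS _ _).trans (Nat.add_le_add_right ih _)
  cases n with
  | ofNat m => simpa using h m
  | negSucc m =>
    rw [zpow_negSucc, wl_inv hS]
    exact h (m + 1)

theorem wl_list_prod (hS : Subgroup.closure S = ⊤) (l : List G) : wordLength S l.prod ≤ (l.map (wordLength S)).sum := by
  induction l with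
  | nil => simp [wl_one]
  | cons a l ih =>
    rw [List.prod_cons, List.map_cons, List.sum_cons]
    exact (wl_mul hS _ _).trans (Nat.add_le_add_left ih _)

theorem wl_fin (hS : Subgroup.closure S = ⊤) (hf : S.Finite) (R : ℕ) : {g | wordLength S g ≤ R}.Finite := by
  have hT : (S ∪ S⁻¹).Finite := hf.union hf.inv
  induction R with
  | zero =>
    exact (finite_singleton (1 : G)).subset fun g hg => (wl_eq_zero hS).1 (Nat.le_zero.1 hg)
  | succ R ih =>
    refine ((finite_singleton (1 : G)).union (hT.image2 (· * ·) ih)).subset fun g hg => ?_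
    obtain ⟨l, h1, h2, h3⟩ := wl_ex hS g
    have hg' : wordLength S g ≤ R + 1 := hg
    cases l with
    | nil => left; simpa using h3.symm
    | cons a l =>
      right
      refine ⟨a, ?_, l.prod, ?_, by simpa using h3⟩
      · rcases h2 a (by simp) with h | h
        · exact Or.inl h
        · exact Or.inr (by simpa using h)
      · have := wl_le (S := S) (l := l) (fun x hx => h2 x (by simp [hx]))
        simp only [List.length_cons] at h1
        show wordLength S l.prod ≤ R
        omega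

theorem wl_map (hS : Subgroup.closure S = ⊤) (hT : Subgroup.closure T = ⊤) (f : G →* G') {R : ℕ}
    (h : ∀ s ∈ S, wordLength T (f s) ≤ R) (g : G) : wordLength T (f g) ≤ R * wordLength S g := by
  obtain ⟨l, h1, h2, rfl⟩ := wl_ex hS g
  rw [← h1]
  clear h1
  induction l with
  | nil => simp [wl_one]
  | cons a l ih =>
    rw [List.prod_cons, map_mul, List.length_cons, mul_add, mul_one, add_comm]
    refine (wl_mul hT _ _).trans (Nat.add_le_add ?_ (ih fun x hx => h2 x (List.mem_cons_of_mem _ hx)))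
    rcases h2 a List.mem_cons_self with ha | ha
    · exact h a ha
    · rw [← wl_inv hT, ← map_inv]
      exact h _ ha

theorem wd_self (x : G) : wordDist S x x = 0 := by
  simp [wordDist, wl_one]

theorem wd_comm (hS : Subgroup.closure S = ⊤) (x y : G) : wordDist S x y = wordDist S y x := by
  unfold wordDist
  rw [← wl_inv hS]
  simp

theorem wd_tri (hS : Subgroup.closure S = ⊤) (x y z : G) : wordDist S x z ≤ wordDist S x y + wordDist S y z := by
  unfold wordDist
  have := wl_mul hS (x⁻¹ * y) (y⁻¹ * z)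
  rw [show x⁻¹ * y * (y⁻¹ * z) = x⁻¹ * z by group] at this
  exact_mod_cast this

theorem wd_mul (g x y : G) : wordDist S (g * x) (g * y) = wordDist S x y := by
  unfold wordDist
  rw [show (g * x)⁻¹ * (g * y) = x⁻¹ * y by group]

theorem qi_comp (hU : Subgroup.closure U = ⊤) {f : G → G'} {f' : G' → G''}
    (h : IsQuasiIsometry (wordDist S) (wordDist T) f) (h' : IsQuasiIsometry (wordDist T) (wordDist U) f') :
    IsQuasiIsometry (wordDist S) (wordDist U) (f' ∘ f) := by
  obtain ⟨K, C, hK, hC, h1, h2⟩ := h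
  obtain ⟨K', C', hK', hC', h1', h2'⟩ := h'
  have k0 : 0 ≤ K' := zero_le_one.trans hK'
  have k1 : C ≤ K' * C := le_mul_of_one_le_left hC hK'
  refine ⟨K' * K, K' * C + 2 * C', one_le_mul_of_one_le_of_one_le hK' hK, by positivity,
    fun x x' => ⟨?_, ?_⟩, fun z => ?_⟩
  · have a1 := mul_le_mul_of_nonneg_left (h1 x x').1 (inv_nonneg.2 k0)
    have a2 := (h1' (f x) (f x')).1
    have a3 : K'⁻¹ * C ≤ C := mul_le_of_le_one_left hC (inv_le_one_of_one_le₀ hK')
    rw [mul_sub, ← mul_assoc, ← mul_inv] at a1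
    simp only [Function.comp_apply]
    linarith
  · have a1 := mul_le_mul_of_nonneg_left (h1 x x').2 k0
    have a2 := (h1' (f x) (f x')).2
    simp only [Function.comp_apply]
    linarith
  · obtain ⟨y, hy⟩ := h2' z
    obtain ⟨x, hx⟩ := h2 y
    refine ⟨x, ?_⟩
    have a1 := wd_tri hU z (f' y) (f' (f x))
    have a2 := (h1' y (f x)).2
    have a3 := mul_le_mul_of_nonneg_left hx k0
    simp only [Function.comp_apply]
    linarith

theorem qi_inv (hS : Subgroup.closure S = ⊤) (hT : Subgroup.closure T = ⊤) {f : G → G'}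
    (h : IsQuasiIsometry (wordDist S) (wordDist T) f) : ∃ f' : G' → G, IsQuasiIsometry (wordDist T) (wordDist S) f' := by
  obtain ⟨K, C, hK, hC, h1, h2⟩ := h
  choose f' hf' using h2
  have k0 : 0 < K := zero_lt_one.trans_le hK
  have k1 : C ≤ K * C := le_mul_of_one_le_left hC hK
  have key : ∀ x x', wordDist S x x' ≤ K * wordDist T (f x) (f x') + K * C := by
    intro x x'
    have a1 := mul_le_mul_of_nonneg_left (h1 x x').1 k0.le
    rw [mul_sub, mul_inv_cancel_left₀ k0.ne'] at a1
    linarith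
  refine ⟨f', K, 3 * (K * C), hK, by positivity, fun y y' => ⟨?_, ?_⟩, fun x => ⟨f x, ?_⟩⟩
  · have a1 := wd_tri hT y (f (f' y)) y'
    have a2 := wd_tri hT (f (f' y)) (f (f' y')) y'
    have a3 := (h1 (f' y) (f' y')).2
    have a4 := hf' y
    have a5 := hf' y'
    rw [wd_comm hT] at a5
    have a6 : wordDist T y y' ≤ K * wordDist S (f' y) (f' y') + 3 * C := by linarith
    have a7 := mul_le_mul_of_nonneg_left a6 (inv_nonneg.2 k0.le)
    have a8 : K⁻¹ * (3 * C) ≤ 3 * C := mul_le_of_le_one_left (by positivity) (inv_le_one_of_one_le₀ hK)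
    rw [mul_add, inv_mul_cancel_left₀ k0.ne'] at a7
    linarith
  · have a1 := wd_tri hT (f (f' y)) y (f (f' y'))
    have a2 := wd_tri hT y y' (f (f' y'))
    have a4 := hf' y
    have a5 := hf' y'
    rw [wd_comm hT] at a4
    have a6 : wordDist T (f (f' y)) (f (f' y')) ≤ wordDist T y y' + 2 * C := by linarith
    have a7 := mul_le_mul_of_nonneg_left a6 k0.le
    have a8 := key (f' y) (f' y')
    linarith
  · have a1 := key x (f' (f x))
    have a2 := mul_le_mul_of_nonneg_left (hf' (f x)) k0.le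
    linarith

/-- Svarc-Milnor.  Upper bound: `wl_map`.  Lower bound: for a word `x₁ ⋯ xₙ = i γ` choose `γⱼ` with `i γⱼ` within `R` of the `j`-th prefix
(`γ₀ = 1`, `γₙ = γ`); the increments `γⱼ⁻¹ γⱼ₊₁` lie in the finite set `{γ | wordLength T (i γ) ≤ 2 R + 1}`. -/
theorem qi_of_lattice (hS : Subgroup.closure S = ⊤) (hf : S.Finite) (hT : Subgroup.closure T = ⊤) (i : G →* G')
    (hfin : ∀ R : ℕ, {γ | wordLength T (i γ) ≤ R}.Finite) (hcc : ∃ R : ℕ, ∀ g, ∃ γ, wordLength T ((i γ)⁻¹ * g) ≤ R) :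
    IsQuasiIsometry (wordDist S) (wordDist T) i := by
  obtain ⟨R, hR⟩ := hcc
  obtain ⟨R₁, hR₁⟩ := (hf.image fun s => wordLength T (i s)).bddAbove
  obtain ⟨B, hB⟩ := ((hfin (2 * R + 1)).image (wordLength S)).bddAbove
  have hB' : ∀ γ, wordLength T (i γ) ≤ 2 * R + 1 → wordLength S γ ≤ B := fun γ h => hB ⟨γ, h, rfl⟩
  have key : ∀ l : List G', (∀ x ∈ l, x ∈ T ∨ x⁻¹ ∈ T) → ∀ (γ : G) (u : G'), wordLength T u ≤ R → i γ = u * l.prod →
      wordLength S γ ≤ B * (l.length + 1) := by
    intro l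
    induction l with
    | nil =>
      intro _ γ u hu e
      rw [List.length_nil, zero_add, mul_one]
      refine hB' γ ?_
      rw [e, List.prod_nil, mul_one]
      omega
    | cons x l ih =>
      intro hl γ u hu e
      obtain ⟨γ₁, h1⟩ := hR (u * x)
      have h2 : wordLength T x ≤ 1 := (hl x List.mem_cons_self).elim wl_le_one fun h => wl_inv hT x ▸ wl_le_one h
      have h3 : wordLength S γ₁ ≤ B := by
        refine hB' _ ?_
        have a1 := wl_mul hT (u * x) ((i γ₁)⁻¹ * (u * x))⁻¹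
        have a2 := wl_mul hT u x
        rw [wl_inv hT, show u * x * ((i γ₁)⁻¹ * (u * x))⁻¹ = i γ₁ by group] at a1
        omega
      have h4 := ih (fun y hy => hl y (List.mem_cons_of_mem _ hy)) (γ₁⁻¹ * γ) _ h1
        (by rw [map_mul, map_inv, e, List.prod_cons]; group)
      have h5 := wl_mul hS γ₁ (γ₁⁻¹ * γ)
      rw [mul_inv_cancel_left] at h5
      rw [List.length_cons, mul_add B _ 1, mul_one]
      omega
  refine ⟨R₁ + B + 1, R + 1, by simp only [le_add_iff_nonneg_left]; positivity, by positivity, fun x x' => ?_, fun y => ?_⟩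
  · simp only [wordDist]
    rw [← map_inv, ← map_mul]
    obtain ⟨l, h1, h2, h3⟩ := wl_ex hT (i (x⁻¹ * x'))
    have h4 := key l h2 (x⁻¹ * x') 1 (by rw [wl_one]; exact Nat.zero_le _) (by rw [one_mul, h3])
    have h5 := wl_map hS hT i (R := R₁) (fun s hs => hR₁ ⟨s, hs, rfl⟩) (x⁻¹ * x')
    rw [h1] at h4
    have h4' : (wordLength S (x⁻¹ * x') : ℝ) ≤ B * (wordLength T (i (x⁻¹ * x')) + 1) := by exact_mod_cast h4
    have h5' : (wordLength T (i (x⁻¹ * x')) : ℝ) ≤ R₁ * wordLength S (x⁻¹ * x') := by exact_mod_cast h5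
    have a0 : (0 : ℝ) ≤ wordLength S (x⁻¹ * x') := Nat.cast_nonneg _
    have a1 : (0 : ℝ) ≤ wordLength T (i (x⁻¹ * x')) := Nat.cast_nonneg _
    have a2 : (0 : ℝ) ≤ R := Nat.cast_nonneg _
    have a3 : (0 : ℝ) ≤ R₁ := Nat.cast_nonneg _
    have a4 : (0 : ℝ) ≤ B := Nat.cast_nonneg _
    constructor
    · rw [sub_le_iff_le_add, inv_mul_le_iff₀ (by positivity)]
      nlinarith [mul_nonneg a3 a1, mul_nonneg a3 a2, mul_nonneg a4 a2]
    · nlinarith [mul_nonneg a4 a0]
  · obtain ⟨γ, h⟩ := hR y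
    refine ⟨γ, ?_⟩
    rw [wd_comm hT, wordDist]
    exact_mod_cast h.trans (Nat.le_succ R)

theorem qi_of_finiteIndex (hS : Subgroup.closure S = ⊤) (hf : S.Finite) (hT : Subgroup.closure T = ⊤) (hf' : T.Finite)
    (i : G →* G') (hi : Function.Injective i) (hr : i.range.FiniteIndex) : IsQuasiIsometry (wordDist S) (wordDist T) i := by
  refine qi_of_lattice hS hf hT i (fun R => (wl_fin hT hf' R).preimage hi.injOn) ?_
  obtain ⟨R, hR⟩ := (Set.finite_range fun q : G' ⧸ i.range => wordLength T q.out⁻¹).bddAbove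
  refine ⟨R, fun g => ?_⟩
  obtain ⟨⟨_, γ, rfl⟩, h⟩ := QuotientGroup.mk_out_eq_mul i.range g⁻¹
  refine ⟨γ, le_trans ?_ (hR ⟨(g⁻¹ : G'), rfl⟩)⟩
  simp only [h, mul_inv_rev, inv_inv, le_refl]

end Crest.Agent.R182
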