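import Crest.Agent.R182.A.ApiWt
import Crest.Agent.R182.A.QI

/-! R182/A: the word metric of a model. -/

set_option autoImplicit false
set_option linter.unusedVariables false
set_option linter.unusedSectionVars false
open Set Filter Topology MeasureTheory Crest.GroupTheory
open scoped Pointwise commutatorElement

noncomputable section
namespace Crest.Agent.R182

namespace Model
variable {h k : ℕ} (M : Model h k)

theorem apilena_root (X : V h) {n : ℕ} (hn : 0 < n) (hX : ‖X‖ ≤ n) :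
    ∃ y ∈ M.K, M.exp X = y ^ (n : ℤ) := by
  have hn' : (0 : ℝ) < n := by exact_mod_cast hn
  refine ⟨M.exp ((n : ℝ)⁻¹ • X), Or.inl ⟨_, ?_, rfl⟩, ?_⟩
  · rw [mem_closedBall_zero_iff, norm_smul, norm_inv, Real.norm_natCast, inv_mul_le_iff₀ hn', mul_one]
    exact hX
  · rw [M.exp_zpow, smul_smul, Int.cast_natCast, mul_inv_cancel₀ hn'.ne', one_smul]

theorem apilena_gen (i : Fin k) : M.gen i ∈ M.K := Or.inr ⟨i, rfl⟩

theorem closure_K : Subgroup.closure M.K = ⊤ := by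
  rw [eq_top_iff]
  intro g _
  rw [← M.exp_lgm g]
  refine mul_mem ?_ ?_
  · obtain ⟨y, hy, e⟩ := M.apilena_root (M.lgm g) (n := ⌈‖M.lgm g‖⌉₊ + 1) (Nat.succ_pos _)
      ((Nat.le_ceil _).trans (by push_cast; linarith))
    rw [e]
    exact zpow_mem (Subgroup.subset_closure hy) _
  · refine list_prod_mem fun x hx => ?_
    obtain ⟨i, rfl⟩ := List.mem_ofFn.1 hx
    exact zpow_mem (Subgroup.subset_closure (M.apilena_gen i)) _

theorem len_one : M.len 1 = 0 := wl_one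
theorem len_inv (g : M.G) : M.len g⁻¹ = M.len g := wl_inv M.closure_K g
theorem len_mul (g g' : M.G) : M.len (g * g') ≤ M.len g + M.len g' := wl_mul M.closure_K g g'

theorem apilena_zpow {y : M.G} (hy : y ∈ M.K) (n : ℤ) : M.len (y ^ n) ≤ n.natAbs :=
  (wl_zpow M.closure_K y n).trans (by simpa using Nat.mul_le_mul_left n.natAbs (wl_le_one hy))

theorem len_exp_le (X : V h) : M.len (M.exp X) ≤ ⌈‖X‖⌉₊ := by
  rcases Nat.eq_zero_or_pos ⌈‖X‖⌉₊ with h0 | h0
  · have : X = 0 := norm_le_zero_iff.1 (Nat.ceil_eq_zero.1 h0)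
    rw [this, M.exp_zero, M.len_one]
    exact Nat.zero_le _
  · obtain ⟨y, hy, e⟩ := M.apilena_root X h0 (Nat.le_ceil _)
    rw [e]
    simpa using M.apilena_zpow hy (⌈‖X‖⌉₊ : ℤ)

theorem len_sec_le (a : Fin k → ℤ) : M.len (M.sec a) ≤ ∑ i, (a i).natAbs := by
  refine (wl_list_prod M.closure_K _).trans ?_
  rw [List.map_ofFn, List.sum_ofFn]
  exact Finset.sum_le_sum fun i _ => M.apilena_zpow (M.apilena_gen i) (a i)

theorem apilena_ind {p : M.G → ℕ → Prop} (h1 : p 1 0)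
    (hs : ∀ x g n, (x ∈ M.K ∨ x⁻¹ ∈ M.K) → p g n → p (x * g) (n + 1)) (g : M.G) : p g (M.len g) := by
  obtain ⟨l, hl, hK, rfl⟩ := wl_ex M.closure_K g
  change p _ (wordLength M.K _)
  rw [← hl]
  clear hl
  induction l with
  | nil => exact h1
  | cons x l ih =>
    rw [List.prod_cons, List.length_cons]
    exact hs _ _ _ (hK x (by simp)) (ih fun y hy => hK y (by simp [hy]))

theorem apilena_tv {x : M.G} (hx : x ∈ M.K) (i : Fin k) : |(M.tv x i : ℝ)| ≤ 1 := by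
  rcases hx with ⟨X, -, rfl⟩ | ⟨j, rfl⟩
  · simp [M.tv_exp]
  · rw [M.tv_gen, Pi.single_apply]
    split_ifs <;> simp

theorem abs_tv_le (g : M.G) (i : Fin k) : |(M.tv g i : ℝ)| ≤ M.len g := by
  refine M.apilena_ind (p := fun g n => |(M.tv g i : ℝ)| ≤ n) (by simp [M.tv_one]) ?_ g
  intro x g n hx hg
  have h1 : |(M.tv x i : ℝ)| ≤ 1 := by
    rcases hx with hx | hx
    · exact M.apilena_tv hx i
    · simpa [M.tv_inv] using M.apilena_tv hx i
  rw [M.tv_mul, Pi.add_apply, Int.cast_add]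
  refine (abs_add_le _ _).trans ?_
  push_cast
  linarith

theorem exists_abs_ht_le : ∃ B : ℝ, 0 ≤ B ∧ ∀ j g, |M.ht (M.wt j) g| ≤ B * M.len g := by
  refine ⟨∑ j, ∑ i, |M.wt j i|, by positivity, fun j g => (M.abs_ht_le _ g (M.abs_tv_le g)).trans ?_⟩
  refine mul_le_mul_of_nonneg_right ?_ (Nat.cast_nonneg _)
  exact Finset.single_le_sum (f := fun j => ∑ i, |M.wt j i|) (fun j _ => by positivity) (Finset.mem_univ j)

theorem isCompact_K : IsCompact M.K :=
  ((isCompact_closedBall _ _).image M.continuous_exp).union (finite_range _).isCompact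

/-- `{len ≤ n + 1} = {len ≤ n} * (K ∪ K⁻¹ ∪ {1})` -/
theorem isCompact_ball (n : ℕ) : IsCompact {g | M.len g ≤ n} := by
  induction n with
  | zero =>
    refine (finite_singleton (1 : M.G)).subset (fun g hg => ?_) |>.isCompact
    exact (wl_eq_zero M.closure_K).1 (Nat.le_zero.1 hg)
  | succ n ih =>
    have e : {g | M.len g ≤ n + 1} = (M.K ∪ M.K⁻¹ ∪ {1}) * {g | M.len g ≤ n} := by
      ext g
      constructor
      · intro hg
        obtain ⟨l, hl, hK, rfl⟩ := wl_ex M.closure_K g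
        cases l with
        | nil => exact ⟨1, Or.inr rfl, 1, by simp [M.len_one], by simp⟩
        | cons x l =>
          refine ⟨x, Or.inl (hK x (by simp)), l.prod, ?_, by simp⟩
          have h1 : wordLength M.K l.prod ≤ l.length := wl_le fun y hy => hK y (by simp [hy])
          have h2 : wordLength M.K (x :: l).prod ≤ n + 1 := hg
          rw [← hl, List.length_cons] at h2
          exact h1.trans (by omega)
      · rintro ⟨x, hx, y, hy, rfl⟩
        have h1 : M.len x ≤ 1 := by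
          rcases hx with (hx | hx) | rfl
          · exact wl_le_one hx
          · rw [← M.len_inv]
            exact wl_le_one hx
          · simp [M.len_one]
        have h2 : M.len y ≤ n := hy
        exact (M.len_mul x y).trans (by omega)
    rw [e]
    exact ((M.isCompact_K.union M.isCompact_K.inv).union isCompact_singleton).mul ih

theorem len_bdd {s : Set M.G} (hs : IsCompact s) : ∃ n, ∀ g ∈ s, M.len g ≤ n := by
  obtain ⟨R, hR⟩ := hs.exists_bound_of_continuousOn M.continuous_lgm.continuousOn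
  obtain ⟨n, hn⟩ := ((hs.image M.continuous_tv).finite_of_discrete.image fun a => ∑ i, (a i).natAbs).bddAbove
  refine ⟨⌈R⌉₊ + n, fun g hg => ?_⟩
  rw [← M.exp_lgm g]
  exact (M.len_mul _ _).trans (add_le_add ((M.len_exp_le _).trans (Nat.ceil_mono (hR g hg)))
    ((M.len_sec_le _).trans (hn ⟨_, ⟨g, hg, rfl⟩, rfl⟩)))

theorem exists_norm_Ad_le : ∃ B : ℝ, 0 ≤ B ∧ ∀ g X, ‖M.Ad g X‖ ≤ Real.exp (B * M.len g) * ‖X‖ := by
  obtain ⟨B, hB⟩ := ((M.isCompact_K.union M.isCompact_K.inv).prod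
    (isCompact_closedBall (0 : V h) 1)).exists_bound_of_continuousOn M.continuous_Ad.continuousOn
  have h1 : ∀ x, (x ∈ M.K ∨ x⁻¹ ∈ M.K) → ∀ X, ‖M.Ad x X‖ ≤ Real.exp |B| * ‖X‖ := by
    intro x hx X
    rcases eq_or_ne X 0 with rfl | h0
    · simp
    have hp : 0 < ‖X‖ := norm_pos_iff.2 h0
    have h2 := hB (x, ‖X‖⁻¹ • X) ⟨hx, by simp [norm_smul, hp.ne']⟩
    simp only [map_smul, norm_smul, norm_inv, norm_norm] at h2
    rw [inv_mul_le_iff₀ hp, mul_comm] at h2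
    refine h2.trans (mul_le_mul_of_nonneg_right ?_ hp.le)
    linarith [Real.add_one_le_exp |B|, le_abs_self B]
  refine ⟨|B|, abs_nonneg B, M.apilena_ind (p := fun g n => ∀ X, ‖M.Ad g X‖ ≤ Real.exp (|B| * n) * ‖X‖) (by simp) ?_⟩
  intro x g n hx hg X
  rw [map_mul, Module.End.mul_apply, Nat.cast_succ, mul_add, mul_one, Real.exp_add, mul_comm (Real.exp _), mul_assoc]
  exact (h1 x hx _).trans (mul_le_mul_of_nonneg_left (hg X) (Real.exp_pos _).le)

/-- `tv` takes finitely many values on the ball; for each value `a = tv γₐ` the set `ball * γₐ⁻¹` is compact, so `lgm` is bounded on it -/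
theorem lat_fin (R : ℕ) : {γ : M.Γ | M.len γ ≤ R}.Finite := by
  have hf := ((M.isCompact_ball R).image M.continuous_tv).finite_of_discrete
  have key : ∀ a, {g : M.G | g ∈ M.Γ ∧ M.len g ≤ R ∧ M.tv g = a}.Finite := by
    intro a
    obtain ⟨γ, hγ, ha⟩ := M.lat.surj a
    obtain ⟨B, hB⟩ := (M.isCompact_ball R).exists_bound_of_continuousOn
      (M.continuous_lgm.comp (continuous_mul_const γ⁻¹)).continuousOn
    refine ((M.lat.fin B).image fun X => M.exp X * γ).subset ?_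
    rintro g ⟨hg, hl, ht⟩
    obtain ⟨X, rfl⟩ := M.exists_exp_mul (ht.trans ha.symm)
    refine ⟨X, ⟨by simpa using mul_mem hg (inv_mem hγ), ?_⟩, rfl⟩
    simpa [M.lgm_exp] using hB _ hl
  refine ((hf.biUnion fun a _ => key a).preimage Subtype.val_injective.injOn).subset fun γ hγ => ?_
  exact mem_iUnion₂.2 ⟨_, ⟨_, hγ, rfl⟩, γ.2, hγ, rfl⟩

theorem lat_cc : ∃ R : ℕ, ∀ g, ∃ γ : M.Γ, M.len ((γ : M.G)⁻¹ * g) ≤ R := by
  obtain ⟨R, hR⟩ := M.lat.cc
  refine ⟨⌈R⌉₊, fun g => ?_⟩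
  obtain ⟨γ, hγ, ha⟩ := M.lat.surj (M.tv g)
  obtain ⟨X, hX⟩ := (M.tv_eq_zero (g := γ⁻¹ * g)).1 (by rw [M.tv_mul, M.tv_inv, ha, neg_add_cancel])
  obtain ⟨δ, hδ, Y, hY, e⟩ := hR X
  refine ⟨⟨γ * δ, mul_mem hγ hδ⟩, ?_⟩
  have : (γ * δ)⁻¹ * g = M.exp Y := by rw [mul_inv_rev, mul_assoc, ← hX, e, inv_mul_cancel_left]
  rw [this]
  exact (M.len_exp_le _).trans (Nat.ceil_mono hY)

/-- boxes adapted to the lower central series -/
def Q (s : ℝ) : Set (V h) := {X | ∀ j, |X j| ≤ s ^ M.dep j}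

theorem apilenb_expand (X Y : V h) (m : Fin h) :
    M.br X Y m = ∑ j, ∑ l, X j * Y l * M.br (Pi.single j 1) (Pi.single l 1) m := by
  conv_lhs => rw [pi_eq_sum_univ' X, pi_eq_sum_univ' Y]
  simp only [map_sum, LinearMap.sum_apply, map_smul, LinearMap.smul_apply, Finset.sum_apply, Pi.smul_apply,
    smul_eq_mul, Finset.mul_sum]
  rw [Finset.sum_comm]
  refine Finset.sum_congr rfl fun j _ => ?_
  refine Finset.sum_congr rfl fun l _ => ?_
  ring

/-- expand in the basis: `br (e j) (e l) ∈ F (dep j + dep l)` -/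
theorem br_Q : ∃ B : ℝ, 1 ≤ B ∧ ∀ s a b : ℝ, 1 ≤ s → 0 ≤ a → 0 ≤ b → ∀ X Y : V h, (∀ j, |X j| ≤ a * s ^ M.dep j) →
    (∀ j, |Y j| ≤ b * s ^ M.dep j) → ∀ j, |M.br X Y j| ≤ B * a * b * s ^ M.dep j := by
  refine ⟨1 + ∑ m, ∑ j, ∑ l, |M.br (Pi.single j 1) (Pi.single l 1) m|, ?_, ?_⟩
  · have : 0 ≤ ∑ m, ∑ j, ∑ l, |M.br (Pi.single j 1) (Pi.single l 1) m| := by positivity
    linarith
  intro s a b hs ha hb X Y hX hY m
  have hs0 : 0 ≤ s := by linarith
  have hterm : ∀ j l, |X j * Y l * M.br (Pi.single j 1) (Pi.single l 1) m| ≤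
      |M.br (Pi.single j 1) (Pi.single l 1) m| * (a * b * s ^ M.dep m) := by
    intro j l
    by_cases hd : M.dep m < M.dep j + M.dep l
    · have h0 : M.br (Pi.single j 1) (Pi.single l 1) m = 0 :=
        (M.mem_F _ _).1 (M.br_F (M.single_mem_F j 1) (M.single_mem_F l 1)) m hd
      simp [h0]
    · rw [abs_mul, abs_mul, mul_comm]
      refine mul_le_mul_of_nonneg_left ?_ (abs_nonneg _)
      calc |X j| * |Y l| ≤ (a * s ^ M.dep j) * (b * s ^ M.dep l) :=
            mul_le_mul (hX j) (hY l) (abs_nonneg _) (by positivity)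
        _ = a * b * s ^ (M.dep j + M.dep l) := by rw [pow_add]; ring
        _ ≤ a * b * s ^ M.dep m :=
            mul_le_mul_of_nonneg_left (pow_le_pow_right₀ hs (not_lt.1 hd)) (by positivity)
  rw [M.apilenb_expand]
  calc |∑ j, ∑ l, X j * Y l * M.br (Pi.single j 1) (Pi.single l 1) m|
      ≤ ∑ j, ∑ l, |M.br (Pi.single j 1) (Pi.single l 1) m| * (a * b * s ^ M.dep m) := by
        refine (Finset.abs_sum_le_sum_abs _ _).trans (Finset.sum_le_sum fun j _ => ?_)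
        exact (Finset.abs_sum_le_sum_abs _ _).trans (Finset.sum_le_sum fun l _ => hterm j l)
    _ = (∑ j, ∑ l, |M.br (Pi.single j 1) (Pi.single l 1) m|) * (a * b * s ^ M.dep m) := by
        simp only [Finset.sum_mul]
    _ ≤ (1 + ∑ m, ∑ j, ∑ l, |M.br (Pi.single j 1) (Pi.single l 1) m|) * (a * b * s ^ M.dep m) := by
        refine mul_le_mul_of_nonneg_right ?_ (by positivity)
        have := Finset.single_le_sum (f := fun m => ∑ j, ∑ l, |M.br (Pi.single j 1) (Pi.single l 1) m|)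
          (fun m _ => by positivity) (Finset.mem_univ m)
        linarith
    _ = _ := by ring

theorem bch_Q : ∃ B : ℝ, 1 ≤ B ∧ ∀ s : ℝ, 1 ≤ s → ∀ X ∈ M.Q s, ∀ Y ∈ M.Q s, M.bch X Y ∈ M.Q (B * s) := by
  obtain ⟨B, hB, hbr⟩ := M.br_Q
  have hB0 : 0 ≤ B := by linarith
  have hsum : 0 ≤ ∑ w ∈ M.ws, |M.coef w| * B ^ (w.length + 1) := by positivity
  refine ⟨2 + ∑ w ∈ M.ws, |M.coef w| * B ^ (w.length + 1), by linarith, ?_⟩
  intro s hs X hX Y hY j
  have hs0 : 0 ≤ s := by linarith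
  have hX' : ∀ j, |X j| ≤ 1 * s ^ M.dep j := fun j => by rw [one_mul]; exact hX j
  have hY' : ∀ j, |Y j| ≤ 1 * s ^ M.dep j := fun j => by rw [one_mul]; exact hY j
  have hnest : ∀ w : List Bool, ∀ j, |nest M.br X Y w j| ≤ B ^ (w.length + 1) * s ^ M.dep j := by
    intro w
    induction w with
    | nil =>
      intro j
      have := hbr s 1 1 hs zero_le_one zero_le_one X Y hX' hY' j
      simpa [nest] using this
    | cons b w ih =>
      intro j
      have hb : ∀ j, |(if b then X else Y) j| ≤ 1 * s ^ M.dep j := by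
        cases b
        · simpa using hY'
        · simpa using hX'
      have := hbr s 1 (B ^ (w.length + 1)) hs zero_le_one (by positivity) _ _ hb ih j
      have e : nest M.br X Y (b :: w) = M.br (if b then X else Y) (nest M.br X Y w) := rfl
      rw [e, List.length_cons, pow_succ' B (w.length + 1)]
      simpa using this
  set C := 2 + ∑ w ∈ M.ws, |M.coef w| * B ^ (w.length + 1) with hC
  have hC1 : 1 ≤ C := by linarith
  have e : M.bch X Y j = X j + Y j + ∑ w ∈ M.ws, M.coef w * nest M.br X Y w j := by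
    simp [Core.bch, bchF, Finset.sum_apply]
  calc |M.bch X Y j| ≤ |X j| + |Y j| + ∑ w ∈ M.ws, |M.coef w| * B ^ (w.length + 1) * s ^ M.dep j := by
        rw [e]
        refine (abs_add_le _ _).trans (add_le_add (abs_add_le _ _) ?_)
        refine (Finset.abs_sum_le_sum_abs _ _).trans (Finset.sum_le_sum fun w _ => ?_)
        rw [abs_mul, mul_assoc]
        exact mul_le_mul_of_nonneg_left (hnest w j) (abs_nonneg _)
    _ ≤ C * s ^ M.dep j := by
        rw [hC, ← Finset.sum_mul, add_mul]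
        have h1 := hX j
        have h2 := hY j
        linarith
    _ ≤ (C * s) ^ M.dep j := by
        rw [mul_pow]
        refine mul_le_mul_of_nonneg_right ?_ (by positivity)
        exact le_self_pow₀ hC1 (Nat.one_le_iff_ne_zero.1 (M.one_le_dep j))

theorem apilenb_mono {s t : ℝ} (hs : 0 ≤ s) (hst : s ≤ t) {X : V h} (hX : X ∈ M.Q s) : X ∈ M.Q t :=
  fun j => (hX j).trans (pow_le_pow_left₀ hs hst _)

theorem apilenb_pow {B : ℝ} (hB : 1 ≤ B)
    (hb : ∀ s : ℝ, 1 ≤ s → ∀ X ∈ M.Q s, ∀ Y ∈ M.Q s, M.bch X Y ∈ M.Q (B * s)) (s : ℝ) (hs : 1 ≤ s) (r : ℕ) :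
    ∀ l : List (V h), l.length ≤ 2 ^ r → (∀ X ∈ l, X ∈ M.Q s) →
      ∃ Z ∈ M.Q (B ^ r * s), (l.map M.exp).prod = M.exp Z := by
  induction r with
  | zero =>
    intro l hl hX
    match l, hl, hX with
    | [], _, _ =>
      refine ⟨0, fun j => ?_, by simp [M.exp_zero]⟩
      simp only [Pi.zero_apply, abs_zero]
      positivity
    | [X], _, hX => exact ⟨X, by simpa using hX X (by simp), by simp⟩
    | _ :: _ :: _, hl, _ => simp at hl
  | succ r ih =>
    intro l hl hX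
    obtain ⟨Z₁, hZ₁, e₁⟩ := ih (l.take (2 ^ r)) (by simp) fun X h => hX X (List.mem_of_mem_take h)
    obtain ⟨Z₂, hZ₂, e₂⟩ := ih (l.drop (2 ^ r)) (by rw [List.length_drop]; rw [pow_succ] at hl; omega)
      fun X h => hX X (List.mem_of_mem_drop h)
    have h1 : 1 ≤ B ^ r * s := one_le_mul_of_one_le_of_one_le (one_le_pow₀ hB) hs
    refine ⟨M.bch Z₁ Z₂, ?_, ?_⟩
    · have := hb _ h1 _ hZ₁ _ hZ₂
      rwa [← mul_assoc, ← pow_succ'] at this
    · rw [← M.exp_bch, ← e₁, ← e₂, ← List.prod_append, ← List.map_append, List.take_append_drop]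

theorem apilenb_of_norm {s : ℝ} (hs : 1 ≤ s) {X : V h} (hX : ‖X‖ ≤ s) : X ∈ M.Q s := fun j =>
  ((norm_le_pi_norm X j).trans hX).trans (le_self_pow₀ hs (Nat.one_le_iff_ne_zero.1 (M.one_le_dep j)))

theorem apilenb_norm_le {t : ℝ} (ht : 1 ≤ t) {X : V h} (hX : X ∈ M.Q t) : ‖X‖ ≤ t ^ M.cl :=
  (pi_norm_le_iff_of_nonneg (by positivity)).2 fun j => (hX j).trans (pow_le_pow_right₀ ht (M.dep_le j))

/-- lists of length `≤ 2 ^ r` give `Q (B ^ r * s)` (split in halves) -/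
theorem prod_Q : ∃ (B : ℝ) (D : ℕ), 1 ≤ B ∧ ∀ (s : ℝ) (l : List (V h)), 1 ≤ s → (∀ X ∈ l, X ∈ M.Q s) →
    ∃ Z ∈ M.Q (B * (1 + l.length) ^ D * s), (l.map M.exp).prod = M.exp Z := by
  obtain ⟨B, hB, hb⟩ := M.bch_Q
  obtain ⟨D, hD⟩ : ∃ D : ℕ, B ≤ 2 ^ D := by
    obtain ⟨D, hD⟩ := pow_unbounded_of_one_lt B (by norm_num : (1 : ℝ) < 2)
    exact ⟨D, hD.le⟩
  refine ⟨B, D, hB, fun s l hs hX => ?_⟩
  obtain ⟨Z, hZ, e⟩ := M.apilenb_pow hB hb s hs (Nat.log 2 (1 + l.length) + 1) l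
    (by have := Nat.lt_pow_succ_log_self (b := 2) (by norm_num) (1 + l.length); omega) hX
  refine ⟨Z, M.apilenb_mono (by positivity) ?_ hZ, e⟩
  refine mul_le_mul_of_nonneg_right ?_ (by linarith)
  rw [pow_succ']
  refine mul_le_mul_of_nonneg_left ?_ (by linarith)
  have h2 : (2 : ℝ) ^ Nat.log 2 (1 + l.length) ≤ 1 + l.length := by
    exact_mod_cast Nat.pow_log_le_self 2 (by omega : 1 + l.length ≠ 0)
  calc B ^ Nat.log 2 (1 + l.length) ≤ (2 ^ D) ^ Nat.log 2 (1 + l.length) := pow_le_pow_left₀ (by linarith) hD _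
    _ = (2 ^ Nat.log 2 (1 + l.length)) ^ D := by rw [← pow_mul, ← pow_mul, mul_comm]
    _ ≤ (1 + l.length) ^ D := pow_le_pow_left₀ (by positivity) h2 _

theorem norm_prod_le : ∃ (B : ℝ) (D : ℕ), 1 ≤ B ∧ ∀ (s : ℝ) (l : List (V h)), 1 ≤ s → (∀ X ∈ l, ‖X‖ ≤ s) →
    ∃ Z, ‖Z‖ ≤ B * ((1 + l.length) * s) ^ D ∧ (l.map M.exp).prod = M.exp Z := by
  obtain ⟨B, D, hB, hp⟩ := M.prod_Q
  refine ⟨B ^ M.cl, (D + 1) * M.cl, one_le_pow₀ hB, fun s l hs hX => ?_⟩
  obtain ⟨Z, hZ, e⟩ := hp s l hs fun X h => M.apilenb_of_norm hs (hX X h)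
  have hl : (1 : ℝ) ≤ 1 + l.length := by simp
  have h1 : 1 ≤ B * (1 + l.length) ^ D * s :=
    one_le_mul_of_one_le_of_one_le (one_le_mul_of_one_le_of_one_le hB (one_le_pow₀ hl)) hs
  refine ⟨Z, (M.apilenb_norm_le h1 hZ).trans ?_, e⟩
  rw [pow_mul, ← mul_pow]
  refine pow_le_pow_left₀ (by linarith) ?_ _
  rw [mul_assoc]
  refine mul_le_mul_of_nonneg_left ?_ (by linarith)
  rw [mul_pow]
  exact mul_le_mul (pow_le_pow_right₀ hl (Nat.le_succ D)) (le_self_pow₀ hs (Nat.succ_ne_zero D)) (by linarith)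
    (by positivity)

theorem norm_bch_le : ∃ (B : ℝ) (D : ℕ), 1 ≤ B ∧ ∀ (s : ℝ) (X Y : V h), 1 ≤ s → ‖X‖ ≤ s → ‖Y‖ ≤ s →
    ‖M.bch X Y‖ ≤ B * s ^ D := by
  obtain ⟨B, hB, hb⟩ := M.bch_Q
  refine ⟨B ^ M.cl, M.cl, one_le_pow₀ hB, fun s X Y hs hX hY => ?_⟩
  rw [← mul_pow]
  exact M.apilenb_norm_le (one_le_mul_of_one_le_of_one_le hB hs)
    (hb s hs X (M.apilenb_of_norm hs hX) Y (M.apilenb_of_norm hs hY))

end Model

end Crest.Agent.R182
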