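import Crest.Agent.R182.A.ApiPoly

/-! R182/A: the exponential radical is exponentially distorted. -/

set_option autoImplicit false
set_option linter.unusedVariables false
set_option linter.unusedSectionVars false
open Set Filter Topology MeasureTheory Crest.GroupTheory
open scoped Pointwise commutatorElement

noncomputable section
namespace Crest.Agent.R182

namespace Model
variable {h k : ℕ} (M : Model h k)

/-- logarithmic word length on a subspace -/
def LogS (U : Submodule ℝ (V h)) : Prop := ∃ B : ℝ, 0 ≤ B ∧ ∀ X ∈ U, (M.len (M.exp X) : ℝ) ≤ B * Real.log (2 + ‖X‖)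

theorem apiloga_two {x : ℝ} (hx : 0 ≤ x) : 1 ≤ 2 * Real.log (2 + x) := by
  have h1 := Real.log_two_gt_d9
  have h2 := Real.log_le_log two_pos (le_add_of_nonneg_right hx)
  linarith

theorem apiloga_log (B : ℝ) (D : ℕ) : ∃ B' : ℝ, 0 ≤ B' ∧ ∀ x y : ℝ, 0 ≤ x → 0 ≤ y → y ≤ B * (1 + x) ^ D →
    Real.log (2 + y) ≤ B' * Real.log (2 + x) := by
  have h0 : 0 ≤ Real.log (2 + |B|) := Real.log_nonneg (by linarith [abs_nonneg B])
  refine ⟨2 * Real.log (2 + |B|) + D, by positivity, fun x y hx hy h => ?_⟩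
  have h1 : (1 : ℝ) ≤ (2 + x) ^ D := one_le_pow₀ (by linarith)
  have h2 : y ≤ |B| * (2 + x) ^ D := h.trans (by gcongr; exacts [le_abs_self B, by norm_num])
  have h3 : Real.log (2 + y) ≤ Real.log ((2 + |B|) * (2 + x) ^ D) := Real.log_le_log (by positivity) (by linarith)
  rw [Real.log_mul (by positivity) (by positivity), Real.log_pow] at h3
  nlinarith [apiloga_two hx]

theorem apiloga_pow {ε : ℝ} (hε : 0 < ε) (D : ℕ) : ∃ C : ℝ, 0 ≤ C ∧ ∀ m : ℝ, 0 ≤ m → (1 + m) ^ D ≤ C * Real.exp (ε * m) := by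
  refine ⟨D.factorial * Real.exp ε / ε ^ D, by positivity, fun m hm => ?_⟩
  have := Real.pow_div_factorial_le_exp (ε * (1 + m)) (by positivity) D
  rw [div_le_iff₀ (by positivity), mul_pow, mul_add, mul_one, Real.exp_add] at this
  rw [div_mul_eq_mul_div, le_div_iff₀ (by positivity)]
  linarith
/-- `t = gen i ^ (±1)` with `ht α t > 0`; `exp X = t ^ m * exp (Ad (t ^ m)⁻¹ X) * (t ^ m)⁻¹` with `m ≈ B log (2 + ‖X‖)` (`Grading.W_le_D` is
pointwise, use `norm_Ad_GW`) -/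
theorem logS_W {α : Fin k → ℝ} (hα : α ≠ 0) : M.LogS (M.W α) := by
  obtain ⟨i, hi⟩ := Function.ne_iff.1 hα
  have hc : 0 < |α i| / 2 := half_pos (abs_pos.2 hi)
  obtain ⟨B, D, hB, hAd⟩ := M.norm_Ad_sec
  obtain ⟨C, hC, hpow⟩ := apiloga_pow hc D
  refine ⟨2 / (|α i| / 2) + 2 * (B * C + 3), by positivity, fun X hX => ?_⟩
  have hL := apiloga_two (norm_nonneg X)
  set L := Real.log (2 + ‖X‖) with hLdef
  set m : ℕ := ⌈L / (|α i| / 2)⌉₊ with hm
  have hm1 : L / (|α i| / 2) ≤ m := Nat.le_ceil _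
  have hm2 : (m : ℝ) ≤ L / (|α i| / 2) + 1 := (Nat.ceil_lt_add_one (div_nonneg (by linarith) hc.le)).le
  obtain ⟨n, hn1, hn2⟩ : ∃ n : ℤ, n.natAbs = m ∧ α i * n = -(|α i| * m) := by
    rcases le_total 0 (α i) with h | h
    · exact ⟨-m, by simp, by rw [abs_of_nonneg h]; push_cast; ring⟩
    · exact ⟨m, by simp, by rw [abs_of_nonpos h]; push_cast; ring⟩
  set g := M.sec (Pi.single i n) with hg
  have h1 : M.ht α g = -(|α i| * m) := by
    rw [← hn2, Core.ht, hg, M.tv_sec]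
    simp [dotProduct, Pi.single_apply]
  have h2 : ‖(Pi.single i n : Fin k → ℤ)‖ = m := by
    rw [Pi.norm_single, ← hn1, Int.norm_eq_abs, Nat.cast_natAbs, Int.cast_abs]
  have h3 : M.len g ≤ m := by
    refine (M.len_sec_le _).trans_eq ?_
    rw [Finset.sum_eq_single i (fun j _ hj => by simp [hj]) (by simp), Pi.single_eq_same, hn1]
  have h4 : ‖M.Ad g X‖ ≤ B * C := by
    have e1 := (hAd (Pi.single i n) α X hX).1
    rw [← hg, h1, h2] at e1
    have e2 : ‖X‖ ≤ Real.exp (|α i| / 2 * m) := by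
      have : L ≤ |α i| / 2 * m := by rwa [div_le_iff₀' hc] at hm1
      have e3 := Real.exp_le_exp.2 this
      rw [hLdef, Real.exp_log (by positivity)] at e3
      linarith
    have e3 := hpow m (Nat.cast_nonneg m)
    calc _ ≤ B * (C * Real.exp (|α i| / 2 * m)) * Real.exp (-(|α i| * m)) * Real.exp (|α i| / 2 * m) :=
          e1.trans (by gcongr)
      _ = B * C * Real.exp (|α i| / 2 * m + -(|α i| * m) + |α i| / 2 * m) := by
          rw [Real.exp_add, Real.exp_add]; ring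
      _ = B * C := by rw [show |α i| / 2 * m + -(|α i| * m) + |α i| / 2 * m = 0 by ring, Real.exp_zero, mul_one]
  have h5 : M.exp X = g⁻¹ * M.exp (M.Ad g X) * g := by
    rw [← M.conj]
    group
  have h6 : M.len (M.exp X) ≤ m + ⌈‖M.Ad g X‖⌉₊ + m := by
    rw [h5]
    exact (M.len_mul _ _).trans (add_le_add ((M.len_mul _ _).trans
      (add_le_add ((M.len_inv g).trans_le h3) (M.len_exp_le _))) h3)
  have h7 : (⌈‖M.Ad g X‖⌉₊ : ℝ) ≤ B * C + 1 := (Nat.ceil_lt_add_one (norm_nonneg _)).le.trans (by linarith)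
  have h8 : (M.len (M.exp X) : ℝ) ≤ m + ⌈‖M.Ad g X‖⌉₊ + m := by exact_mod_cast h6
  have h9 : 0 ≤ B * C + 3 := by positivity
  have h10 : 2 / (|α i| / 2) * L = 2 * (L / (|α i| / 2)) := by ring
  nlinarith

/-- if `v ∉ U` then `X = X' + t • v` with `|t| ≤ B ‖X‖`; `exp X = exp (Z t) * exp (bch (-Z t) X)` and `bch (-Z t) X ∈ U` has polynomial size
(`bch_sub_mem`, `norm_bch_le`) -/
theorem logS_step {U : Submodule ℝ (V h)} (hU : M.LogS U) {v : V h}
    (hb : ∀ X ∈ U ⊔ Submodule.span ℝ {v}, ∀ Y ∈ U ⊔ Submodule.span ℝ {v}, M.br X Y ∈ U) (Z : ℝ → V h) (B : ℝ) (D : ℕ)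
    (hZ : ∀ t, Z t - t • v ∈ U ∧ ‖Z t‖ ≤ B * (1 + |t|) ^ D ∧ (M.len (M.exp (Z t)) : ℝ) ≤ B * Real.log (2 + |t|)) :
    M.LogS (U ⊔ Submodule.span ℝ {v}) := by
  by_cases hv : v ∈ U
  · rwa [sup_eq_left.2 ((Submodule.span_singleton_le_iff_mem v U).2 hv)]
  obtain ⟨ℓ, h1, h2⟩ := Submodule.exists_le_ker_of_notMem hv
  obtain ⟨B0, hB0, hU⟩ := hU
  obtain ⟨B2, D2, hB2, hbch⟩ := M.norm_bch_le
  obtain ⟨C1, hC1, l1⟩ := apiloga_log (‖LinearMap.toContinuousLinearMap ℓ‖ / |ℓ v|) 1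
  obtain ⟨C2, hC2, l2⟩ := apiloga_log B D
  obtain ⟨C3, hC3, l3⟩ := apiloga_log B2 D2
  refine ⟨|B| * C1 + B0 * (C3 * (C2 * C1 + 1)), by positivity, fun X hX => ?_⟩
  obtain ⟨u, hu, w, hw, e⟩ := Submodule.mem_sup.1 hX
  obtain ⟨t, rfl⟩ := Submodule.mem_span_singleton.1 hw
  obtain ⟨z1, z2, z3⟩ := hZ t
  have ht : |t| ≤ ‖LinearMap.toContinuousLinearMap ℓ‖ / |ℓ v| * (1 + ‖X‖) ^ 1 := by
    have e1 : ℓ X = t * ℓ v := by rw [← e, map_add, map_smul, LinearMap.mem_ker.1 (h2 hu), zero_add, smul_eq_mul]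
    have e2 := (LinearMap.toContinuousLinearMap ℓ).le_opNorm X
    rw [LinearMap.coe_toContinuousLinearMap', e1, Real.norm_eq_abs, abs_mul] at e2
    rw [pow_one, div_mul_eq_mul_div, le_div_iff₀ (abs_pos.2 h1)]
    refine e2.trans ?_
    gcongr
    linarith
  have hZ' : -Z t ∈ U ⊔ Submodule.span ℝ {v} := by
    rw [neg_mem_iff, ← sub_add_cancel (Z t) (t • v)]
    exact Submodule.add_mem_sup z1 hw
  have hm : M.bch (-Z t) X ∈ U := by
    have := M.bch_sub_mem (U := U) (hb _ hZ' _ hX) (fun W hW => hb _ hZ' _ (Submodule.mem_sup_left hW))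
      (fun W hW => hb _ hX _ (Submodule.mem_sup_left hW))
    convert add_mem this (sub_mem hu z1) using 1
    rw [← e]
    abel
  have he : M.exp X = M.exp (Z t) * M.exp (M.bch (-Z t) X) := by
    rw [← M.exp_bch, M.exp_neg, mul_inv_cancel_left]
  have n1 := norm_nonneg X
  have n2 := norm_nonneg (Z t)
  have a1 := l1 _ _ n1 (abs_nonneg t) ht
  have a2 := l2 _ _ (abs_nonneg t) n2 z2
  have a3 := l3 (1 + ‖Z t‖ + ‖X‖) _ (by positivity) (norm_nonneg (M.bch (-Z t) X))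
    ((hbch (1 + ‖Z t‖ + ‖X‖) _ _ (by linarith) (by rw [norm_neg]; linarith) (by linarith)).trans
      (mul_le_mul_of_nonneg_left (pow_le_pow_left₀ (by positivity) (by linarith) _) (by linarith)))
  have a4 : Real.log (2 + (1 + ‖Z t‖ + ‖X‖)) ≤ Real.log (2 + ‖Z t‖) + Real.log (2 + ‖X‖) := by
    rw [← Real.log_mul (by positivity) (by positivity)]
    exact Real.log_le_log (by positivity) (by nlinarith [mul_nonneg n1 n2])
  have a5 : (M.len (M.exp X) : ℝ) ≤ M.len (M.exp (Z t)) + M.len (M.exp (M.bch (-Z t) X)) := by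
    rw [he]
    exact_mod_cast M.len_mul _ _
  have a6 : 0 ≤ Real.log (2 + |t|) := by linarith [apiloga_two (abs_nonneg t)]
  calc _ ≤ |B| * Real.log (2 + |t|) + B0 * (C3 * (C2 * Real.log (2 + |t|) + Real.log (2 + ‖X‖))) := by
        refine a5.trans (add_le_add (z3.trans (by gcongr; exact le_abs_self B)) ((hU _ hm).trans ?_))
        gcongr
        refine a3.trans ?_
        gcongr
        linarith
    _ ≤ |B| * (C1 * Real.log (2 + ‖X‖)) + B0 * (C3 * (C2 * (C1 * Real.log (2 + ‖X‖)) + Real.log (2 + ‖X‖))) := by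
        gcongr
    _ = _ := by ring

/-- lower central series of `E` -/
def EF : ℕ → Submodule ℝ (V h)
  | 0 => M.E
  | i + 1 => Submodule.map₂ M.br M.E (EF i)

theorem EF_anti : Antitone M.EF := by
  refine antitone_nat_of_succ_le fun i => ?_
  induction i with
  | zero => exact Submodule.map₂_le.2 fun X _ Y hY => M.isIdl_E X Y hY
  | succ i ih => exact Submodule.map₂_le_map₂_right ih

theorem EF_le_F (i : ℕ) : M.EF i ≤ M.F (i + 1) := by
  induction i with
  | zero => exact le_top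
  | succ i ih => exact Submodule.map₂_le_map₂ le_top ih

theorem Ad_EF (g : M.G) {i : ℕ} {X : V h} (hX : X ∈ M.EF i) : M.Ad g X ∈ M.EF i := by
  induction i generalizing X with
  | zero => exact M.Ad_E g hX
  | succ i ih =>
    refine (Submodule.map₂_le.2 fun a ha b hb => ?_ : M.EF (i + 1) ≤ (M.EF (i + 1)).comap (M.Ad g)) hX
    rw [Submodule.mem_comap, M.Ad_br]
    exact Submodule.apply_mem_map₂ _ (M.Ad_E g ha) (ih hb)

theorem br_EF {i j : ℕ} {X Y : V h} (hX : X ∈ M.EF i) (hY : Y ∈ M.EF j) : M.br X Y ∈ M.EF (i + j + 1) := by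
  induction i generalizing j X Y with
  | zero =>
    rw [zero_add]
    exact Submodule.apply_mem_map₂ _ hX hY
  | succ i ih =>
    refine (Submodule.map₂_le.2 fun a ha b hb => ?_ :
      M.EF (i + 1) ≤ (M.EF (i + 1 + j + 1)).comap (M.br.flip Y)) hX
    rw [Submodule.mem_comap, LinearMap.flip_apply, eq_sub_of_add_eq (M.jacobi a b Y).symm]
    refine Submodule.sub_mem _ ?_ ?_
    · rw [add_right_comm i 1 j]
      exact Submodule.apply_mem_map₂ _ ha (ih hb hY)
    · rw [add_assoc i 1 j, add_comm 1 j]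
      exact ih hb (Submodule.apply_mem_map₂ _ ha hY)

/-- `E_eq`; `EF i` is graded (`Grading.graded`) -/
theorem EF_zero_le : M.EF 0 ≤ M.EF 1 ⊔ Submodule.span ℝ {v | ∃ α, α ≠ 0 ∧ v ∈ M.W α} := by
  change M.E ≤ _
  rw [M.E_eq]
  refine iSup_le fun α => sup_le (le_sup_of_le_right fun v hv => Submodule.subset_span ⟨α.1, α.2, hv⟩)
    (le_sup_of_le_left ?_)
  exact Submodule.map₂_le_map₂ (M.W_le_E α.2) (M.W_le_E (neg_ne_zero.2 α.2))

theorem EF_succ_le (i : ℕ) : M.EF (i + 1) ≤ M.EF (i + 2) ⊔ Submodule.span ℝ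
    {v | (v ∈ M.EF (i + 1) ∧ ∃ α, α ≠ 0 ∧ v ∈ M.W α) ∨
      ∃ α, α ≠ 0 ∧ ∃ Y ∈ M.W α, ∃ Z ∈ M.W (-α), Z ∈ M.EF i ∧ v = M.br Y Z} := by
  refine Submodule.map₂_le.2 fun a ha b hb => ?_
  obtain ⟨a₁, h1, a₂, h2, rfl⟩ := Submodule.mem_sup.1 (M.EF_zero_le ha)
  rw [map_add, LinearMap.add_apply]
  refine Submodule.add_mem_sup ?_ ?_
  · have := M.br_EF h1 hb
    rwa [add_comm 1 i] at this
  · clear ha h1
    induction h2 using Submodule.span_induction with
    | zero => simp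
    | add x y _ _ hx hy => rw [map_add, LinearMap.add_apply]; exact Submodule.add_mem _ hx hy
    | smul c x _ hx => rw [map_smul, LinearMap.smul_apply]; exact Submodule.smul_mem _ _ hx
    | mem x hx =>
      obtain ⟨α, hα, hx⟩ := hx
      have hb' := M.grading.graded (M.EF i) (fun g _ X hX => M.Ad_EF g hX) hb
      refine Submodule.mem_comap.1 ((iSup_le fun β y hy => ?_ : _ ≤ Submodule.comap (M.br x) _) hb')
      refine Submodule.mem_comap.2 (Submodule.subset_span ?_)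
      by_cases e : α + β = 0
      · obtain rfl : β = -α := eq_neg_of_add_eq_zero_right e
        exact Or.inr ⟨α, hα, x, hx, y, hy.2, hy.1, rfl⟩
      · exact Or.inl ⟨Submodule.apply_mem_map₂ _ (M.W_le_E hα hx) hy.1, _, e, M.grading.br_W _ _ _ hx _ hy.2⟩

theorem apilogb_Ad (c : Core h k) {U : Submodule ℝ (V h)} {X Y : V h} (h0 : c.br X (c.br X Y) ∈ U)
    (hX : ∀ Z ∈ U, c.br X Z ∈ U) : c.Ad (c.exp X) Y - Y - c.br X Y ∈ U := by
  have e : ex c.cl (c.br X : Module.End ℝ (V h)) = ex (c.cl + 2) (c.br X : Module.End ℝ (V h)) := by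
    simp only [ex, Finset.sum_range_succ, pow_succ, c.br_pow_cl, zero_mul, smul_zero, add_zero]
  have hp : ∀ n : ℕ, ((c.br X : Module.End ℝ (V h)) ^ (n + 1 + 1)) Y ∈ U := by
    intro n
    induction n with
    | zero => simpa [pow_succ] using h0
    | succ n ih => rw [pow_succ', Module.End.mul_apply]; exact hX _ ih
  rw [c.Ad_exp, e, ex, Finset.sum_range_succ', Finset.sum_range_succ']
  simp only [LinearMap.add_apply, LinearMap.sum_apply, LinearMap.smul_apply, zero_add, Nat.factorial_one,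
    Nat.factorial_zero, Nat.cast_one, inv_one, one_smul, pow_one, pow_zero, Module.End.one_apply, add_sub_cancel_right]
  exact Submodule.sum_mem _ fun n _ => Submodule.smul_mem _ _ (hp n)

/-- `⁅exp Y, exp Z⁆ = exp (br Y Z + R)`, `R ∈ EF (i + 2)` -/
theorem comm_exp {i : ℕ} {Y Z : V h} (hY : Y ∈ M.E) (hZ : Z ∈ M.EF i) :
    ∃ R ∈ M.EF (i + 2), ⁅M.exp Y, M.exp Z⁆ = M.exp (M.br Y Z + R) := by
  have hE : ∀ X ∈ M.E, ∀ j, ∀ U ∈ M.EF j, M.br X U ∈ M.EF j := fun X hX j U hU =>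
    M.EF_anti (Nat.le_succ j) (Submodule.apply_mem_map₂ _ hX hU)
  have hYZ : M.br Y Z ∈ M.EF (i + 1) := Submodule.apply_mem_map₂ _ hY hZ
  have h1 : M.Ad (M.exp Y) Z - Z - M.br Y Z ∈ M.EF (i + 2) :=
    apilogb_Ad M.toCore (Submodule.apply_mem_map₂ _ hY hYZ) (hE Y hY _)
  have h2 : M.Ad (M.exp Y) Z - Z ∈ M.EF (i + 1) := by
    simpa using Submodule.add_mem _ (M.EF_anti (Nat.le_succ _) h1) hYZ
  have hZE : Z ∈ M.E := M.EF_anti (Nat.zero_le i) hZ
  have h3 : M.bch (M.Ad (M.exp Y) Z) (-Z) - M.Ad (M.exp Y) Z - -Z ∈ M.EF (i + 2) := by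
    refine M.bch_sub_mem ?_ (hE _ (M.Ad_E _ hZE) _) (hE _ (Submodule.neg_mem _ hZE) _)
    have := M.EF_anti (show i + 2 ≤ i + 1 + i + 1 by omega) (M.br_EF h2 (Submodule.neg_mem _ hZ))
    simpa [M.br_self] using this
  refine ⟨_, Submodule.add_mem _ h1 h3, ?_⟩
  rw [commutatorElement_def, M.conj, ← M.exp_neg, M.exp_bch]
  congr 1
  abel

/-- vectors that may be added at level `i` -/
def ApilogaGood (i : ℕ) (v : V h) : Prop := v ∈ M.EF i ∧ ∃ (Z : ℝ → V h) (B B' : ℝ) (D : ℕ), ∀ t,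
  Z t - t • v ∈ M.EF (i + 1) ∧ ‖Z t‖ ≤ B * (1 + |t|) ^ D ∧ (M.len (M.exp (Z t)) : ℝ) ≤ B' * Real.log (2 + |t|)

theorem apiloga_down {i : ℕ} (h1 : M.LogS (M.EF (i + 1))) {T : Set (V h)} (hT : ∀ v ∈ T, M.ApilogaGood i v)
    (h2 : M.EF i ≤ M.EF (i + 1) ⊔ Submodule.span ℝ T) : M.LogS (M.EF i) := by
  obtain ⟨U, ⟨u1, u2, u3⟩, hmax⟩ := set_has_maximal_iff_noetherian.2 inferInstance
    {U : Submodule ℝ (V h) | M.EF (i + 1) ≤ U ∧ U ≤ M.EF i ∧ M.LogS U} ⟨_, le_rfl, M.EF_anti i.le_succ, h1⟩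
  have h3 : M.EF i ≤ U := by
    refine h2.trans (sup_le u1 (Submodule.span_le.2 fun v hv => ?_))
    obtain ⟨hv, Z, B, B', D, hZ⟩ := hT v hv
    have h4 : U ⊔ Submodule.span ℝ {v} ≤ M.EF i := sup_le u2 ((Submodule.span_singleton_le_iff_mem _ _).2 hv)
    have h5 : M.LogS (U ⊔ Submodule.span ℝ {v}) := by
      refine M.logS_step u3 (fun X hX Y hY => u1 (M.EF_anti (by omega) (M.br_EF (h4 hX) (h4 hY)))) Z (max B B') D
        fun t => ⟨u1 (hZ t).1, (hZ t).2.1.trans ?_, (hZ t).2.2.trans ?_⟩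
      · gcongr
        exact le_max_left _ _
      · gcongr
        · linarith [apiloga_two (abs_nonneg t)]
        · exact le_max_right _ _
    have h6 := eq_of_le_of_not_lt le_sup_left (hmax _ ⟨u1.trans le_sup_left, h4, h5⟩)
    exact h6.ge (Submodule.mem_sup_right (Submodule.mem_span_singleton_self v))
  obtain ⟨B, hB, hU⟩ := u3
  exact ⟨B, hB, fun X hX => hU X (h3 hX)⟩

theorem apiloga_line {α : Fin k → ℝ} (hα : α ≠ 0) {v : V h} (hv : v ∈ M.W α) :
    ∃ B : ℝ, ∀ t : ℝ, (M.len (M.exp (t • v)) : ℝ) ≤ B * Real.log (2 + |t|) := by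
  obtain ⟨B, hB, h1⟩ := M.logS_W hα
  obtain ⟨C, hC, h2⟩ := apiloga_log ‖v‖ 1
  refine ⟨B * C, fun t => (h1 _ (Submodule.smul_mem _ t hv)).trans ?_⟩
  rw [mul_assoc]
  gcongr
  refine h2 _ _ (abs_nonneg t) (norm_nonneg _) ?_
  rw [norm_smul, Real.norm_eq_abs, pow_one, mul_comm]
  gcongr
  linarith

theorem apiloga_W {i : ℕ} {α : Fin k → ℝ} (hα : α ≠ 0) {v : V h} (hv : v ∈ M.W α) (hi : v ∈ M.EF i) :
    M.ApilogaGood i v := by
  obtain ⟨B, hB⟩ := M.apiloga_line hα hv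
  refine ⟨hi, fun t => t • v, ‖v‖, B, 1, fun t => ⟨by simp, ?_, hB t⟩⟩
  rw [norm_smul, Real.norm_eq_abs, pow_one, mul_comm]
  gcongr
  linarith

theorem apiloga_br {i : ℕ} {α : Fin k → ℝ} (hα : α ≠ 0) {Y Z : V h} (hY : Y ∈ M.W α) (hZ : Z ∈ M.EF i) :
    M.ApilogaGood (i + 1) (M.br Y Z) := by
  have hE := M.W_le_E hα hY
  obtain ⟨B, hB⟩ := M.apiloga_line hα hY
  obtain ⟨B1, D, hB1, hp⟩ := M.norm_prod_le
  choose R hR hR' using fun t : ℝ => M.comm_exp (Submodule.smul_mem _ t hE) hZ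
  refine ⟨Submodule.apply_mem_map₂ _ hE hZ, fun t => M.br (t • Y) Z + R t, B1 * (5 * (1 + ‖Y‖ + ‖Z‖)) ^ D,
    2 * B + 4 * M.len (M.exp Z), D, fun t => ⟨by simpa using hR t, ?_, ?_⟩⟩
  · have n1 := norm_nonneg Y
    have n2 := norm_nonneg Z
    have n3 := abs_nonneg t
    have n4 := mul_nonneg n1 n3
    have n5 := mul_nonneg n2 n3
    obtain ⟨Z', h1, h2⟩ := hp ((1 + ‖Y‖ + ‖Z‖) * (1 + |t|)) [t • Y, Z, -(t • Y), -Z] (by nlinarith) (by
      simp only [List.mem_cons, List.not_mem_nil, or_false, forall_eq_or_imp, forall_eq, norm_neg, norm_smul,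
        Real.norm_eq_abs]
      refine ⟨?_, ?_, ?_, ?_⟩ <;> nlinarith)
    have h3 : M.br (t • Y) Z + R t = Z' := by
      refine M.exp_inj ?_
      rw [← hR', ← h2, commutatorElement_def]
      simp only [List.map_cons, List.map_nil, List.prod_cons, List.prod_nil, M.exp_neg, mul_one, mul_assoc]
    refine (congrArg norm h3).le.trans (h1.trans_eq ?_)
    rw [mul_assoc B1, ← mul_pow]
    norm_num [mul_assoc]
  · have h1 : M.len ⁅M.exp (t • Y), M.exp Z⁆ ≤
        M.len (M.exp (t • Y)) + M.len (M.exp Z) + M.len (M.exp (t • Y)) + M.len (M.exp Z) := by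
      rw [commutatorElement_def]
      exact (M.len_mul _ _).trans (add_le_add ((M.len_mul _ _).trans
        (add_le_add (M.len_mul _ _) (M.len_inv _).le)) (M.len_inv _).le)
    rw [hR'] at h1
    have h2 : (M.len (M.exp (M.br (t • Y) Z + R t)) : ℝ) ≤
        M.len (M.exp (t • Y)) + M.len (M.exp Z) + M.len (M.exp (t • Y)) + M.len (M.exp Z) := by exact_mod_cast h1
    have h3 := hB t
    have h4 : (0 : ℝ) ≤ M.len (M.exp Z) := Nat.cast_nonneg _
    nlinarith [apiloga_two (abs_nonneg t)]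
/-- downward induction on `i` (`EF cl = ⊥`); add finitely many spanning vectors one at a time with `logS_step`
(`Z t = t • v`, resp. `exp (Z t) = ⁅exp (t • Y), exp Z⁆`) -/
theorem logS_E : M.LogS M.E := by
  have key : ∀ i ≤ M.cl, M.LogS (M.EF i) := by
    intro i hi
    induction hi using Nat.decreasingInduction with
    | self =>
      refine ⟨0, le_rfl, fun X hX => ?_⟩
      have := M.EF_le_F _ hX
      rw [M.F_cl, Submodule.mem_bot] at this
      rw [this, M.exp_zero, M.len_one]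
      simp
    | of_succ i _ ih =>
      cases i with
      | zero =>
        refine M.apiloga_down ih ?_ M.EF_zero_le
        rintro v ⟨α, hα, hv⟩
        exact M.apiloga_W hα hv (M.W_le_E hα hv)
      | succ i =>
        refine M.apiloga_down ih ?_ (M.EF_succ_le i)
        rintro v (⟨hi, α, hα, hv⟩ | ⟨α, hα, Y, hY, Z, -, hZ, rfl⟩)
        · exact M.apiloga_W hα hv hi
        · exact M.apiloga_br hα hY hZ
  exact key 0 (Nat.zero_le _)

end Model

end Crest.Agent.R182
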