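import Crest.Agent.R182.A.ApiLen

/-! R182/A: words with bounded heights have polynomial size. -/

set_option autoImplicit false
set_option linter.unusedVariables false
set_option linter.unusedSectionVars false
open Set Filter Topology MeasureTheory Crest.GroupTheory
open scoped Pointwise commutatorElement

noncomputable section
namespace Crest.Agent.R182

namespace Model
variable {h k : ℕ} (M : Model h k)

/-- words in the generators of `C` -/
def GW (l : List M.G) : Prop := ∀ x ∈ l, x ∈ range M.gen ∨ x⁻¹ ∈ range M.gen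

theorem apipolyb_len {x : M.G} (hx : x ∈ M.K ∨ x⁻¹ ∈ M.K) : M.len x ≤ 1 := by
  rcases hx with hx | hx
  · exact wl_le_one hx
  · rw [← M.len_inv]; exact wl_le_one hx

theorem apipolyb_K {l : List M.G} (hl : M.GW l) : ∀ x ∈ l, x ∈ M.K ∨ x⁻¹ ∈ M.K :=
  fun x hx => (hl x hx).imp Or.inr Or.inr

theorem apipolyb_growth : ∃ (B : ℝ) (D : ℕ), 0 ≤ B ∧ ∀ l : List M.G, M.GW l → ∀ α, ∀ X ∈ M.W α,
    ‖M.Ad l.prod X‖ ≤ B * (1 + l.length) ^ D * Real.exp (M.ht α l.prod) * ‖X‖ := by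
  obtain ⟨B, hB, h1⟩ := M.exists_norm_Ad_le
  obtain ⟨B', D, hB', h2⟩ := M.grading.growth (Real.exp B)
  refine ⟨B', D, hB', fun l hl => h2 l fun g hg => ?_⟩
  have h3 : (M.len g : ℝ) ≤ 1 := by exact_mod_cast M.apipolyb_len (M.apipolyb_K hl g hg)
  refine ⟨?_, fun X => (h1 g X).trans ?_, fun i => (M.abs_tv_le g i).trans (h3.trans (Real.one_le_exp hB))⟩
  · rcases hl g hg with ⟨i, rfl⟩ | ⟨i, hi⟩
    · exact M.gen_mem i
    · exact (inv_mem_iff (H := M.C)).1 (hi ▸ M.gen_mem i)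
  · gcongr
    nlinarith

/-- `growth` in every coordinate direction -/
theorem norm_Ad_GW : ∃ (B : ℝ) (D : ℕ), 1 ≤ B ∧ ∀ (l : List M.G) (H : ℝ), M.GW l → ∀ X : V h,
    (∀ j, X j ≠ 0 → M.ht (M.wt j) l.prod ≤ H) → ‖M.Ad l.prod X‖ ≤ B * (1 + l.length) ^ D * Real.exp H * ‖X‖ := by
  obtain ⟨B, D, hB, h1⟩ := M.apipolyb_growth
  refine ⟨h * B + 1, D, by nlinarith [Nat.cast_nonneg (α := ℝ) h], fun l H hl X hX => ?_⟩
  have e : M.Ad l.prod X = ∑ j, M.Ad l.prod (Pi.single j (X j)) := by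
    rw [← map_sum, Finset.univ_sum_single]
  have h2 : ∀ j, ‖M.Ad l.prod (Pi.single j (X j))‖ ≤ B * (1 + l.length) ^ D * Real.exp H * ‖X‖ := by
    intro j
    by_cases hj : X j = 0
    · rw [hj, Pi.single_zero, map_zero, norm_zero]; positivity
    · refine (h1 l hl _ _ (M.single_mem_W j (X j))).trans ?_
      rw [Pi.norm_single]
      gcongr
      · exact hX j hj
      · exact norm_le_pi_norm X j
  rw [e]
  refine (norm_sum_le _ _).trans ((Finset.sum_le_sum fun j _ => h2 j).trans ?_)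
  simp only [Finset.sum_const, Finset.card_univ, Fintype.card_fin, nsmul_eq_mul]
  have : 0 ≤ (1 + (l.length : ℝ)) ^ D * Real.exp H * ‖X‖ := by positivity
  nlinarith

section apipolya
variable {G : Type*} [Group G] {S : Set G}

/-- words of length at most `n` -/
def apipolya_W (S : Set G) (n : ℕ) (g : G) : Prop := ∃ w : List G, (∀ x ∈ w, x ∈ S) ∧ w.length ≤ n ∧ w.prod = g

/-- products of at most `n` conjugates of commutators of letters by words of length at most `m` -/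
def apipolya_P (S : Set G) (m n : ℕ) (g : G) : Prop := ∃ u : List G, u.length ≤ n ∧ u.prod = g ∧
  ∀ z ∈ u, ∃ a, apipolya_W S m a ∧ ∃ x ∈ S, ∃ y ∈ S, z = a * ⁅x, y⁆ * a⁻¹

theorem apipolya_W.one (n : ℕ) : apipolya_W S n 1 := ⟨[], by simp, by simp, rfl⟩

theorem apipolya_W.single {x : G} (hx : x ∈ S) : apipolya_W S 1 x := ⟨[x], by simpa using hx, by simp, by simp⟩

theorem apipolya_W.mono {m n : ℕ} {g : G} (h : apipolya_W S m g) (hmn : m ≤ n) : apipolya_W S n g :=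
  let ⟨w, h1, h2, h3⟩ := h; ⟨w, h1, h2.trans hmn, h3⟩

theorem apipolya_W.mul {m n : ℕ} {g g' : G} (h : apipolya_W S m g) (h' : apipolya_W S n g') :
    apipolya_W S (m + n) (g * g') := by
  obtain ⟨w, h1, h2, rfl⟩ := h
  obtain ⟨w', h1', h2', rfl⟩ := h'
  exact ⟨w ++ w', fun x hx => (List.mem_append.1 hx).elim (h1 x) (h1' x), by simpa using add_le_add h2 h2', by simp⟩

theorem apipolya_W.inv (hS : ∀ x ∈ S, x⁻¹ ∈ S) {n : ℕ} {g : G} (h : apipolya_W S n g) : apipolya_W S n g⁻¹ := by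
  obtain ⟨w, h1, h2, rfl⟩ := h
  refine ⟨(w.map fun x => x⁻¹).reverse, fun x hx => ?_, by simpa using h2, (List.prod_inv_reverse w).symm⟩
  obtain ⟨y, hy, rfl⟩ := List.mem_map.1 (List.mem_reverse.1 hx)
  exact hS y (h1 y hy)

theorem apipolya_W.prod {m : ℕ} (L : List G) (h : ∀ g ∈ L, apipolya_W S m g) : apipolya_W S (L.length * m) L.prod := by
  induction L with
  | nil => exact .one _
  | cons g L ih =>
    rw [List.length_cons, add_mul, one_mul, add_comm, List.prod_cons]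
    exact (h g (by simp)).mul (ih fun g' hg' => h g' (by simp [hg']))

theorem apipolya_W.zpow (hS : ∀ x ∈ S, x⁻¹ ∈ S) {x : G} (hx : x ∈ S) (a : ℤ) : apipolya_W S a.natAbs (x ^ a) := by
  have h : ∀ n : ℕ, apipolya_W S n (x ^ n) := fun n => ⟨List.replicate n x, fun y hy => List.eq_of_mem_replicate hy ▸ hx,
    by simp, by simp⟩
  obtain ⟨n, rfl | rfl⟩ := a.eq_nat_or_neg
  · simpa using h n
  · simpa using (h n).inv hS

theorem apipolya_P.mono {m n m' n' : ℕ} {g : G} (h : apipolya_P S m n g) (hm : m ≤ m') (hn : n ≤ n') :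
    apipolya_P S m' n' g :=
  let ⟨u, h1, h2, h3⟩ := h
  ⟨u, h1.trans hn, h2, fun z hz => let ⟨a, ha, hz'⟩ := h3 z hz; ⟨a, ha.mono hm, hz'⟩⟩

theorem apipolya_P.mul {m n n' : ℕ} {g g' : G} (h : apipolya_P S m n g) (h' : apipolya_P S m n' g') :
    apipolya_P S m (n + n') (g * g') := by
  obtain ⟨u, h1, rfl, h3⟩ := h
  obtain ⟨u', h1', rfl, h3'⟩ := h'
  exact ⟨u ++ u', by simpa using add_le_add h1 h1', by simp, fun z hz => (List.mem_append.1 hz).elim (h3 z) (h3' z)⟩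

theorem apipolya_P.conj {m n : ℕ} {g y : G} (h : apipolya_P S m n g) (hy : y ∈ S) :
    apipolya_P S (1 + m) n (y * g * y⁻¹) := by
  obtain ⟨u, h1, rfl, h3⟩ := h
  refine ⟨u.map (MulAut.conj y), by simpa using h1, (map_list_prod (MulAut.conj y) u).symm, fun z hz => ?_⟩
  obtain ⟨z, hz', rfl⟩ := List.mem_map.1 hz
  obtain ⟨a, ha, x, hx, x', hx', rfl⟩ := h3 z hz'
  exact ⟨y * a, (apipolya_W.single hy).mul ha, x, hx, x', hx', by rw [MulAut.conj_apply]; group⟩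

theorem apipolya_comm {x : G} (hx : x ∈ S) (w : List G) (hw : ∀ y ∈ w, y ∈ S) :
    apipolya_P S w.length w.length ⁅x, w.prod⁆ := by
  induction w with
  | nil => exact ⟨[], le_rfl, by simp, by simp⟩
  | cons y w ih =>
    have hy := hw y (by simp)
    have h1 : apipolya_P S (1 + w.length) 1 ⁅x, y⁆ :=
      ⟨[⁅x, y⁆], le_rfl, by simp, fun z hz => ⟨1, .one _, x, hx, y, hy, by simpa using hz⟩⟩
    have h2 := h1.mul ((ih fun z hz => hw z (by simp [hz])).conj hy)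
    rw [List.length_cons, add_comm w.length, List.prod_cons]
    convert h2 using 1
    simp only [commutatorElement_def]
    group

theorem apipolya_sort {A : Type*} [CommGroup A] (τ : G →* A)
    (hτ : ∀ x ∈ S, ∀ w : List G, (∀ y ∈ w, y ∈ S) → τ (x * w.prod) = 1 → x⁻¹ ∈ w) (n : ℕ) :
    ∀ g, apipolya_W S n g → τ g = 1 → apipolya_P S n (n ^ 2) g := by
  induction n with
  | zero =>
    rintro _ ⟨w, -, h2, rfl⟩ -
    rw [List.length_eq_zero_iff.1 (Nat.le_zero.1 h2)]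
    exact ⟨[], le_rfl, rfl, by simp⟩
  | succ n ih =>
    rintro _ ⟨w, h1, h2, rfl⟩ h0
    rcases w with _ | ⟨x, w⟩
    · exact ⟨[], by simp, rfl, by simp⟩
    have hx := h1 x (by simp)
    obtain ⟨w₁, w₂, rfl⟩ := List.append_of_mem (hτ x hx w (fun y hy => h1 y (by simp [hy])) h0)
    have e : (x :: (w₁ ++ x⁻¹ :: w₂)).prod = ⁅x, w₁.prod⁆ * (w₁ ++ w₂).prod := by
      simp only [List.prod_cons, List.prod_append, commutatorElement_def]
      group
    simp only [List.length_cons, List.length_append] at h2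
    rw [e] at h0 ⊢
    rw [map_mul, map_commutatorElement, commutatorElement_eq_one_iff_commute.2 (Commute.all _ _), one_mul] at h0
    have a1 := (apipolya_comm hx w₁ fun y hy => h1 y (by simp [hy])).mono (m' := n) (n' := n) (by omega) (by omega)
    have a2 := ih _ ⟨w₁ ++ w₂, fun y hy => h1 y (by simp only [List.mem_append, List.mem_cons] at hy ⊢; tauto),
      by rw [List.length_append]; omega, rfl⟩ h0
    exact (a1.mul a2).mono n.le_succ (by nlinarith)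

end apipolya

theorem apipolya_tv (l : List M.G) (hl : M.GW l) (i : Fin k) : (M.tv l.prod i).natAbs ≤ l.length := by
  induction l with
  | nil => simp [M.tv_one]
  | cons x l ih =>
    have h1 := ih fun y hy => hl y (by simp [hy])
    have h2 : (M.tv x i).natAbs ≤ 1 := by
      rcases hl x (by simp) with ⟨j, rfl⟩ | ⟨j, hj⟩
      · rw [M.tv_gen, Pi.single_apply]; split_ifs <;> simp
      · rw [← inv_inv x, ← hj, M.tv_inv, M.tv_gen, Pi.neg_apply, Pi.single_apply]; split_ifs <;> simp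
    rw [List.prod_cons, M.tv_mul, Pi.add_apply, List.length_cons]
    omega

theorem apipolya_nonneg (i : Fin k) (w : List M.G) (hw : M.GW w) (hi : (M.gen i)⁻¹ ∉ w) : 0 ≤ M.tv w.prod i := by
  induction w with
  | nil => simp [M.tv_one]
  | cons x w ih =>
    rw [List.prod_cons, M.tv_mul, Pi.add_apply]
    refine add_nonneg ?_ (ih (fun y hy => hw y (by simp [hy])) fun h => hi (by simp [h]))
    rcases hw x (by simp) with ⟨j, rfl⟩ | ⟨j, hj⟩
    · rw [M.tv_gen, Pi.single_apply]; split_ifs <;> simp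
    · have : i ≠ j := by rintro rfl; exact hi (by simp [hj])
      rw [← inv_inv x, ← hj, M.tv_inv, M.tv_gen, Pi.neg_apply, Pi.single_eq_of_ne this, neg_zero]

theorem apipolya_mem (x : M.G) (hx : x ∈ range M.gen ∨ x⁻¹ ∈ range M.gen) (w : List M.G) (hw : M.GW w)
    (h0 : M.τ (x * w.prod) = 1) : x⁻¹ ∈ w := by
  have h1 : M.tv x + M.tv w.prod = 0 := by rw [← M.tv_mul, Core.tv, h0]; rfl
  by_contra hn
  rcases hx with ⟨i, rfl⟩ | ⟨i, hi⟩
  · have h2 := congrFun h1 i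
    have h3 := M.apipolya_nonneg i w hw hn
    rw [M.tv_gen, Pi.add_apply, Pi.single_eq_same, Pi.zero_apply] at h2
    omega
  · have h2 := congrFun h1 i
    have h3 := M.apipolya_nonneg i (w.map fun y => y⁻¹).reverse (fun y hy => by
      obtain ⟨z, hz, rfl⟩ := List.mem_map.1 (List.mem_reverse.1 hy)
      rw [inv_inv]
      exact (hw z hz).symm) fun hy => by
        obtain ⟨z, hz, e⟩ := List.mem_map.1 (List.mem_reverse.1 hy)
        exact hn (by rwa [← hi, ← inv_injective e])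
    rw [← List.prod_inv_reverse, M.tv_inv, Pi.neg_apply] at h3
    rw [← inv_inv x, ← hi, M.tv_inv, M.tv_gen, Pi.add_apply, Pi.neg_apply, Pi.single_eq_same, Pi.zero_apply] at h2
    omega

/-- Sorting.  Call `u : List (V h)` `m`-small if its entries are `Ad w.prod Y` with `GW w`, `w.length ≤ m` and `exp Y = ⁅x, y⁆` for two letters
`x y` (finitely many `Y`, all in `W 0`).  (1) `w.prod * y = (u.map exp).prod * y * w.prod` with `u.length ≤ w.length` (`x y = ⁅x, y⁆ y x`).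
(2) By induction over a duplicate free list `L` of indices: `(L.map fun p => gen p ^ a p).prod * gen i ^ (±1)` is `(u.map exp).prod` times the
same product for `a ± e i`, `u.length ≤ ∑ |a p|`.  (3) `l.prod = (u.map exp).prod * sec (tv l.prod)` with `u.length ≤ m ^ 2`.
`norm_Ad_GW` with `H = 0`, `norm_prod_le`. -/
theorem norm_lgm_GW : ∃ (B : ℝ) (D : ℕ), 1 ≤ B ∧ ∀ l : List M.G, M.GW l → ‖M.lgm l.prod‖ ≤ B * (1 + l.length) ^ D := by
  obtain ⟨B₁, D₁, hB₁, h₁⟩ := M.norm_Ad_GW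
  obtain ⟨B₂, D₂, hB₂, h₂⟩ := M.norm_prod_le
  set S : Set M.G := {x | x ∈ range M.gen ∨ x⁻¹ ∈ range M.gen} with hSdef
  have hS : ∀ x ∈ S, x⁻¹ ∈ S := fun x hx => by
    rw [hSdef, mem_ofPred_eq, inv_inv]; exact Or.symm hx
  have hfin : S.Finite := (finite_range M.gen).union (finite_range M.gen).inv
  have hC : ∀ x ∈ S, x ∈ M.C := by
    rintro x (⟨i, rfl⟩ | ⟨i, hi⟩)
    · exact M.gen_mem i
    · exact inv_mem_iff.1 (hi ▸ M.gen_mem i)
  obtain ⟨R₀, hR₀⟩ := (hfin.image2 (fun x y => ‖M.lgm ⁅x, y⁆‖) hfin).bddAbove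
  obtain ⟨R, hR1, hR⟩ : ∃ R : ℝ, 1 ≤ R ∧ ∀ x ∈ S, ∀ y ∈ S, ‖M.lgm ⁅x, y⁆‖ ≤ R :=
    ⟨max 1 R₀, le_max_left _ _, fun x hx y hy => (hR₀ (mem_image2_of_mem hx hy)).trans (le_max_right _ _)⟩
  have hk : (1 : ℝ) ≤ k + 1 := by simp
  refine ⟨B₂ * (B₁ * R * (k + 1) ^ (D₁ + 2)) ^ D₂, (D₁ + 2) * D₂,
    one_le_mul_of_one_le_of_one_le hB₂ (one_le_pow₀ (one_le_mul_of_one_le_of_one_le
      (one_le_mul_of_one_le_of_one_le hB₁ hR1) (one_le_pow₀ hk))), fun l hl => ?_⟩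
  have w1 : apipolya_W S (k * l.length) (M.sec (M.tv l.prod)) := by
    have := apipolya_W.prod (S := S) (m := l.length) (List.ofFn fun i => M.gen i ^ M.tv l.prod i)
      (List.forall_mem_ofFn_iff.2 fun i =>
        (apipolya_W.zpow hS (Or.inl ⟨i, rfl⟩) _).mono (M.apipolya_tv l hl i))
    rwa [List.length_ofFn] at this
  have w2 := apipolya_W.mul ⟨l, hl, le_rfl, rfl⟩ (w1.inv hS)
  rw [← eq_mul_inv_of_mul_eq (M.exp_lgm l.prod)] at w2
  obtain ⟨u, u1, u2, u3⟩ := apipolya_sort M.τ M.apipolya_mem _ _ w2 ((M.τ_ker _).2 ⟨_, rfl⟩)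
  obtain ⟨T, hT⟩ : ∃ T : ℝ, T = (k + 1) * (1 + l.length) := ⟨_, rfl⟩
  have hL : (0 : ℝ) ≤ l.length := Nat.cast_nonneg _
  have hk0 : (0 : ℝ) ≤ k := Nat.cast_nonneg _
  have hTn : 1 + ((l.length + k * l.length : ℕ) : ℝ) ≤ T := by rw [hT]; push_cast; nlinarith
  have hT1 : 1 ≤ T := le_trans (le_add_of_nonneg_right (Nat.cast_nonneg _)) hTn
  have u4 : ∀ z ∈ u, M.exp (M.lgm z) = z ∧ ‖M.lgm z‖ ≤ B₁ * T ^ D₁ * R := by
    intro z hz
    obtain ⟨_, ⟨w, hw, hwl, rfl⟩, x, hx, y, hy, rfl⟩ := u3 z hz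
    obtain ⟨Y, hY⟩ := (M.τ_ker _).1 (M.comm_mem_ker x y)
    have hY0 : Y ∈ M.W 0 := (M.gr.C_exp Y).1 (hY ▸ M.C.mul_mem (M.C.mul_mem (M.C.mul_mem (hC x hx) (hC y hy))
      (M.C.inv_mem (hC x hx))) (M.C.inv_mem (hC y hy)))
    have hYR := hR x hx y hy
    rw [← hY, M.lgm_exp] at hYR
    rw [← hY, M.conj, M.lgm_exp]
    refine ⟨rfl, (h₁ w 0 hw Y fun j hj => ?_).trans ?_⟩
    · rw [not_not.1 fun h => hj (M.mem_W.1 hY0 j h), M.ht_zero]
    · have : 1 + (w.length : ℝ) ≤ T := le_trans (add_le_add_right (Nat.cast_le.2 hwl) 1) hTn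
      rw [Real.exp_zero, mul_one]
      gcongr
  obtain ⟨Z, hZ, hZe⟩ := h₂ (B₁ * T ^ D₁ * R) (u.map M.lgm)
    (one_le_mul_of_one_le_of_one_le (one_le_mul_of_one_le_of_one_le hB₁ (one_le_pow₀ hT1)) hR1)
    fun X hX => by obtain ⟨z, hz, rfl⟩ := List.mem_map.1 hX; exact (u4 z hz).2
  rw [List.map_map, List.map_congr_left (f := M.exp ∘ M.lgm) (g := id) fun z hz => (u4 z hz).1, List.map_id, u2] at hZe
  rw [M.exp_inj hZe]
  refine hZ.trans ?_
  have h3 : 1 + ((u.map M.lgm).length : ℝ) ≤ T ^ 2 := by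
    have h4 : (u.length : ℝ) ≤ ((l.length + k * l.length : ℕ) : ℝ) ^ 2 := by exact_mod_cast u1
    have h5 := pow_le_pow_left₀ (by positivity) hTn 2
    have h6 : (0 : ℝ) ≤ ((l.length + k * l.length : ℕ) : ℝ) := Nat.cast_nonneg _
    rw [List.length_map]
    nlinarith
  calc _ ≤ B₂ * (T ^ 2 * (B₁ * T ^ D₁ * R)) ^ D₂ := by gcongr
    _ = _ := by
      rw [hT]
      generalize (k + 1 : ℝ) = a
      generalize (1 + l.length : ℝ) = b
      ring

theorem apipolyb_tv (u : List (V h)) : M.tv (u.map M.exp).prod = 0 := by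
  induction u with
  | nil => exact M.tv_one
  | cons Y u ih => rw [List.map_cons, List.prod_cons, M.tv_mul, M.tv_exp, ih, add_zero]

theorem apipolyb_split (l : List M.G) (hl : ∀ x ∈ l, x ∈ M.K ∨ x⁻¹ ∈ M.K) : ∃ (u : List (V h)) (w : List M.G),
    M.GW w ∧ w.length ≤ l.length ∧ u.length ≤ l.length ∧ l.prod = (u.map M.exp).prod * w.prod ∧
    ∀ Z ∈ u, ∃ (w' l' : List M.G) (Y : V h), M.GW w' ∧ w'.length ≤ l.length ∧ ‖Y‖ ≤ 1 ∧ l' <+: l ∧
      M.tv w'.prod = M.tv l'.prod ∧ Z = M.Ad w'.prod Y := by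
  induction l using List.reverseRecOn with
  | nil => exact ⟨[], [], fun _ h => by simp at h, le_rfl, le_rfl, by simp, fun _ h => by simp at h⟩
  | append_singleton l x ih =>
    obtain ⟨u, w, h1, h2, h3, h4, h5⟩ := ih fun y hy => hl y (List.mem_append_left _ hy)
    have h6 : ∀ Z ∈ u, ∃ (w' l' : List M.G) (Y : V h), M.GW w' ∧ w'.length ≤ (l ++ [x]).length ∧ ‖Y‖ ≤ 1 ∧
        l' <+: l ++ [x] ∧ M.tv w'.prod = M.tv l'.prod ∧ Z = M.Ad w'.prod Y := fun Z hZ => by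
      obtain ⟨w', l', Y, a1, a2, a3, a4, a5, a6⟩ := h5 Z hZ
      exact ⟨w', l', Y, a1, by simp; omega, a3, a4.trans (List.prefix_append _ _), a5, a6⟩
    have hx : (x ∈ range M.gen ∨ x⁻¹ ∈ range M.gen) ∨ ∃ Y : V h, ‖Y‖ ≤ 1 ∧ x = M.exp Y := by
      rcases hl x (by simp) with (⟨Y, hY, rfl⟩ | hx) | (⟨Y, hY, e⟩ | hx)
      · exact Or.inr ⟨Y, by simpa using hY, rfl⟩
      · exact Or.inl (Or.inl hx)
      · exact Or.inr ⟨-Y, by simpa using hY, by rw [M.exp_neg, e, inv_inv]⟩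
      · exact Or.inl (Or.inr hx)
    rcases hx with hx | ⟨Y, hY, rfl⟩
    · refine ⟨u, w ++ [x], fun y hy => ?_, by simpa using h2, by simp; omega, by simp [h4, mul_assoc], h6⟩
      rcases List.mem_append.1 hy with hy | hy
      · exact h1 y hy
      · rw [List.mem_singleton.1 hy]; exact hx
    · refine ⟨u ++ [M.Ad w.prod Y], w, h1, by simp; omega, by simpa using h3, ?_, fun Z hZ => ?_⟩
      · simp only [List.prod_append, List.prod_singleton, List.map_append, List.map_singleton, h4, mul_assoc]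
        rw [M.mul_exp]
      · rcases List.mem_append.1 hZ with hZ | hZ
        · exact h6 Z hZ
        · refine ⟨w, l, Y, h1, by simp; omega, hY, List.prefix_append _ _, ?_, List.mem_singleton.1 hZ⟩
          rw [h4, M.tv_mul, M.apipolyb_tv, zero_add]

/-- move the letters `gen i ^ (±1)` to the right: `l.prod = (u.map exp).prod * w.prod`, `GW w`, the entries of `u` are `Ad w'.prod Y` with
`‖Y‖ ≤ 1` and `tv w'.prod = tv` of a prefix of `l` -/
theorem norm_lgm_le_of_ht : ∃ (B : ℝ) (D : ℕ), 1 ≤ B ∧ ∀ (l : List M.G) (H : ℝ), 0 ≤ H → (∀ x ∈ l, x ∈ M.K ∨ x⁻¹ ∈ M.K) →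
    (∀ j, ∀ l', l' <+: l → M.ht (M.wt j) l'.prod ≤ H) → ‖M.lgm l.prod‖ ≤ B * (1 + l.length) ^ D * Real.exp (D * H) := by
  obtain ⟨B1, D1, hB1, h1⟩ := M.norm_Ad_GW
  obtain ⟨B2, D2, hB2, h2⟩ := M.norm_prod_le
  obtain ⟨B3, D3, hB3, h3⟩ := M.norm_lgm_GW
  obtain ⟨B5, D5, hB5, h5⟩ := M.norm_bch_le
  have hb : 1 ≤ B1 ^ D2 := one_le_pow₀ hB1
  have hc : 1 ≤ B2 * B1 ^ D2 * B3 := one_le_mul_of_one_le_of_one_le (one_le_mul_of_one_le_of_one_le hB2 hb) hB3
  refine ⟨B5 * (B2 * B1 ^ D2 * B3) ^ D5, ((D1 + 1) * D2 + D3) * D5,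
    one_le_mul_of_one_le_of_one_le hB5 (one_le_pow₀ hc), fun l H hH hl hh => ?_⟩
  obtain ⟨u, w, a1, a2, a3, a4, a5⟩ := M.apipolyb_split l hl
  set t : ℝ := 1 + l.length with ht
  set e : ℝ := Real.exp H with he
  have ht1 : 1 ≤ t := by simp [ht]
  have he1 : 1 ≤ e := Real.one_le_exp hH
  have hte : 1 ≤ t * e := one_le_mul_of_one_le_of_one_le ht1 he1
  have hlen : ∀ n : ℕ, n ≤ l.length → (1 + n : ℝ) ≤ t := fun n hn => by
    rw [ht]; gcongr
  have hs : 1 ≤ B1 * t ^ D1 * e :=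
    one_le_mul_of_one_le_of_one_le (one_le_mul_of_one_le_of_one_le hB1 (one_le_pow₀ ht1)) he1
  obtain ⟨Z, hZ, hZ'⟩ := h2 (B1 * t ^ D1 * e) u hs fun Z hZ => by
    obtain ⟨w', l', Y, b1, b2, b3, b4, b5, rfl⟩ := a5 Z hZ
    refine (h1 w' H b1 Y fun j _ => (M.ht_congr _ b5).trans_le (hh j l' b4)).trans ?_
    have := hlen _ b2
    calc B1 * (1 + (w'.length : ℝ)) ^ D1 * Real.exp H * ‖Y‖ ≤ B1 * t ^ D1 * e * 1 := by gcongr
      _ = _ := mul_one _
  have hE : 1 ≤ (t * e) ^ ((D1 + 1) * D2) := one_le_pow₀ hte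
  have hE' : 1 ≤ (t * e) ^ D3 := one_le_pow₀ hte
  have h6 := h5 (B2 * B1 ^ D2 * B3 * (t * e) ^ ((D1 + 1) * D2 + D3)) Z (M.lgm w.prod)
    (one_le_mul_of_one_le_of_one_le hc (one_le_pow₀ hte)) (hZ.trans ?_) ((h3 w a1).trans ?_)
  · rw [a4, hZ', M.lgm_exp_mul]
    refine h6.trans (le_of_eq ?_)
    rw [Real.exp_nat_mul, ← he, mul_pow (B2 * B1 ^ D2 * B3), ← pow_mul, mul_pow t e]
    ring
  · have b1 := hlen _ a3
    have b2 : e ≤ e ^ (D1 + 1) := le_self_pow₀ he1 (by omega)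
    calc B2 * ((1 + (u.length : ℝ)) * (B1 * t ^ D1 * e)) ^ D2 ≤ B2 * (t * (B1 * t ^ D1 * e ^ (D1 + 1))) ^ D2 := by
          gcongr
      _ = B2 * B1 ^ D2 * 1 * ((t * e) ^ ((D1 + 1) * D2) * 1) := by
          rw [pow_mul, mul_one, mul_one, mul_assoc B2, ← mul_pow]; congr 2; ring
      _ ≤ B2 * B1 ^ D2 * B3 * ((t * e) ^ ((D1 + 1) * D2) * (t * e) ^ D3) := by gcongr
      _ = _ := by rw [pow_add]
  · have b1 : (1 + (w.length : ℝ)) ≤ t * e := (hlen _ a2).trans (le_mul_of_one_le_right (by linarith) he1)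
    calc B3 * (1 + (w.length : ℝ)) ^ D3 ≤ B3 * (t * e) ^ D3 := by gcongr
      _ = 1 * 1 * B3 * (1 * (t * e) ^ D3) := by ring
      _ ≤ B2 * B1 ^ D2 * B3 * ((t * e) ^ ((D1 + 1) * D2) * (t * e) ^ D3) := by gcongr
      _ = _ := by rw [pow_add]

theorem exists_norm_lgm_le : ∃ B : ℝ, 0 ≤ B ∧ ∀ g, ‖M.lgm g‖ ≤ Real.exp (B * M.len g) := by
  obtain ⟨B, D, hB, h1⟩ := M.norm_lgm_le_of_ht
  obtain ⟨B0, hB0, h2⟩ := M.exists_abs_ht_le
  refine ⟨B + D + D * B0, by positivity, fun g => ?_⟩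
  obtain ⟨l, h3, h4, rfl⟩ := wl_ex M.closure_K g
  rw [show M.len l.prod = l.length from h3.symm]
  rcases Nat.eq_zero_or_pos l.length with h0 | h0
  · rw [List.length_eq_zero_iff.1 h0, List.prod_nil, ← M.exp_zero, M.lgm_exp, norm_zero]
    positivity
  have h5 : (1 : ℝ) ≤ l.length := by exact_mod_cast h0
  refine (h1 l (B0 * l.length) (by positivity) h4 fun j l' hl' => ?_).trans ?_
  · refine (le_abs_self _).trans ((h2 j _).trans ?_)
    have : M.len l'.prod ≤ l.length := (wl_le fun x hx => h4 x (hl'.subset hx)).trans hl'.length_le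
    gcongr
  · have b1 : B ≤ Real.exp (B * l.length) := by
      nlinarith [Real.add_one_le_exp (B * l.length)]
    have b2 : (1 + l.length : ℝ) ≤ Real.exp l.length := by linarith [Real.add_one_le_exp (l.length : ℝ)]
    calc B * (1 + (l.length : ℝ)) ^ D * Real.exp (D * (B0 * l.length))
        ≤ Real.exp (B * l.length) * Real.exp l.length ^ D * Real.exp (D * (B0 * l.length)) := by gcongr
      _ = _ := by rw [← Real.exp_nat_mul, ← Real.exp_add, ← Real.exp_add]; congr 1; ring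

theorem apipolyb_word (a : Fin k → ℤ) (L : List (Fin k)) : ∃ l : List M.G, M.GW l ∧
    l.prod = (L.map fun i => M.gen i ^ a i).prod ∧ (l.length : ℝ) ≤ L.length * ‖a‖ := by
  induction L with
  | nil => exact ⟨[], fun _ h => by simp at h, rfl, by simp⟩
  | cons i L ih =>
    obtain ⟨l, h1, h2, h3⟩ := ih
    have h4 : ((a i).natAbs : ℝ) ≤ ‖a‖ := by
      rw [Nat.cast_natAbs, Int.cast_abs, ← Int.norm_eq_abs]; exact norm_le_pi_norm a i
    obtain ⟨x, hx, e⟩ : ∃ x, (x ∈ range M.gen ∨ x⁻¹ ∈ range M.gen) ∧ x ^ (a i).natAbs = M.gen i ^ a i := by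
      rcases Int.natAbs_eq (a i) with h5 | h5
      · exact ⟨M.gen i, Or.inl ⟨i, rfl⟩, by rw [← zpow_natCast, ← h5]⟩
      · exact ⟨(M.gen i)⁻¹, Or.inr ⟨i, by simp⟩, by rw [← zpow_natCast, inv_zpow', ← h5]⟩
    refine ⟨List.replicate (a i).natAbs x ++ l, fun y hy => ?_, by simp [h2, e], ?_⟩
    · rcases List.mem_append.1 hy with hy | hy
      · rw [List.eq_of_mem_replicate hy]; exact hx
      · exact h1 y hy
    · simp only [List.length_append, List.length_replicate, List.length_cons]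
      push_cast
      linarith

/-- on `C` the adjoint action is controlled by the heights up to polynomial factors in the size of the element -/
theorem norm_Ad_sec : ∃ (B : ℝ) (D : ℕ), 1 ≤ B ∧ ∀ (a : Fin k → ℤ) (α : Fin k → ℝ), ∀ X ∈ M.W α,
    ‖M.Ad (M.sec a) X‖ ≤ B * (1 + ‖a‖) ^ D * Real.exp (M.ht α (M.sec a)) * ‖X‖ ∧
      ‖M.Ad (M.sec a)⁻¹ X‖ ≤ B * (1 + ‖a‖) ^ D * Real.exp (-M.ht α (M.sec a)) * ‖X‖ := by
  obtain ⟨B, D, hB, h1⟩ := M.apipolyb_growth
  refine ⟨B * (1 + k) ^ D + 1, D, le_add_of_nonneg_left (by positivity), fun a α X hX => ?_⟩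
  obtain ⟨l, h2, h3, h4⟩ := M.apipolyb_word a (List.finRange k)
  rw [← List.ofFn_eq_map, show (List.ofFn fun i => M.gen i ^ a i).prod = M.sec a from rfl] at h3
  rw [List.length_finRange] at h4
  have h5 : B * (1 + (l.length : ℝ)) ^ D ≤ (B * (1 + k) ^ D + 1) * (1 + ‖a‖) ^ D := by
    have b1 : (1 + (l.length : ℝ)) ≤ (1 + k) * (1 + ‖a‖) := by
      nlinarith [norm_nonneg a, Nat.cast_nonneg (α := ℝ) k]
    calc B * (1 + (l.length : ℝ)) ^ D ≤ B * ((1 + k) * (1 + ‖a‖)) ^ D := by gcongr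
      _ = B * (1 + k) ^ D * (1 + ‖a‖) ^ D := by rw [mul_pow, mul_assoc]
      _ ≤ _ := by gcongr; linarith
  constructor
  · rw [← h3]
    exact (h1 l h2 α X hX).trans (by gcongr)
  · have h6 : M.GW (l.map fun x => x⁻¹).reverse := fun y hy => by
      obtain ⟨x, hx, rfl⟩ := List.mem_map.1 (List.mem_reverse.1 hy)
      simpa [or_comm] using h2 x hx
    have h7 := h1 _ h6 α X hX
    rw [← List.prod_inv_reverse, h3, M.ht_inv, List.length_reverse, List.length_map] at h7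
    exact h7.trans (by gcongr)

end Model

end Crest.Agent.R182
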