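import Crest.Agent.R182.A.ApiCo

/-! R182/A: the Haar measure of a model. -/

set_option autoImplicit false
set_option linter.unusedVariables false
set_option linter.unusedSectionVars false
open Set Filter Topology MeasureTheory Crest.GroupTheory
open scoped Pointwise commutatorElement

noncomputable section
namespace Crest.Agent.R182

theorem apivola_shear {h : ℕ} (p : Fin h → Prop) [DecidablePred p] {φ : V h → V h} (hφ : Measurable φ)
    (h0 : ∀ X j, p j → φ X j = 0) (h1 : ∀ X X', (∀ l, p l → X l = X' l) → φ X = φ X') :
    MeasurePreserving fun X => X + φ X := by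
  let e := MeasurableEquiv.piEquivPiSubtypeProd (fun _ : Fin h => ℝ) p
  have he := volume_preserving_piEquivPiSubtypeProd (fun _ : Fin h => ℝ) p
  have hT : MeasurePreserving fun q : ({j // p j} → ℝ) × ({j // ¬ p j} → ℝ) =>
      (id q.1, q.2 + (e (φ (e.symm (q.1, 0)))).2) :=
    (MeasurePreserving.id volume).skew_product (g := fun a b => b + (e (φ (e.symm (a, 0)))).2)
      (measurable_snd.add (measurable_snd.comp (e.measurable.comp (hφ.comp
        (e.symm.measurable.comp (measurable_fst.prodMk measurable_const))))))
      (Eventually.of_forall fun a => map_add_right_eq_self _ _)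
  convert (he.symm e).comp (hT.comp he) using 1
  funext X
  apply e.injective
  rw [Function.comp_apply, e.apply_symm_apply]
  refine Prod.ext (funext fun j => ?_) (funext fun j => ?_)
  · change X j + φ X j = X j
    rw [h0 X j j.2, add_zero]
  · change X j + φ X j = X j + φ _ j
    rw [h1 X (e.symm ((e X).1, 0)) fun l hl => ?_]
    simp [e, hl]

/-- `f = s 0 ∘ s 1 ∘ ⋯ ∘ s m` with the shears `s i X = X + fun j => if dep j = i then f X j - X j else 0`; a shear is a skew product in the
coordinates `MeasurableEquiv.piEquivPiSubtypeProd _ (dep · ≠ i)` (`volume_preserving_piEquivPiSubtypeProd`,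
`MeasurePreserving.skew_product`) -/
theorem measurePreserving_of_tri {h : ℕ} (dep : Fin h → ℕ) {f : V h → V h} (hf : Continuous f)
    (ht : ∀ j X X', (∀ l, dep l < dep j → X l = X' l) → f X j - X j = f X' j - X' j) : MeasurePreserving f := by
  have key : ∀ m ≤ Finset.univ.sup dep + 1,
      MeasurePreserving fun X : V h => X + fun j => if m ≤ dep j then f X j - X j else 0 := by
    intro m hm
    induction hm using Nat.decreasingInduction with
    | self =>
      have : ∀ j, ¬ Finset.univ.sup dep + 1 ≤ dep j := fun j =>
        Nat.not_le.2 (Nat.lt_succ_of_le (Finset.le_sup (Finset.mem_univ j)))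
      simp only [this, if_false]
      exact measurePreserving_add_right _ _
    | of_succ m _ ih =>
      have hs := apivola_shear (fun j => dep j ≠ m) (φ := fun X j => if dep j = m then f X j - X j else 0)
        (measurable_pi_lambda _ fun j => by
          split_ifs
          · fun_prop
          · exact measurable_const) (fun X j hj => if_neg hj) fun X X' hX => funext fun j => by
          split_ifs with hj
          · exact ht j X X' fun l hl => hX l (by omega)
          · rfl
      convert hs.comp ih using 1
      funext X j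
      simp only [Function.comp_apply, Pi.add_apply]
      by_cases hj : dep j = m
      · have := ht j X (X + fun j => if m + 1 ≤ dep j then f X j - X j else 0) fun l hl => by
          rw [Pi.add_apply, if_neg (by omega), add_zero]
        rw [Pi.add_apply] at this
        rw [← this, if_pos hj.ge, if_neg (by omega), if_pos hj, add_zero]
      · rw [if_neg hj, add_zero]
        exact congrArg _ (if_congr (by omega) rfl rfl)
  convert key 0 (Nat.zero_le _) using 1
  funext X j
  simp

theorem Core.bch_sub_bch {h k : ℕ} (c : Core h k) {i : ℕ} {X X' Y Y' : V h} (hX : X - X' ∈ c.F i) (hY : Y - Y' ∈ c.F i) :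
    c.bch X Y - c.bch X' Y' - (X - X') - (Y - Y') ∈ c.F (i + 1) := by
  have h1 : ∀ A A' Z Z', A - A' ∈ c.F i → c.br A' (Z - Z') ∈ c.F (i + 1) → c.br A Z - c.br A' Z' ∈ c.F (i + 1) :=
    fun A A' Z Z' hA hZ => by
    have := (c.F _).sub_mem hZ (c.br_mem_F_succ Z hA)
    rw [c.br_anti Z] at this
    simpa using this
  have h2 : ∀ w, nest c.br X Y w - nest c.br X' Y' w ∈ c.F (i + 1) := fun w => by
    induction w with
    | nil => exact h1 _ _ _ _ hX (c.br_mem_F_succ _ hY)
    | cons b w ih => exact h1 _ _ _ _ (by cases b <;> assumption) (c.isIdl_F _ _ _ ih)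
  convert (c.F (i + 1)).sum_mem fun w (_ : w ∈ c.ws) => (c.F (i + 1)).smul_mem (c.coef w) (h2 w) using 1
  simp only [Core.bch, bchF, smul_sub, Finset.sum_sub_distrib]
  abel

namespace Model
variable {h k : ℕ} (M : Model h k)

theorem measurePreserving_bch_left (X : V h) : MeasurePreserving fun Y => M.bch X Y := by
  refine measurePreserving_of_tri M.dep (M.continuous_bch.comp (Continuous.prodMk_right X)) fun j Y Y' hY => ?_
  have := (M.mem_F _ _).1 (M.bch_sub_bch (X := X) (X' := X) (by simp) ((M.mem_F (M.dep j) (Y - Y')).2 fun l hl =>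
    sub_eq_zero.2 (hY l hl))) j (Nat.lt_succ_self _)
  simp only [Pi.sub_apply] at this
  linarith

theorem measurePreserving_bch_right (Y : V h) : MeasurePreserving fun X => M.bch X Y := by
  refine measurePreserving_of_tri M.dep (M.continuous_bch.comp (Continuous.prodMk_left Y)) fun j X X' hX => ?_
  have := (M.mem_F _ _).1 (M.bch_sub_bch (Y := Y) (Y' := Y) ((M.mem_F (M.dep j) (X - X')).2 fun l hl =>
    sub_eq_zero.2 (hX l hl)) (by simp)) j (Nat.lt_succ_self _)
  simp only [Pi.sub_apply] at this
  linarith

theorem abs_det_Ad (g : M.G) : |LinearMap.det (M.Ad g)| = 1 := by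
  rw [← M.unimod g 0 fun _ _ => trivial, ← LinearMap.det_conj (M.Ad g) Submodule.topEquiv.symm]
  rfl

/-- `Real.map_linearMap_volume_pi_eq_smul_volume_pi` -/
theorem measurePreserving_Ad (g : M.G) : MeasurePreserving (M.Ad g) := by
  have h1 := M.abs_det_Ad g
  refine ⟨(M.Ad g).continuous_of_finiteDimensional.measurable, ?_⟩
  rw [Real.map_linearMap_volume_pi_eq_smul_volume_pi fun h0 => by simp [h0] at h1, abs_inv, h1]
  simp

theorem measurePreserving_par : MeasurePreserving M.par ((volume : Measure (V h)).prod Measure.count) volume := by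
  exact ⟨M.continuous_par.measurable, rfl⟩

theorem measurePreserving_chart : MeasurePreserving M.chart volume ((volume : Measure (V h)).prod Measure.count) := by
  refine ⟨M.continuous_chart.measurable, ?_⟩
  rw [← M.measurePreserving_par.map_eq, Measure.map_map M.continuous_chart.measurable M.continuous_par.measurable,
    show M.chart ∘ M.par = id from funext M.chart_par, Measure.map_id]

theorem lintegral_eq {f : M.G → ENNReal} (hf : Measurable f) :
    ∫⁻ g, f g = ∑' a : Fin k → ℤ, ∫⁻ X, f (M.exp X * M.sec a) := by
  rw [← M.measurePreserving_par.lintegral_comp hf,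
    lintegral_prod_symm' (fun p => f (M.par p)) (hf.comp M.continuous_par.measurable), lintegral_count]
  rfl

theorem apivolb_meas {f : M.G → ENNReal} (hf : Measurable f) (g : M.G) : Measurable fun X => f (M.exp X * g) :=
  hf.comp (M.continuous_exp.mul continuous_const).measurable

theorem apivolb_slice {f : M.G → ENNReal} (hf : Measurable f) (g : M.G) :
    ∫⁻ X, f (M.exp X * g) = ∫⁻ X, f (M.exp X * M.sec (M.tv g)) := by
  rw [← (M.measurePreserving_bch_right (M.lgm g)).lintegral_comp (M.apivolb_meas hf (M.sec (M.tv g)))]
  refine lintegral_congr fun X => ?_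
  rw [← M.exp_bch, mul_assoc, M.exp_lgm]

theorem apivolb_Ad {f : M.G → ENNReal} (hf : Measurable f) (u g : M.G) :
    ∫⁻ X, f (M.exp (M.Ad u X) * g) = ∫⁻ X, f (M.exp X * M.sec (M.tv g)) := by
  rw [← M.apivolb_slice hf g]
  exact (M.measurePreserving_Ad u).lintegral_comp (M.apivolb_meas hf g)

/-- `lintegral_eq`; `g * exp X * sec a = exp (bch (bch Y (Ad s X)) Z) * sec (tv g + a)` -/
instance : Measure.IsMulLeftInvariant (volume : Measure M.G) := by
  refine ⟨fun g => Measure.ext_of_lintegral _ fun f hf => ?_⟩
  have hg : Measurable fun x : M.G => g * x := (continuous_const.mul continuous_id).measurable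
  rw [lintegral_map hf hg, M.lintegral_eq (f := fun x => f (g * x)) (hf.comp hg), M.lintegral_eq hf,
    ← (Equiv.addLeft (M.tv g)).tsum_eq fun a => ∫⁻ X, f (M.exp X * M.sec a)]
  refine tsum_congr fun a => ?_
  have := M.apivolb_Ad hf g (g * M.sec a)
  rw [M.tv_mul, M.tv_sec] at this
  refine Eq.trans (lintegral_congr fun X => ?_) this
  rw [← mul_assoc, ← mul_assoc, M.mul_exp]

instance : Measure.IsMulRightInvariant (volume : Measure M.G) := by
  refine ⟨fun g => Measure.ext_of_lintegral _ fun f hf => ?_⟩
  have hg : Measurable fun x : M.G => x * g := (continuous_id.mul continuous_const).measurable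
  rw [lintegral_map hf hg, M.lintegral_eq (f := fun x => f (x * g)) (hf.comp hg), M.lintegral_eq hf,
    ← (Equiv.addRight (M.tv g)).tsum_eq fun a => ∫⁻ X, f (M.exp X * M.sec a)]
  refine tsum_congr fun a => ?_
  have := M.apivolb_slice hf (M.sec a * g)
  rw [M.tv_mul, M.tv_sec] at this
  refine Eq.trans (lintegral_congr fun X => ?_) this
  rw [mul_assoc]

instance : IsFiniteMeasureOnCompacts (volume : Measure M.G) := by
  have : IsFiniteMeasureOnCompacts (Measure.count : Measure (Fin k → ℤ)) :=
    ⟨fun K hK => Measure.count_apply_lt_top.2 hK.finite_of_discrete⟩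
  refine ⟨fun K hK => ?_⟩
  rw [← M.measurePreserving_par.measure_preimage hK.measurableSet.nullMeasurableSet]
  exact (M.chartHomeo.symm.isCompact_preimage.2 hK).measure_lt_top

instance : Measure.IsOpenPosMeasure (volume : Measure M.G) := by
  have : Measure.IsOpenPosMeasure (Measure.count : Measure (Fin k → ℤ)) :=
    ⟨fun U _ hU => Measure.count_ne_zero hU⟩
  exact M.continuous_par.isOpenPosMeasure_map fun g => ⟨_, M.par_chart g⟩

instance : Measure.IsHaarMeasure (volume : Measure M.G) := {}

instance : Measure.IsInvInvariant (volume : Measure M.G) := by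
  refine ⟨Measure.ext_of_lintegral _ fun f hf => ?_⟩
  have hg : Measurable fun x : M.G => x⁻¹ := continuous_inv.measurable
  rw [Measure.inv, lintegral_map hf hg, M.lintegral_eq (f := fun x => f x⁻¹) (hf.comp hg), M.lintegral_eq hf,
    ← (Equiv.neg (Fin k → ℤ)).tsum_eq fun a => ∫⁻ X, f (M.exp X * M.sec a)⁻¹]
  refine tsum_congr fun a => ?_
  have := M.apivolb_Ad hf (M.sec (-a))⁻¹ (M.sec (-a))⁻¹
  rw [M.tv_inv, M.tv_sec, neg_neg] at this
  rw [← this, ← lintegral_neg_eq_self]
  refine lintegral_congr fun X => ?_
  rw [← M.mul_exp, M.exp_neg, mul_inv_rev, inv_inv]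
  rfl

theorem volume_exp_mul {s : Set (V h)} (hs : MeasurableSet s) (g : M.G) :
    volume ((fun X => M.exp X * g) '' s) = volume s := by
  have hm : MeasurableSet ((fun X => M.exp X * g) '' s) :=
    hs.image_of_continuousOn_injOn (M.continuous_exp.mul continuous_const).continuousOn
      fun X _ Y _ e => M.exp_inj (mul_right_cancel e)
  rw [← lintegral_indicator_one hm, M.lintegral_eq (measurable_one.indicator hm), tsum_eq_single (M.tv g)]
  · rw [← M.apivolb_slice (measurable_one.indicator hm) g, ← lintegral_indicator_one hs]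
    refine lintegral_congr fun X => ?_
    by_cases hX : X ∈ s
    · rw [indicator_of_mem hX, indicator_of_mem (mem_image_of_mem _ hX)]
      rfl
    · rw [indicator_of_notMem hX, indicator_of_notMem]
      rintro ⟨Y, hY, e⟩
      exact hX (M.exp_inj (mul_right_cancel e) ▸ hY)
  · intro a ha
    refine (lintegral_congr fun X => indicator_of_notMem ?_ _).trans lintegral_zero
    rintro ⟨Y, -, e⟩
    have := congrArg M.tv e
    simp only [M.tv_mul, M.tv_exp, M.tv_sec, zero_add] at this
    exact ha this.symm

theorem volume_par {s : Set (V h)} (hs : MeasurableSet s) (A : Finset (Fin k → ℤ)) :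
    volume (M.par '' (s ×ˢ (A : Set (Fin k → ℤ)))) = A.card * volume s := by
  have hm : MeasurableSet (s ×ˢ (A : Set (Fin k → ℤ))) := hs.prod A.measurableSet
  have e : M.par '' (s ×ˢ (A : Set (Fin k → ℤ))) = M.chart ⁻¹' (s ×ˢ (A : Set (Fin k → ℤ))) :=
    congrFun (image_eq_preimage_of_inverse M.chart_par M.par_chart) _
  rw [e, M.measurePreserving_chart.measure_preimage hm.nullMeasurableSet, Measure.prod_prod, Measure.count_apply_finset,
    mul_comm]

end Model

end Crest.Agent.R182
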