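import Crest.Agent.R182.A.Grp3

/-! R182/A: polynomial functions on nilpotent groups (Swan's argument). -/

set_option autoImplicit false
set_option linter.unusedVariables false
set_option linter.unusedSectionVars false
open Set Filter Topology MeasureTheory Crest.GroupTheory
open scoped Pointwise commutatorElement

noncomputable section
namespace Crest.Agent.R182

variable {G G' : Type*} [Group G] [Group G']

theorem mem_Pol_succ {c : ℕ} {f : G → ℤ} : f ∈ Pol G (c + 1) ↔ ∀ x, (fun y => f (y * x) - f y) ∈ Pol G c := by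
  simp only [Pol, Submodule.mem_iInf, Submodule.mem_comap]
  rfl

theorem Pol_mono : Monotone (Pol G) := by
  refine monotone_nat_of_le_succ fun c => ?_
  induction c with
  | zero => exact bot_le
  | succ c ih => exact fun f hf => mem_Pol_succ.2 fun x => ih (mem_Pol_succ.1 hf x)

theorem Pol_comp (φ : G' →* G) {c : ℕ} {f : G → ℤ} (hf : f ∈ Pol G c) : f ∘ φ ∈ Pol G' c := by
  induction c generalizing f with
  | zero =>
    obtain rfl : f = 0 := hf
    exact Submodule.zero_mem _
  | succ c ih =>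
    refine mem_Pol_succ.2 fun x => ?_
    have := ih (mem_Pol_succ.1 hf (φ x))
    simpa only [Function.comp_def, map_mul] using this

theorem Pol_right (x : G) {c : ℕ} {f : G → ℤ} (hf : f ∈ Pol G c) : (fun y => f (y * x)) ∈ Pol G c := by
  cases c with
  | zero =>
    obtain rfl : f = 0 := hf
    exact Submodule.zero_mem _
  | succ c =>
    have := Submodule.add_mem _ (Pol_mono c.le_succ (mem_Pol_succ.1 hf x)) hf
    convert this using 1
    funext y
    simp

/-- `{x | dl x f ∈ Pol G c}` is a subgroup: `dl (x * s) f = (y ↦ dl s f (y * x)) + dl x f`, `dl x⁻¹ f = -(y ↦ dl x f (y * x⁻¹))` -/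
theorem mem_Pol_of_gen {S : Set G} (hS : Subgroup.closure S = ⊤) {c : ℕ} {f : G → ℤ}
    (h : ∀ x ∈ S, (fun y => f (y * x) - f y) ∈ Pol G c) : f ∈ Pol G (c + 1) := by
  refine mem_Pol_succ.2 fun x => ?_
  have hx : x ∈ Subgroup.closure S := hS ▸ Subgroup.mem_top x
  induction hx using Subgroup.closure_induction with
  | mem x hx => exact h x hx
  | one =>
    convert (Pol G c).zero_mem using 1
    funext y
    simp
  | mul x s _ _ hx hs =>
    convert Submodule.add_mem _ (Pol_right x hs) hx using 1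
    funext y
    simp [mul_assoc]
  | inv x _ hx =>
    convert Submodule.neg_mem _ (Pol_right x⁻¹ hx) using 1
    funext y
    simp

/-- induction: `f ↦ (f 1, (dl s f) s ∈ S)` embeds `Pol G (c + 1)` in `ℤ × (S → Pol G c)` -/
theorem Pol_fg [Group.FG G] (c : ℕ) : (Pol G c).FG := by
  obtain ⟨S, hS⟩ := Group.fg_def.1 ‹Group.FG G›
  induction c with
  | zero => exact Submodule.fg_bot
  | succ c ih =>
    have : Module.Finite ℤ (Pol G c) := Module.Finite.iff_fg.2 ih
    let L : Pol G (c + 1) →ₗ[ℤ] ℤ × (S → Pol G c) :=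
      { toFun := fun f => (f.1 1, fun s => ⟨_, mem_Pol_succ.1 f.2 s⟩)
        map_add' := fun f g => Prod.ext rfl (funext fun s => Subtype.ext (funext fun y => by simp; ring))
        map_smul' := fun a f => Prod.ext rfl (funext fun s => Subtype.ext (funext fun y => by simp; ring)) }
    refine Module.Finite.iff_fg.1 (Module.Finite.of_injective L ((injective_iff_map_eq_zero L).2 fun f hf => ?_))
    have h1 : f.1 1 = 0 := congrArg Prod.fst hf
    have h2 : f.1 ∈ Pol G 1 := mem_Pol_of_gen hS fun x hx =>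
      congrArg Subtype.val (congrFun (congrArg Prod.snd hf) ⟨x, hx⟩)
    refine Subtype.ext (funext fun x => ?_)
    have h3 : f.1 (1 * x) - f.1 1 = 0 := congrFun (mem_Pol_succ.1 h2 x) 1
    rwa [one_mul, h1, sub_zero] at h3

/-- Induction on `c`; `T = funLeft φ`.  For `f ∈ Pol (c + 2)` the map `θ f : x ↦ [dl x f] ∈ Q = Pol (c + 1) ⧸ Pol c` is additive in `x`, `θ f = 0` iff
`f ∈ Pol (c + 1)`, and `θ (T f) = A (B (θ f))` with the commuting operators `A` (composition with `T` on `Q`) and `B` (precomposition with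
`φ`) on `Additive G →+ Q`.  `A - 1` is nilpotent by induction, `((B - 1) χ) x = χ (x⁻¹ * φ x)`, so `(B - 1) ^ m = 0`;
`A B - 1 = A (B - 1) + (A - 1)`, `Commute.isNilpotent_add`. -/
theorem Pol_unip (φ : G →* G) {m : ℕ} (hφ : ∀ x, (fun x => x⁻¹ * φ x)^[m] x = 1) (c : ℕ) :
    ∃ r : ℕ, ∀ f ∈ Pol G (c + 1), ((LinearMap.funLeft ℤ ℤ φ - 1 : Module.End ℤ (G → ℤ)) ^ r) f ∈ Pol G c := by
  set T : Module.End ℤ (G → ℤ) := LinearMap.funLeft ℤ ℤ φ with hT
  set δ : G → G := fun x => x⁻¹ * φ x with hδ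
  have hTP : ∀ {c f}, f ∈ Pol G c → T f ∈ Pol G c := fun hf => Pol_comp φ hf
  have hNP : ∀ {c f}, f ∈ Pol G c → (T - 1) f ∈ Pol G c := fun hf => sub_mem (hTP hf) hf
  have hpow : ∀ {L : Module.End ℤ (G → ℤ)} {c}, (∀ f ∈ Pol G c, L f ∈ Pol G c) → ∀ n, ∀ f ∈ Pol G c,
      (L ^ n) f ∈ Pol G c := fun hL n f hf => Module.End.pow_apply_mem_of_forall_mem n hL f hf
  have hdl : ∀ {c f}, f ∈ Pol G (c + 1) ↔ ∀ x, dl x f ∈ Pol G c := mem_Pol_succ
  induction c with
  | zero =>
    refine ⟨1, fun f hf => ?_⟩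
    have h1 : ∀ x, f x = f 1 := fun x => by
      have := congrFun ((Submodule.mem_bot ℤ).mp (mem_Pol_succ.mp hf x)) 1
      simpa [sub_eq_zero] using this
    refine (Submodule.mem_bot ℤ).mpr (funext fun y => ?_)
    rw [pow_one]
    change f (φ y) - f y = 0
    rw [h1 y, h1 (φ y), sub_self]
  | succ c ih =>
    obtain ⟨r₀, ih⟩ := ih
    let A : Module.End ℤ (G → G → ℤ) := (T - 1).compLeft G
    let B : Module.End ℤ (G → G → ℤ) := T.compLeft G ∘ₗ LinearMap.funLeft ℤ (G → ℤ) δ
    have hAB : Commute A B := LinearMap.ext fun Θ => rfl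
    have hS : ∀ Θ x, (A + B) Θ x = (T - 1) (Θ x) + T (Θ (δ x)) := fun _ _ => rfl
    have hA : ∀ n Θ x, (A ^ n) Θ x = ((T - 1) ^ n) (Θ x) := by
      intro n
      induction n with
      | zero => exact fun _ _ => rfl
      | succ n ihn => exact fun Θ x => by rw [pow_succ, pow_succ, Module.End.mul_apply, ihn]; rfl
    have hB : ∀ n Θ x, (B ^ n) Θ x = (T ^ n) (Θ (δ^[n] x)) := by
      intro n
      induction n with
      | zero => exact fun _ _ => rfl
      | succ n ihn =>
        exact fun Θ x => by rw [pow_succ, pow_succ, Module.End.mul_apply, ihn, Function.iterate_succ_apply']; rfl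
    have h1 : ∀ f ∈ Pol G (c + 2), ∀ x, dl x ((T - 1) f) - (A + B) (fun x => dl x f) x ∈ Pol G c := by
      intro f hf x
      have h2 := hTP (hdl.mp (hdl.mp hf (δ x)) x)
      convert h2 using 1
      funext y
      change f (φ (y * x)) - f (y * x) - (f (φ y) - f y)
        - (f (φ y * x) - f (φ y) - (f (y * x) - f y) + (f (φ y * δ x) - f (φ y)))
        = f (φ y * x * δ x) - f (φ y * x) - (f (φ y * δ x) - f (φ y))
      rw [hδ, mul_assoc, mul_inv_cancel_left, map_mul]
      ring
    have h2 : ∀ n, ∀ f ∈ Pol G (c + 2), ∀ x,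
        dl x (((T - 1) ^ n) f) - ((A + B) ^ n) (fun x => dl x f) x ∈ Pol G c := by
      intro n f hf
      induction n with
      | zero => exact fun x => by simp
      | succ n ihn =>
        intro x
        have h3 := add_mem (h1 _ (hpow (fun _ => hNP) n f hf) x) (add_mem (hNP (ihn x)) (hTP (ihn (δ x))))
        convert h3 using 1
        rw [pow_succ', pow_succ', Module.End.mul_apply, Module.End.mul_apply, map_sub, map_sub, hS, hS]
        abel
    refine ⟨r₀ + m, fun f hf => hdl.mpr fun x => ?_⟩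
    refine (sub_add_cancel (dl x (((T - 1) ^ (r₀ + m)) f)) _) ▸ add_mem (h2 _ f hf x) ?_
    rw [hAB.add_pow, LinearMap.sum_apply, Finset.sum_apply]
    refine Submodule.sum_mem _ fun i hi => ?_
    rw [Module.End.mul_apply, Module.End.mul_apply, hA, hB, Module.End.natCast_apply, Pi.smul_apply]
    by_cases h : r₀ ≤ i
    · obtain ⟨k, rfl⟩ := Nat.exists_eq_add_of_le' h
      rw [pow_add, Module.End.mul_apply]
      exact hpow (fun _ => hNP) _ _ (ih _ (hpow (fun _ => hTP) _ _ (nsmul_mem (hdl.mp hf _) _)))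
    · obtain ⟨k, hk⟩ : ∃ k, r₀ + m - i = m + k := ⟨r₀ - i, by omega⟩
      have h4 : dl (1 : G) f = 0 := funext fun y => by simp [dl]
      rw [hk, Function.iterate_add_apply, hφ, h4, smul_zero, map_zero, map_zero]
      exact zero_mem _

theorem swanc_dec {K : Subgroup G} {t : G} (ht : Nz t K) (hs : K ⊔ Subgroup.zpowers t = ⊤)
    (hz : ∀ n : ℤ, t ^ n ∈ K → n = 0) : ∃ (J : G → ℤ) (p : G → K) (φ : K →* K), (∀ y, (φ y : G) = t⁻¹ * y * t) ∧
      (∀ g, t ^ J g * p g = g) ∧ ∀ (g : G) (j : ℤ) (y : K), t ^ j * y = g → J g = j ∧ p g = y := by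
  have hN : K.Normal := by
    rw [← Subgroup.normalizer_eq_top_iff, eq_top_iff, ← hs]
    exact sup_le Subgroup.le_normalizer ((Subgroup.zpowers_le).2 ht)
  have hex : ∀ g : G, ∃ (j : ℤ) (y : K), t ^ j * y = g := by
    intro g
    have hg : g ∈ ((Subgroup.zpowers t ⊔ K : Subgroup G) : Set G) := by rw [sup_comm, hs]; trivial
    rw [Subgroup.mul_normal] at hg
    obtain ⟨_, ⟨j, rfl⟩, y, hy, rfl⟩ := hg
    exact ⟨j, ⟨y, hy⟩, rfl⟩
  choose J p hJ using hex
  refine ⟨J, p, (MulAut.conjNormal t⁻¹ : MulAut K).toMonoidHom, fun y => by simp, hJ, fun g j y e => ?_⟩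
  have e1 : t ^ (J g - j) = (y : G) * (p g : G)⁻¹ := by
    have := (hJ g).trans e.symm
    rw [sub_eq_neg_add, zpow_add, zpow_neg, inv_mul_eq_iff_eq_mul, ← mul_assoc, eq_mul_inv_iff_mul_eq, this]
  have e2 : J g = j := sub_eq_zero.1 (hz _ (e1 ▸ K.mul_mem y.2 (K.inv_mem (p g).2)))
  refine ⟨e2, Subtype.ext (mul_left_cancel (a := t ^ j) ?_)⟩
  rw [e, ← e2, hJ]

theorem swanc_nil [Group.IsNilpotent G] {K : Subgroup G} {t : G} (φ : K →* K) (hφ : ∀ y, (φ y : G) = t⁻¹ * y * t) :
    ∃ m : ℕ, ∀ x, (fun x => x⁻¹ * φ x)^[m] x = 1 := by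
  obtain ⟨m, hm⟩ := Group.IsNilpotent.nilpotent G
  have key : ∀ (n : ℕ) (x : K), (x : G) ∈ Subgroup.upperCentralSeries G n → (fun x => x⁻¹ * φ x)^[n] x = 1 := by
    intro n
    induction n with
    | zero => exact fun x hx => Subtype.ext hx
    | succ n ih =>
      intro x hx
      rw [Function.iterate_succ_apply]
      refine ih _ ?_
      have := Subgroup.mem_upperCentralSeries_succ_iff.1 (Subgroup.inv_mem _ hx) t⁻¹
      rw [commutatorElement_def, inv_inv, inv_inv] at this
      simpa only [Subgroup.coe_mul, Subgroup.coe_inv, hφ, mul_assoc] using this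
  exact ⟨m, fun x => key m x (hm ▸ Subgroup.mem_top _)⟩

/-- Every `g` is uniquely `t ^ j * y`, `y ∈ K`; `ext F (t ^ j * y) = F y`.  With `φ y = t⁻¹ * y * t` on `K` (`Pol_unip` applies:
`y⁻¹ * φ y = ⁅y⁻¹, t⁻¹⁆` goes down the lower central series of `G`), `dl y (ext F) = ext (dl y F)` and `dl t (ext F) = ext ((T - 1) F)`.
Claim: `∀ c, ∃ c', ∀ F ∈ Pol K c, ext F ∈ Pol G c'`; inner induction on `r` for those `F ∈ Pol K (c + 1)` with
`(T - 1) ^ r F ∈ Pol K c` (`mem_Pol_of_gen` with `S = K ∪ {t}`).  The exponent function `j` lies in `Pol G 2`. -/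
theorem Sep.step [Group.IsNilpotent G] {K : Subgroup G} {t : G} (ht : Nz t K) (hs : K ⊔ Subgroup.zpowers t = ⊤)
    (hz : ∀ n : ℤ, t ^ n ∈ K → n = 0) {c : ℕ} (h : Sep K c) : ∃ c', Sep G c' := by
  obtain ⟨J, p, φ, hφ, hJp, huniq⟩ := swanc_dec ht hs hz
  obtain ⟨m, hm⟩ := swanc_nil φ hφ
  have hy : ∀ (g : G) (y : K), J (g * y) = J g ∧ p (g * y) = p g * y := fun g y =>
    huniq _ _ _ (by rw [Subgroup.coe_mul, ← mul_assoc, hJp])
  have ht' : ∀ g : G, J (g * t) = J g + 1 ∧ p (g * t) = φ (p g) := fun g =>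
    huniq _ _ _ (by rw [hφ, zpow_add_one, mul_assoc, ← mul_assoc t, ← mul_assoc t, mul_inv_cancel, one_mul, ← mul_assoc, hJp])
  have hS : Subgroup.closure ((K : Set G) ∪ {t}) = ⊤ := by
    rw [Subgroup.closure_union, Subgroup.closure_eq, ← Subgroup.zpowers_eq_closure, hs]
  have key : ∀ c, ∃ c', ∀ F ∈ Pol K c, F ∘ p ∈ Pol G c' := by
    intro c
    induction c with
    | zero =>
      refine ⟨0, fun F hF => ?_⟩
      obtain rfl : F = 0 := hF
      exact Submodule.zero_mem _
    | succ c ih =>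
      obtain ⟨c', hc'⟩ := ih
      obtain ⟨r, hr⟩ := Pol_unip φ hm c
      have inner : ∀ r : ℕ, ∃ c'', ∀ F ∈ Pol K (c + 1),
          ((LinearMap.funLeft ℤ ℤ φ - 1 : Module.End ℤ (K → ℤ)) ^ r) F ∈ Pol K c → F ∘ p ∈ Pol G c'' := by
        intro r
        induction r with
        | zero => exact ⟨c', fun F _ hF => hc' F hF⟩
        | succ r ih =>
          obtain ⟨c'', hc''⟩ := ih
          refine ⟨max c' c'' + 1, fun F hF hF' => mem_Pol_of_gen hS ?_⟩
          rintro x (hx | rfl)
          · refine Pol_mono (le_max_left _ _) ?_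
            have := hc' _ (mem_Pol_succ.1 hF ⟨x, hx⟩)
            convert this using 1
            funext g
            simp only [Function.comp_apply, (hy g ⟨x, hx⟩).2]
          · refine Pol_mono (le_max_right _ _) ?_
            have h1 : (LinearMap.funLeft ℤ ℤ φ - 1 : Module.End ℤ (K → ℤ)) F ∈ Pol K (c + 1) :=
              Submodule.sub_mem _ (Pol_comp φ hF) hF
            have := hc'' _ h1 (by rwa [pow_succ, Module.End.mul_apply] at hF')
            convert this using 1
            funext g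
            simp only [Function.comp_apply, (ht' g).2]
            rfl
      obtain ⟨c'', hc''⟩ := inner r
      exact ⟨c'', fun F hF => hc'' F hF (hr F hF)⟩
  have hJ : J ∈ Pol G 2 := by
    refine mem_Pol_of_gen hS ?_
    rintro x (hx | rfl)
    · have : (fun y => J (y * x) - J y) = 0 := funext fun g => sub_eq_zero.2 (hy g ⟨x, hx⟩).1
      rw [this]
      exact Submodule.zero_mem _
    · refine mem_Pol_succ.2 fun z => ?_
      have : (fun y => J (y * z * x) - J (y * z) - (J (y * x) - J y)) = 0 := funext fun g => by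
        simp [(ht' _).1]
      rw [this]
      exact Submodule.zero_mem _
  obtain ⟨c', hc'⟩ := key c
  obtain ⟨h1, h2⟩ := huniq 1 0 1 (by simp)
  refine ⟨max c' 2, fun x hx => ?_⟩
  by_cases h0 : J x = 0
  · have hp : p x ≠ 1 := fun e => hx (by rw [← hJp x, h0, e]; simp)
    obtain ⟨F, hF, hne⟩ := h _ hp
    exact ⟨F ∘ p, Pol_mono (le_max_left _ _) (hc' F hF), by simpa only [Function.comp_apply, h2] using hne⟩
  · exact ⟨J, Pol_mono (le_max_right _ _) hJ, by rwa [h1]⟩

theorem Sep.of_equiv {c : ℕ} (h : Sep G c) (e : G' ≃* G) : Sep G' c := by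
  intro x hx
  obtain ⟨f, hf, hne⟩ := h (e x) (by simpa using hx)
  exact ⟨f ∘ e.toMonoidHom, Pol_comp _ hf, by simpa using hne⟩

/-- induction on `PZ K`; apply `Sep.step` in the group `H ⊔ ⟨g⟩` to `H.subgroupOf _` (`Subgroup.subgroupOfEquivOfLe`) -/
theorem exists_sep [Group.IsNilpotent G] {K : Subgroup G} (h : PZ K) : ∃ c, Sep K c := by
  induction h with
  | bot => exact ⟨0, fun x hx => absurd (Subsingleton.elim _ _) hx⟩
  | step H g _ hn hz ih =>
    obtain ⟨c, hc⟩ := ih
    have hg : g ∈ H ⊔ Subgroup.zpowers g := Subgroup.mem_sup_right (Subgroup.mem_zpowers g)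
    refine Sep.step (K := H.subgroupOf (H ⊔ Subgroup.zpowers g)) (t := ⟨g, hg⟩) (fun x => hn x) ?_ (fun n h => hz n h)
      (hc.of_equiv (Subgroup.subgroupOfEquivOfLe le_sup_left))
    refine Subgroup.map_injective (Subgroup.subtype_injective _) ?_
    rw [Subgroup.map_sup, Subgroup.map_subgroupOf_eq_of_le le_sup_left, MonoidHom.map_zpowers,
      ← MonoidHom.range_eq_map, Subgroup.range_subtype]
    rfl

/-- right translation on polynomial functions -/
def swand_R (G : Type*) [Group G] (c : ℕ) : G →* Module.End ℤ (Pol G c) where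
  toFun x := (LinearMap.funLeft ℤ ℤ fun y => y * x).restrict fun f hf => Pol_right x hf
  map_one' := by ext f y; simp [LinearMap.restrict_apply, LinearMap.funLeft_apply]
  map_mul' x x' := by ext f y; simp [LinearMap.restrict_apply, LinearMap.funLeft_apply, mul_assoc]

theorem swand_R_apply {c : ℕ} (x : G) (f : Pol G c) (y : G) : (swand_R G c x f).1 y = f.1 (y * x) := rfl

/-- conjugation on polynomial functions -/
def swand_K (N : Subgroup G) [N.Normal] (c : ℕ) : G →* Module.End ℤ (Pol N c) where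
  toFun γ := (LinearMap.funLeft ℤ ℤ (MulAut.conjNormal γ⁻¹ : MulAut N)).restrict fun f hf =>
    Pol_comp (MulAut.conjNormal γ⁻¹ : MulAut N).toMonoidHom hf
  map_one' := by ext f y; simp [LinearMap.restrict_apply]
  map_mul' x x' := by ext f y; simp [LinearMap.restrict_apply, LinearMap.funLeft_apply]

theorem swand_K_apply (N : Subgroup G) [N.Normal] {c : ℕ} (γ : G) (f : Pol N c) (y : N) :
    (swand_K N c γ f).1 y = f.1 (MulAut.conjNormal γ⁻¹ y) := rfl

theorem swand_unip {c : ℕ} (l : List G) : ∀ (j : ℕ) (f : Pol G c), f.1 ∈ Pol G (j + l.length) →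
    ((l.map fun x => swand_R G c x - 1).prod f).1 ∈ Pol G j := by
  induction l with
  | nil => exact fun j f hf => hf
  | cons x l ih =>
    intro j f hf
    rw [List.length_cons, add_comm l.length, ← add_assoc] at hf
    exact mem_Pol_succ.1 (ih (j + 1) f hf) x

/-- `Pol N c` is a finitely generated torsion free `ℤ`-module, hence free; `ρ x` = matrix of the right translation, `κ γ` = matrix
of `f ↦ (y ↦ f (γ⁻¹ y γ))` (`LinearMap.toMatrixAlgEquiv`, `LinearMap.restrict`) -/
theorem exists_lin (N : Subgroup G) [N.Normal] [Group.FG N] {c : ℕ} (h : Sep N c) : ∃ d, Nonempty (Lin N d c) := by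
  have : Module.Finite ℤ (Pol N c) := Module.Finite.iff_fg.2 (Pol_fg c)
  obtain ⟨A⟩ : Nonempty (Module.End ℤ (Pol N c) ≃ₐ[ℤ]
      Matrix (Fin (Module.finrank ℤ (Pol N c))) (Fin (Module.finrank ℤ (Pol N c))) ℤ) :=
    ⟨LinearMap.toMatrixAlgEquiv (Module.finBasis ℤ (Pol N c))⟩
  refine ⟨_, ⟨⟨A.toMulEquiv.toMonoidHom.comp (swand_R N c), A.toMulEquiv.toMonoidHom.comp (swand_K N c), ?_, ?_, ?_⟩⟩⟩
  · refine (injective_iff_map_eq_one _).2 fun x hx => ?_
    have h1 : swand_R N c x = 1 := A.injective (hx.trans (map_one A).symm)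
    by_contra hne
    obtain ⟨f, hf, hf'⟩ := h x hne
    have := swand_R_apply x ⟨f, hf⟩ 1
    rw [h1, one_mul] at this
    exact hf' this.symm
  · intro l hl _
    have h1 : (l.map fun x => swand_R N c x - 1).prod = 0 := LinearMap.ext fun f =>
      Subtype.ext (swand_unip l 0 f (by rw [zero_add, hl]; exact f.2))
    have h2 := congrArg A h1
    rw [map_list_prod, List.map_map, map_zero] at h2
    refine Eq.trans (congrArg List.prod (List.map_congr_left fun x _ => ?_)) h2
    rw [Function.comp_apply, map_sub, map_one]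
    rfl
  · intro γ x y hy
    have h1 : swand_K N c γ * swand_R N c x = swand_R N c y * swand_K N c γ := by
      ext f z
      rw [Module.End.mul_apply, Module.End.mul_apply, swand_K_apply, swand_R_apply, swand_R_apply, swand_K_apply]
      exact congrArg f.1 (Subtype.ext (by simp [hy, mul_assoc]))
    exact (map_mul A _ _).symm.trans ((congrArg A h1).trans (map_mul A _ _))

end Crest.Agent.R182
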