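import Crest.Agent.R182.A.CoreB
import Crest.Agent.R182.A.Swan

/-! R182/A: the Malcev completion. -/

set_option autoImplicit false
set_option linter.unusedVariables false
set_option linter.unusedSectionVars false
open Set Filter Topology MeasureTheory Crest.GroupTheory
open scoped Pointwise commutatorElement

noncomputable section
namespace Crest.Agent.R182

abbrev Mt (d : ℕ) : Type := Matrix (Fin d) (Fin d) ℝ

/-- the span of the logarithms -/
def logSpan {N A : Type*} [Group N] [Ring A] [Algebra ℝ A] (c : ℕ) (ρ : N →* A) (K : Subgroup N) : Submodule ℝ A :=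
  Submodule.span ℝ ((fun x => lg c (ρ x)) '' K)

/-- `J` = span of the nonempty products of elements `ρ x - 1` -/
theorem exists_nil_of_unip {N A : Type*} [Group N] [Ring A] [Algebra ℝ A] {c : ℕ} (ρ : N →* A) (hu : Unip ρ ⊤ c) :
    ∃ J : Submodule ℝ A, Nil J c ∧ ∀ x, ρ x - 1 ∈ J := by
  let P : ℕ → Submodule ℝ A := fun n =>
    Submodule.span ℝ {a | ∃ l : List N, n ≤ l.length ∧ (l.map fun x => ρ x - 1).prod = a}
  have hmul : ∀ m n k, k ≤ m + n → P m * P n ≤ P k := fun m n k hk => by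
    rw [Submodule.span_mul_span]
    refine Submodule.span_mono ?_
    rintro _ ⟨_, ⟨l, hl, rfl⟩, _, ⟨l', hl', rfl⟩, rfl⟩
    exact ⟨l ++ l', by rw [List.length_append]; omega, by rw [List.map_append, List.prod_append]⟩
  have hpow : ∀ n, P 1 ^ n ≤ P n := fun n => by
    induction n with
    | zero => exact (pow_zero _).trans_le (Submodule.one_le.2 (Submodule.subset_span ⟨[], le_rfl, rfl⟩))
    | succ n ih => exact (pow_succ _ _).trans_le ((mul_le_mul_left ih _).trans (hmul n 1 _ le_rfl))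
  refine ⟨P 1, ⟨hmul 1 1 1 (by omega), le_bot_iff.1 ((hpow c).trans (Submodule.span_le.2 ?_))⟩,
    fun x => Submodule.subset_span ⟨[x], le_rfl, by simp⟩⟩
  rintro _ ⟨l, hl, rfl⟩
  rw [← l.take_append_drop c, List.map_append, List.prod_append,
    hu _ (List.length_take_of_le hl) fun _ _ => trivial, zero_mul]
  exact Submodule.zero_mem _

section malb
variable {N A : Type*} [Group N] [Ring A] [Algebra ℝ A] {c : ℕ} {J : Submodule ℝ A}

theorem malb_add (hJ : Nil J c) {U : A} (hU : U ∈ J) (s t : ℝ) : ex c ((s + t) • U) = ex c (s • U) * ex c (t • U) := by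
  rw [add_smul]
  exact ex_add (((Commute.refl U).smul_left s).smul_right t) (hJ.pow_eq_zero (J.smul_mem _ hU))
    (hJ.pow_eq_zero (J.smul_mem _ hU)) (hJ.pow_eq_zero (J.add_mem (J.smul_mem _ hU) (J.smul_mem _ hU)))

theorem malb_zero (hJ : Nil J c) : ex c (0 : A) = 1 := by
  have h1 := ex_mul_neg (hJ.pow_eq_zero J.zero_mem)
  have h2 := malb_add hJ J.zero_mem 0 0
  rw [smul_zero, smul_zero] at h2
  rw [h2, ← h1, neg_zero]

theorem malb_inv (hJ : Nil J c) (ρ : N →* A) {g : N} {U : A} (hU : U ∈ J) (h : ρ g = ex c U) : ρ g⁻¹ = ex c (-U) := by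
  rw [← mul_one (ρ g⁻¹), ← ex_mul_neg (hJ.pow_eq_zero hU), ← h, ← mul_assoc, ← map_mul, inv_mul_cancel, map_one, one_mul]

theorem malb_zpow (hJ : Nil J c) (ρ : N →* A) {g : N} {U : A} (hU : U ∈ J) (h : ρ g = ex c U) (j : ℤ) :
    ρ (g ^ j) = ex c ((j : ℝ) • U) := by
  induction j using Int.induction_on with
  | zero => rw [zpow_zero, map_one, Int.cast_zero, zero_smul, malb_zero hJ]
  | succ j ih => rw [zpow_add_one, map_mul, ih, Int.cast_add, malb_add hJ hU, Int.cast_one, one_smul, h]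
  | pred j ih =>
    rw [zpow_sub_one, map_mul, ih, Int.cast_sub, sub_eq_add_neg, malb_add hJ hU, Int.cast_one, neg_smul 1, one_smul,
      malb_inv hJ ρ hU h]

theorem malb_ex_lg (hJ : Nil J c) {X Y : A} (hX : X ∈ J) (hY : Y ∈ J) :
    ex c (lg c (ex c X * ex c Y)) = ex c X * ex c Y :=
  ex_lg (hJ.pow_eq_zero (hJ.mul_sub_one_mem (hJ.ex_sub_one_mem hX) (hJ.ex_sub_one_mem hY)))

theorem malb_le (hJ : Nil J c) (ρ : N →* A) (hρ : ∀ x, ρ x - 1 ∈ J) (K : Subgroup N) : logSpan c ρ K ≤ J :=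
  Submodule.span_le.2 (by rintro _ ⟨x, -, rfl⟩; exact hJ.lg_mem (hρ x))

theorem malb_conj (ρ : N →* A) {H : Subgroup N} {t : N} (ht : t ∈ Subgroup.normalizer (H : Set N)) {Y : A}
    (hY : Y ∈ logSpan c ρ H) : ρ t * Y * ρ t⁻¹ ∈ logSpan c ρ H := by
  induction hY using Submodule.span_induction with
  | mem _ h =>
    obtain ⟨x, hx, rfl⟩ := h
    rw [conj_lg (by rw [← map_mul, mul_inv_cancel, map_one]) (by rw [← map_mul, inv_mul_cancel, map_one]), ← map_mul,
      ← map_mul]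
    exact Submodule.subset_span ⟨_, (Subgroup.mem_normalizer_iff.1 ht x).1 hx, rfl⟩
  | zero => simp
  | add Y Z _ _ h h' => rw [mul_add, add_mul]; exact add_mem h h'
  | smul s Y _ h => rw [mul_smul_comm, smul_mul_assoc]; exact Submodule.smul_mem _ s h

theorem malb_lie {H : Submodule ℝ A} {U : A} (h : ∀ X ∈ H, ∀ Y ∈ H, lie A X Y ∈ H) (hU : ∀ Y ∈ H, lie A U Y ∈ H) :
    ∀ X ∈ H ⊔ Submodule.span ℝ {U}, ∀ Y ∈ H ⊔ Submodule.span ℝ {U}, lie A X Y ∈ H := by
  intro X' hX' Y' hY'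
  obtain ⟨X, hX, _, hs, rfl⟩ := Submodule.mem_sup.1 hX'
  obtain ⟨Y, hY, _, ht, rfl⟩ := Submodule.mem_sup.1 hY'
  obtain ⟨s, rfl⟩ := Submodule.mem_span_singleton.1 hs
  obtain ⟨t, rfl⟩ := Submodule.mem_span_singleton.1 ht
  have e : lie A (X + s • U) (Y + t • U) = lie A X Y - t • lie A U X + s • lie A U Y := by
    simp only [lie_apply, mul_add, add_mul, mul_smul_comm, smul_mul_assoc, smul_sub]
    module
  rw [e]
  exact add_mem (sub_mem (h X hX Y hY) (H.smul_mem t (hU X hX))) (H.smul_mem s (hU Y hY))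

end malb

/-- Induction on `PC K`.  Step `K = H ⊔ ⟨g⟩`, `𝔥 = logSpan H`, `U = lg (ρ g)`, `ρ (g ^ j) = ex (j • U)`.  Conjugation by `ρ g` preserves `𝔥` (`conj_lg`), so
`lie U` does (`Nil.lie_mem_of_conj`); all brackets in `𝔥' = 𝔥 ⊔ span {U}` lie in `𝔥`, and `Nil.closure` gives `logSpan K = 𝔥'`.
For `X = Y + s • U`: `ex X * ex (-s • U) = ex Y'` with `Y' ∈ 𝔥` (`Nil.closure`), `s = m + s'`, `s' ∈ [0, 1]`,
`ex X = ρ (g ^ m) * ex (Y'') * ex (s' • U)` with `Y'' ∈ 𝔥` a conjugate of `Y'`.  New compact set: the image of `B ×ˢ Icc 0 1` under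
`(Y, s) ↦ lg (ex Y * ex (s • U))`. -/
theorem malcev {N : Type*} [Group N] {d c : ℕ} {J : Submodule ℝ (Mt d)} (hJ : Nil J c) (ρ : N →* Mt d)
    (hρ : ∀ x, ρ x - 1 ∈ J) {K : Subgroup N} (hK : PC K) :
    (∀ X ∈ logSpan c ρ K, ∀ Y ∈ logSpan c ρ K, lie (Mt d) X Y ∈ logSpan c ρ K) ∧
      ∃ B : Set (Mt d), IsCompact B ∧ B ⊆ logSpan c ρ K ∧
        ∀ X ∈ logSpan c ρ K, ∃ x ∈ K, ∃ Y ∈ B, ex c X = ρ x * ex c Y := by
  have hx : ∀ x, ρ x = ex c (lg c (ρ x)) := fun x => (ex_lg (hJ.pow_eq_zero (hρ x))).symm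
  induction hK with
  | bot =>
    have h0 : ∀ X ∈ logSpan c ρ ⊥, X = 0 := by
      intro X hX
      refine (Submodule.mem_bot ℝ).1 (Submodule.span_le.2 ?_ hX)
      rintro _ ⟨x, hx, rfl⟩
      obtain rfl : x = 1 := hx
      show lg c (ρ 1) = 0
      rw [map_one, ← malb_zero hJ, lg_ex (hJ.pow_eq_zero J.zero_mem)]
    refine ⟨fun X hX Y _ => ?_, {0}, isCompact_singleton, by simp, fun X hX => ⟨1, one_mem _, 0, rfl, ?_⟩⟩
    · simp [h0 X hX]
    · rw [h0 X hX, map_one, one_mul]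
  | step H g _ hg ih =>
    obtain ⟨ih, B, hB, hBH, hc⟩ := ih
    obtain ⟨U, hU⟩ : ∃ U, U = lg c (ρ g) := ⟨_, rfl⟩
    have hUJ : U ∈ J := hU ▸ hJ.lg_mem (hρ g)
    have hgU : ρ g = ex c U := hU ▸ hx g
    have hn : g ∈ Subgroup.normalizer (H : Set N) := Subgroup.mem_normalizer_iff.2 hg
    have hH := malb_le hJ ρ hρ H
    have hb := malb_lie ih (hJ.lie_mem_of_conj hH hUJ fun Y hY => by
      rw [← malb_inv hJ ρ hUJ hgU, ← hgU]; exact malb_conj ρ hn hY)
    have hH' : logSpan c ρ H ⊔ Submodule.span ℝ {U} ≤ J := sup_le hH ((Submodule.span_singleton_le_iff_mem _ _).2 hUJ)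
    have hs : ∀ s : ℝ, s • U ∈ logSpan c ρ H ⊔ Submodule.span ℝ {U} := fun s =>
      Submodule.mem_sup_right (Submodule.smul_mem _ s (Submodule.mem_span_singleton_self U))
    have hcl : ∀ Y ∈ logSpan c ρ H, ∀ s : ℝ, lg c (ex c Y * ex c (s • U)) ∈ logSpan c ρ H ⊔ Submodule.span ℝ {U} := by
      intro Y hY s
      have := hJ.closure hH' le_sup_left hb (Submodule.mem_sup_left hY) (hs s)
      simpa using add_mem (add_mem (Submodule.mem_sup_left this) (hs s)) (Submodule.mem_sup_left hY)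
    have e : logSpan c ρ (H ⊔ Subgroup.zpowers g) = logSpan c ρ H ⊔ Submodule.span ℝ {U} := by
      refine le_antisymm (Submodule.span_le.2 ?_) (sup_le (Submodule.span_mono (image_mono fun x hx => ?_)) ?_)
      · rintro _ ⟨x, hx', rfl⟩
        obtain ⟨y, hy, j, rfl⟩ := hg.mem_sup.1 hx'
        show lg c (ρ (y * g ^ j)) ∈ _
        rw [map_mul, malb_zpow hJ ρ hUJ hgU, hx y]
        exact hcl _ (Submodule.subset_span ⟨y, hy, rfl⟩) _
      · exact Subgroup.mem_sup_left hx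
      · exact (Submodule.span_singleton_le_iff_mem _ _).2
          (Submodule.subset_span ⟨g, Subgroup.mem_sup_right (Subgroup.mem_zpowers g), hU.symm⟩)
    rw [e]
    refine ⟨fun X hX Y hY => Submodule.mem_sup_left (hb X hX Y hY),
      (fun p : Mt d × ℝ => lg c (ex c p.1 * ex c (p.2 • U))) '' B ×ˢ Icc 0 1,
      (hB.prod isCompact_Icc).image (by unfold lg ex; fun_prop), ?_, fun X hX => ?_⟩
    · rintro _ ⟨p, hp, rfl⟩
      exact hcl _ (hBH hp.1) _
    obtain ⟨Y, hY, _, hs', rfl⟩ := Submodule.mem_sup.1 (id hX)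
    obtain ⟨s, rfl⟩ := Submodule.mem_span_singleton.1 hs'
    have h1 : lg c (ex c (Y + s • U) * ex c (-(s • U))) ∈ logSpan c ρ H := by
      convert add_mem (hJ.closure hH' le_sup_left hb hX (neg_mem (hs s))) hY using 1
      abel
    have h2 := malb_conj ρ (inv_mem (zpow_mem hn ⌊s⌋)) h1
    obtain ⟨x, hxH, Z, hZ, h3⟩ := hc _ h2
    have i1 : ρ (g ^ ⌊s⌋)⁻¹ * ρ (g ^ ⌊s⌋) = 1 := by rw [← map_mul, inv_mul_cancel, map_one]
    have i2 : ρ (g ^ ⌊s⌋) * ρ (g ^ ⌊s⌋)⁻¹ = 1 := by rw [← map_mul, mul_inv_cancel, map_one]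
    rw [inv_inv, ← conj_ex i1 i2, malb_ex_lg hJ (hH' hX) (neg_mem (hH' (hs s)))] at h3
    refine ⟨g ^ ⌊s⌋ * x, mul_mem (Subgroup.mem_sup_right (zpow_mem (Subgroup.mem_zpowers g) _))
      (Subgroup.mem_sup_left hxH), _, ⟨(Z, Int.fract s), ⟨hZ, Int.fract_nonneg s, (Int.fract_lt_one s).le⟩, rfl⟩, ?_⟩
    have h4 : ρ (g ^ ⌊s⌋) * ex c (Int.fract s • U) = ex c (s • U) := by
      rw [malb_zpow hJ ρ hUJ hgU, ← malb_add hJ hUJ, Int.floor_add_fract]
    show _ = _ * ex c (lg c (ex c Z * ex c (Int.fract s • U)))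
    rw [malb_ex_lg hJ (hH (hBH hZ)) (hH' (hs _)), map_mul, mul_assoc, ← mul_assoc (ρ x), ← h3, mul_assoc _ _ (ex c _), h4,
      mul_assoc, mul_assoc, ex_neg_mul (hJ.pow_eq_zero (hH' (hs s))), mul_one, ← mul_assoc, i2, one_mul]

/-- `Λ = {z : ι → ℤ | (z : ι → ℝ) ∈ range f}` is a free `ℤ`-module (`Submodule.basisOfPid`); its basis stays independent over `ℝ`
(`linearIndependent_algebraMap_comp_iff`) and spans `range f` -/
theorem exists_int_basis {E ι : Type*} [AddCommGroup E] [Module ℝ E] [Fintype ι] (f : E →ₗ[ℝ] (ι → ℝ))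
    (hf : Function.Injective f) (hs : Submodule.span ℝ {X | IsInt (f X)} = ⊤) :
    ∃ (h : ℕ) (e : V h ≃ₗ[ℝ] E), ∀ X, IsInt X ↔ IsInt (f (e X)) := by
  let φ : (ι → ℤ) →ₗ[ℤ] (ι → ℝ) := (Algebra.linearMap ℤ ℝ).compLeft ι
  let Λ : Submodule ℤ (ι → ℤ) := ((LinearMap.range f).restrictScalars ℤ).comap φ
  let b := Module.finBasis ℤ Λ
  choose w hw using fun k => (b k).2
  have hli : LinearIndependent ℝ w := by
    refine LinearIndependent.of_comp f ?_
    have : ⇑f ∘ w = fun k => algebraMap ℤ ℝ ∘ (b k).1 := funext hw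
    rw [this, linearIndependent_algebraMap_comp_iff]
    exact b.linearIndependent.map' Λ.subtype (Submodule.ker_subtype _)
  have hint : ∀ X, IsInt (f X) → ∃ c : Fin (Module.finrank ℤ Λ) → ℤ, X = ∑ k, (c k : ℝ) • w k := fun X hX => by
    choose z hz using hX
    have hzΛ : z ∈ Λ := ⟨X, funext hz⟩
    refine ⟨b.repr ⟨z, hzΛ⟩, hf ?_⟩
    have e := congrArg (fun v : Λ => φ v.1) (b.sum_repr ⟨z, hzΛ⟩)
    simp only [Submodule.coe_sum, Submodule.coe_smul, map_sum, map_smul] at e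
    simp only [map_sum, map_smul, hw]
    simp only [Int.cast_smul_eq_zsmul]
    exact (funext hz).trans e.symm
  have hsp : ⊤ ≤ Submodule.span ℝ (range w) := hs.symm.trans_le (Submodule.span_le.2 fun X hX => by
    obtain ⟨c, rfl⟩ := hint X hX
    exact Submodule.sum_mem _ fun k _ => Submodule.smul_mem _ _ (Submodule.subset_span ⟨k, rfl⟩))
  have he : ∀ X, (Module.Basis.mk hli hsp).equivFun.symm X = ∑ k, X k • w k := fun X => by
    simp only [Module.Basis.equivFun_symm_apply, Module.Basis.coe_mk]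
  refine ⟨_, (Module.Basis.mk hli hsp).equivFun.symm, fun X => ⟨fun hX j => ?_, fun hX j => ?_⟩⟩
  · choose c hc using hX
    refine ⟨∑ k, c k * (b k).1 j, ?_⟩
    simp only [he, map_sum, map_smul, hw, Finset.sum_apply, Pi.smul_apply, smul_eq_mul, hc, Int.cast_sum, Int.cast_mul]
    rfl
  · obtain ⟨c, hc⟩ := hint _ hX
    rw [← he] at hc
    exact ⟨c j, congrFun ((Module.Basis.mk hli hsp).equivFun.symm.injective hc) j⟩

theorem finite_isInt {h : ℕ} {D : ℝ} (hD : 0 < D) (R : ℝ) : {X : V h | IsInt (D • X) ∧ ‖X‖ ≤ R}.Finite := by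
  refine (Set.Finite.pi' fun _ : Fin h => (Set.finite_Icc (-⌈D * R⌉) ⌈D * R⌉).image fun z : ℤ => (z : ℝ) / D).subset ?_
  rintro X ⟨h1, h2⟩ j
  obtain ⟨z, hz⟩ := h1 j
  rw [Pi.smul_apply, smul_eq_mul] at hz
  refine ⟨z, abs_le.1 ?_, by simp only [← hz]; field_simp⟩
  have h3 : |X j| ≤ R := (norm_le_pi_norm X j).trans h2
  rw [← Int.cast_le (R := ℝ), Int.cast_abs, ← hz, abs_mul, abs_of_pos hD]
  exact (mul_le_mul_of_nonneg_left h3 hD.le).trans (Int.le_ceil _)

theorem mald_core {A : Type} [Ring A] [Algebra ℝ A] {c h : ℕ} {J : Submodule ℝ A} (hJ : Nil J c) (i : V h →ₗ[ℝ] A)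
    (hi : Function.Injective i) (hiJ : ∀ X, i X ∈ J) (br : V h →ₗ[ℝ] V h →ₗ[ℝ] V h)
    (hbr : ∀ X Y, i (br X Y) = lie A (i X) (i Y)) :
    ∃ (co : Core h 0) (j : co.G →* A), Function.Injective j ∧ (∀ X, j (co.exp X) = ex c (i X)) ∧ co.br = br := by
  obtain ⟨ws, coef, hb⟩ := exists_bch c
  have hp : ∀ X, i X ^ c = 0 := fun X => hJ.pow_eq_zero (hiJ X)
  have hnest : ∀ X Y w, i (nest br X Y w) = nest (lie A) (i X) (i Y) w := fun X Y w => by
    induction w with
    | nil => exact hbr X Y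
    | cons b w ih =>
      simp only [nest, List.foldr_cons] at ih ⊢
      rw [hbr, ih, apply_ite i]
  have hmul : ∀ X Y, ex c (i X) * ex c (i Y) = ex c (i (bchF br ws coef X Y)) := fun X Y => by
    rw [hb A J hJ _ (hiJ X) _ (hiJ Y)]
    simp only [bchF, map_add, map_sum, map_smul, hnest]
  let u : V h → Aˣ := fun X => ⟨ex c (i X), ex c (-i X), ex_mul_neg (hp X), ex_neg_mul (hp X)⟩
  let G : Subgroup Aˣ :=
    { carrier := range u
      mul_mem' := by
        rintro _ _ ⟨X, rfl⟩ ⟨Y, rfl⟩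
        exact ⟨_, Units.ext (hmul X Y).symm⟩
      one_mem' := ⟨0, Units.ext (by
        show ex c (i 0) = 1
        rcases c with _ | c
        · exact (subsingleton_of_zero_eq_one (by simpa using (hp 0).symm)).elim _ _
        · simp [ex, Finset.sum_range_succ'])⟩
      inv_mem' := by
        rintro _ ⟨X, rfl⟩
        exact ⟨-X, Units.ext (by show ex c (i (-X)) = ex c (-i X); rw [map_neg])⟩ }
  let E : V h → G := fun X => ⟨u X, X, rfl⟩
  have hE : ∀ g : G, ∃ X, E X = g := fun g => g.2.imp fun X hX => Subtype.ext hX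
  let j : G →* A := (Units.coeHom A).comp G.subtype
  have hj : Function.Injective j := Units.val_injective.comp Subtype.val_injective
  have hpw : ∀ Z X (k : ℕ), i ((br Z ^ k) X) = (lie A (i Z) ^ k) (i X) := fun Z X k => by
    induction k with
    | zero => rfl
    | succ k ih => rw [pow_succ', pow_succ', Module.End.mul_apply, Module.End.mul_apply, hbr, ih]
  have hex : ∀ Z X, i (ex c (br Z : Module.End ℝ (V h)) X) = j (E Z) * i X * j (E Z)⁻¹ := fun Z X => by
    refine Eq.trans ?_ (hJ.ad_ex (hiJ Z) (hiJ X)).symm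
    simp only [ex, LinearMap.sum_apply, LinearMap.smul_apply, map_sum, map_smul, hpw]
  have hT : ∀ g : G, ∃ T : Module.End ℝ (V h), ∀ X, i (T X) = j g * i X * j g⁻¹ := fun g => by
    obtain ⟨Z, rfl⟩ := hE g
    exact ⟨_, hex Z⟩
  choose T hT using hT
  have h1 : ∀ g : G, j g * j g⁻¹ = 1 := fun g => by rw [← map_mul, mul_inv_cancel, map_one]
  have h2 : ∀ g : G, j g⁻¹ * j g = 1 := fun g => by rw [← map_mul, inv_mul_cancel, map_one]
  let Ad : G →* Module.End ℝ (V h) :=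
    { toFun := T
      map_one' := LinearMap.ext fun X => hi (by rw [hT]; simp)
      map_mul' := fun g g' => LinearMap.ext fun X => hi (by
        rw [Module.End.mul_apply, hT, hT, hT, mul_inv_rev, map_mul, map_mul]
        simp only [mul_assoc]) }
  have hl : ∀ k, lcs br (k + 1) ≤ (J ^ (k + 1)).comap i := fun k => by
    induction k with
    | zero => exact fun X _ => by simpa using hiJ X
    | succ k ih =>
      refine Submodule.map₂_le.2 fun X _ Y hY => ?_
      have := hJ.lie_pow_mem (hiJ X) (Submodule.mem_comap.1 (ih hY)) 1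
      rwa [pow_one, ← hbr] at this
  refine ⟨{ G := G, br := br, cl := c, exp := E, ws := ws, coef := coef, Ad := Ad, τ := 1
            br_self := fun X => hi (by rw [hbr, lie_apply, sub_self, map_zero])
            jacobi := fun X Y Z => hi (by simp only [map_add, hbr, lie_apply]; noncomm_ring)
            nilp := eq_bot_iff.2 fun X hX => ?_
            exp_inj := fun X Y e => hi ?_
            exp_mul := fun X Y => hj (by rw [map_mul]; exact hmul X Y)
            conj := fun g X => hj ?_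
            Ad_br := fun g X Y => hi ?_
            Ad_exp := fun X => LinearMap.ext fun Y => hi ((hT _ Y).trans (hex X Y).symm)
            τ_surj := fun a => ⟨1, Subsingleton.elim _ _⟩
            τ_ker := fun g => ⟨fun _ => hE g, fun _ => rfl⟩ }, j, hj, fun X => rfl, rfl⟩
  · have := hl c hX
    rw [hJ.pow_eq_bot c.le_succ, Submodule.mem_comap, Submodule.mem_bot] at this
    exact hi (this.trans (map_zero i).symm)
  · have : ex c (i X) = ex c (i Y) := congrArg j e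
    rw [← lg_ex (hp X), this, lg_ex (hp Y)]
  · rw [map_mul, map_mul]
    show j g * ex c (i X) * j g⁻¹ = ex c (i (T g X))
    rw [conj_ex (h1 g) (h2 g), hT]
  · show i (T g (br X Y)) = i (br (T g X) (T g Y))
    have h3 : ∀ a : A, j g⁻¹ * (j g * a) = a := fun a => by rw [← mul_assoc, h2, one_mul]
    rw [hT, hbr, hbr, hT, hT, lie_apply, lie_apply]
    simp only [mul_sub, sub_mul, mul_assoc, h3]

/-- `G = {u : (Mt d)ˣ | ∃ X ∈ 𝔫, u = ex c X}` is a subgroup (`exists_bch`); `cl = c`, `lcs i ≤ J ^ i`; `exp_inj` by `lg_ex`;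
`Ad u X = e.symm (u * e X * u⁻¹)` (`Nil.ad_ex`, `conj_ex`); `τ = 1` -/
theorem exists_core0 {d c h : ℕ} {J : Submodule ℝ (Mt d)} (hJ : Nil J c) {n : Submodule ℝ (Mt d)} (hn : n ≤ J)
    (hl : ∀ X ∈ n, ∀ Y ∈ n, lie (Mt d) X Y ∈ n) (e : V h ≃ₗ[ℝ] n) :
    ∃ (co : Core h 0) (j : co.G →* Mt d), Function.Injective j ∧ (∀ X, j (co.exp X) = ex c (e X : Mt d)) ∧
      ∀ X Y, (e (co.br X Y) : Mt d) = lie (Mt d) (e X) (e Y) := by
  let i : V h →ₗ[ℝ] Mt d := n.subtype ∘ₗ e.toLinearMap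
  have hi : Function.Injective i := Subtype.val_injective.comp e.injective
  let b : V h → V h → V h := fun X Y => e.symm ⟨lie (Mt d) (e X) (e Y), hl _ (e X).2 _ (e Y).2⟩
  have hb : ∀ X Y, i (b X Y) = lie (Mt d) (i X) (i Y) := fun X Y => by simp [i, b]
  obtain ⟨co, j, h1, h2, h3⟩ := mald_core hJ i hi (fun X => hn (e X).2)
    (LinearMap.mk₂ ℝ b (fun _ _ _ => hi (by simp only [map_add, hb, LinearMap.add_apply]))
      (fun _ _ _ => hi (by simp only [map_smul, hb, LinearMap.smul_apply]))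
      (fun _ _ _ => hi (by simp only [map_add, hb])) fun _ _ _ => hi (by simp only [map_smul, hb])) hb
  exact ⟨co, j, h1, h2, fun X Y => by rw [h3]; exact hb X Y⟩

theorem male_lg {A : Type*} [Ring A] [Algebra ℝ A] (S : Subring A) (c : ℕ) {g : A} (hg : g ∈ S) :
    (c.factorial : ℝ) • lg c g ∈ S := by
  rw [lg, Finset.smul_sum]
  refine S.sum_mem fun i hi => ?_
  rcases Nat.eq_zero_or_pos i with rfl | h0
  · simp
  obtain ⟨m, hm⟩ := Nat.dvd_factorial h0 (Finset.mem_range.1 hi).le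
  have h1 : (i : ℝ) ≠ 0 := by positivity
  have e : (c.factorial : ℝ) * ((-1 : ℝ) ^ (i + 1) / i) = (((-1) ^ (i + 1) * m : ℤ) : ℝ) := by
    rw [hm]; push_cast; field_simp
  rw [smul_smul, e, Int.cast_smul_eq_zsmul]
  exact S.zsmul_mem (S.pow_mem (S.sub_mem hg S.one_mem) _) _

theorem male_int {d : ℕ} (X : Mt d) :
    IsInt (fun p : Fin d × Fin d => X p.1 p.2) ↔ X ∈ ((Int.castRingHom ℝ).mapMatrix (m := Fin d)).range := by
  constructor
  · intro h
    choose z hz using h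
    exact ⟨Matrix.of fun i j => z (i, j), by ext i j; simpa using (hz (i, j)).symm⟩
  · rintro ⟨Z, rfl⟩ p
    exact ⟨Z p.1 p.2, by simp⟩

/-- `ρ'`, `κ'` = the real matrices, `J` from `exists_nil_of_unip`, `𝔫 = logSpan c ρ' ⊤` (`malcev`); `c! • lg (ρ' x)` is integral, so
`exists_int_basis` applies to `f X = fun p : Fin d × Fin d => X p.1 p.2`; `exists_core0`; `ι x = exp (e.symm (lg (ρ' x)))` is a
homomorphism because `j` is injective (`ex_lg`); `b γ X = e.symm (κ' γ * e X * κ' γ⁻¹)` (`conj_lg`, `conj_ex`);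
`b_N`: both sides agree on the spanning set; `fin`: `finite_isInt` with `D = c!`; `cc`: `e.symm` is bounded on the compact set. -/
theorem exists_pre {Γ : Type} [Group Γ] (N : Subgroup Γ) [N.Normal] (hN : PC (⊤ : Subgroup N)) {d c : ℕ} (L : Lin N d c) :
    ∃ h, Nonempty (Pre N h) := by
  set φ : Matrix (Fin d) (Fin d) ℤ →+* Mt d := (Int.castRingHom ℝ).mapMatrix with hφ
  have φi : Function.Injective φ := fun Z Z' h => by
    ext i j
    simpa [φ] using congrFun (congrFun h i) j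
  set ρ : N →* Mt d := φ.toMonoidHom.comp L.ρ with hρd
  set κ : Γ →* Mt d := φ.toMonoidHom.comp L.κ with hκd
  have hu : Unip ρ ⊤ c := fun l h1 h2 => by
    have := congrArg φ (L.unip l h1 h2)
    rw [map_list_prod, List.map_map, map_zero] at this
    rw [← this]
    congr 2
    funext x
    simp [ρ]
  obtain ⟨J, hJ, hρ⟩ := exists_nil_of_unip ρ hu
  obtain ⟨hl, B, hB, hBn, hcc⟩ := malcev hJ ρ hρ hN
  set n := logSpan c ρ ⊤ with hnd
  have hn : n ≤ J := Submodule.span_le.2 (by rintro _ ⟨x, -, rfl⟩; exact hJ.lg_mem (hρ x))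
  let lx : N → n := fun x => ⟨lg c (ρ x), Submodule.subset_span ⟨x, trivial, rfl⟩⟩
  have hind : ∀ S : Submodule ℝ n, (∀ x, lx x ∈ S) → S = ⊤ := fun S hS => by
    refine eq_top_iff.2 (Submodule.span_span_coe_preimage.ge.trans (Submodule.span_le.2 ?_))
    rintro ⟨_, _⟩ ⟨x, -, rfl⟩
    exact hS x
  have hlx : ∀ x, (c.factorial : ℝ) • (lx x : Mt d) ∈ φ.range := fun x => male_lg _ c ⟨L.ρ x, rfl⟩
  have hc0 : (0 : ℝ) < c.factorial := by positivity
  let f : n →ₗ[ℝ] (Fin d × Fin d → ℝ) :=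
    { toFun := fun X p => (X : Mt d) p.1 p.2
      map_add' := fun _ _ => rfl
      map_smul' := fun _ _ => rfl }
  obtain ⟨h, e, he⟩ := exists_int_basis f (fun X Y h => Subtype.ext (by ext i j; exact congrFun h (i, j)))
    (hind _ fun x => (Submodule.smul_mem_iff _ hc0.ne').1 (Submodule.subset_span ((male_int _).2 (hlx x))))
  have he' : ∀ X, IsInt X ↔ (e X : Mt d) ∈ φ.range := fun X => (he X).trans (male_int _)
  obtain ⟨co, j, ji, hj, hbr⟩ := exists_core0 hJ hn hl e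
  have hjx : ∀ x, j (co.exp (e.symm (lx x))) = ρ x := fun x => by
    rw [hj, e.apply_symm_apply]
    exact ex_lg (hJ.pow_eq_zero (hρ x))
  let ι : N →* co.G := MonoidHom.mk' (fun x => co.exp (e.symm (lx x))) fun x y => ji (by
    rw [map_mul, hjx, hjx, hjx, map_mul])
  have hι : ∀ x, j (ι x) = ρ x := hjx
  have k1 : ∀ γ, κ γ * κ γ⁻¹ = 1 := fun γ => by rw [← map_mul, mul_inv_cancel, map_one]
  have k2 : ∀ γ, κ γ⁻¹ * κ γ = 1 := fun γ => by rw [← map_mul, inv_mul_cancel, map_one]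
  have k3 : ∀ (γ : Γ) (x y : N), (y : Γ) = γ * x * γ⁻¹ → κ γ * ρ x * κ γ⁻¹ = ρ y := fun γ x y hy => by
    have : κ γ * ρ x = ρ y * κ γ := by
      have := congrArg φ (L.conj γ x y hy)
      rwa [map_mul, map_mul] at this
    rw [this, mul_assoc, k1, mul_one]
  have k4 : ∀ γ, ∀ X ∈ n, LinearMap.mulLeftRight ℝ (κ γ, κ γ⁻¹) X ∈ n := fun γ => by
    refine (Submodule.span_le (p := n.comap (LinearMap.mulLeftRight ℝ (κ γ, κ γ⁻¹)))).2 ?_
    rintro _ ⟨x, -, rfl⟩
    change κ γ * lg c (ρ x) * κ γ⁻¹ ∈ n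
    rw [conj_lg (k1 γ) (k2 γ), k3 γ x ⟨_, ‹N.Normal›.conj_mem x x.2 γ⟩ rfl]
    exact (lx _).2
  let b0 : Γ → Module.End ℝ (V h) := fun γ =>
    e.symm.toLinearMap ∘ₗ (LinearMap.mulLeftRight ℝ (κ γ, κ γ⁻¹)).restrict (k4 γ) ∘ₗ e.toLinearMap
  have hb0 : ∀ γ X, (e (b0 γ X) : Mt d) = κ γ * e X * κ γ⁻¹ := fun γ X => by
    simp [b0]
  have ext : ∀ X Y : V h, (e X : Mt d) = e Y → X = Y := fun X Y h => e.injective (Subtype.ext h)
  let b : Γ →* Module.End ℝ (V h) :=
    { toFun := b0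
      map_one' := LinearMap.ext fun X => ext _ _ (by simp [hb0])
      map_mul' := fun γ δ => LinearMap.ext fun X => ext _ _ (by simp [hb0, mul_assoc]) }
  have hb : ∀ γ X, (e (b γ X) : Mt d) = κ γ * e X * κ γ⁻¹ := hb0
  have hbι : ∀ (γ : Γ) (x y : N) (X : V h), (y : Γ) = γ * x * γ⁻¹ → ι x = co.exp X → ι y = co.exp (b γ X) :=
    fun γ x y X hy hx => ji (by rw [hι, hj, hb, ← conj_ex (k1 γ) (k2 γ), ← hj, ← hx, hι, k3 γ x y hy])
  refine ⟨h, ⟨⟨co, ι, fun x y hxy => L.inj (φi ?_), b, fun γ X Y => ext _ _ ?_, hbι, fun x => ?_,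
    ⟨fun a => ⟨1, Subgroup.one_mem _, Subsingleton.elim _ _⟩, fun R => (finite_isInt hc0 R).subset ?_, ?_⟩,
    fun X Y hX hY => ?_, fun γ X hX => ?_⟩⟩⟩
  · exact (hι x).symm.trans ((congrArg j hxy).trans (hι y))
  · rw [hb, hbr, hbr, hb, hb, lie_apply, lie_apply, mul_sub, sub_mul]
    simp only [mul_assoc]
    rw [← mul_assoc (κ γ⁻¹), ← mul_assoc (κ γ⁻¹), k2, one_mul, one_mul]
  · have := hind ((LinearMap.eqLocus (b x) (co.Ad (ι x))).comap e.symm.toLinearMap) fun y => by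
      refine co.exp_inj ?_
      change co.exp (b x (e.symm (lx y))) = co.exp (co.Ad (ι x) (e.symm (lx y)))
      rw [← co.conj, ← hbι x y (x * y * x⁻¹) _ rfl rfl, map_mul, map_mul, map_inv]
      rfl
    refine LinearMap.ext fun X => ?_
    have h1 : e X ∈ (LinearMap.eqLocus (b x) (co.Ad (ι x))).comap e.symm.toLinearMap := this ▸ Submodule.mem_top
    simpa using h1
  · rintro X ⟨⟨x, hx⟩, hX⟩
    refine ⟨(he' _).2 ?_, hX⟩
    rw [← co.exp_inj hx, map_smul, e.apply_symm_apply]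
    exact hlx x
  · obtain ⟨g, hg⟩ := LinearMap.exists_extend e.symm.toLinearMap
    obtain ⟨R, hR⟩ := (hB.image g.continuous_of_finiteDimensional).isBounded.exists_norm_le
    refine ⟨R, fun X => ?_⟩
    obtain ⟨x, -, Y, hY, hX⟩ := hcc _ (e X).2
    refine ⟨ι x, ⟨x, rfl⟩, e.symm ⟨Y, hBn hY⟩, hR _ ⟨Y, hY, LinearMap.congr_fun hg ⟨Y, hBn hY⟩⟩, ji ?_⟩
    rw [map_mul, hι, hj, hj, e.apply_symm_apply, hX]
  · rw [he'] at hX hY ⊢
    rw [hbr, lie_apply]
    exact φ.range.sub_mem (φ.range.mul_mem hX hY) (φ.range.mul_mem hY hX)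
  · rw [he'] at hX ⊢
    rw [hb]
    exact φ.range.mul_mem (φ.range.mul_mem ⟨L.κ γ, rfl⟩ hX) ⟨L.κ γ⁻¹, rfl⟩

end Crest.Agent.R182
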