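import Crest.Agent.R182.A.Cartan
import Crest.Agent.R182.A.Mal

/-! R182/A: the root grading, unimodularity, properness of the heights. -/

set_option autoImplicit false
set_option linter.unusedVariables false
set_option linter.unusedSectionVars false
open Set Filter Topology MeasureTheory Crest.GroupTheory
open scoped Pointwise commutatorElement

noncomputable section
namespace Crest.Agent.R182

/-- `a i = m ^ i`; a nonzero polynomial has finitely many roots -/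
theorem exists_int_regular {k : ℕ} {s : Set (Fin k → ℝ)} (hs : s.Finite) (h0 : (0 : Fin k → ℝ) ∉ s) :
    ∃ a : Fin k → ℤ, ∀ α ∈ s, (α ⬝ᵥ fun i => (a i : ℝ)) ≠ 0 := by
  let p : (Fin k → ℝ) → Polynomial ℝ := fun α => ∑ i : Fin k, Polynomial.monomial i (α i)
  have hp : ∀ α ∈ s, p α ≠ 0 := fun α hα e => h0 (by
    have : α = 0 := funext fun i => by
      have := congrArg (fun q : Polynomial ℝ => q.coeff i) e
      simpa [p, Polynomial.coeff_monomial, Fin.val_inj] using this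
    exact this ▸ hα)
  have hf : (⋃ α ∈ s, (fun m : ℤ => (m : ℝ)) ⁻¹' {x | (p α).IsRoot x}).Finite :=
    hs.biUnion fun α hα => (Polynomial.finite_setOf_isRoot (hp α hα)).preimage Int.cast_injective.injOn
  obtain ⟨m, hm⟩ := hf.exists_notMem
  refine ⟨fun i => m ^ (i : ℕ), fun α hα e => hm (mem_biUnion hα ?_)⟩
  simpa [p, Polynomial.IsRoot, Polynomial.eval_finsetSum, dotProduct] using e

namespace Core
variable {h k : ℕ} (c : Core h k)

/-- `μ` is an eigenvalue of `Ad g` -/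
def Eig (g : c.G) (μ : ℂ) : Prop := ∃ v, v ≠ 0 ∧ c.AdC g v = μ • v

/-- admissible linear forms -/
def Adm (α : Fin k → ℝ) : Prop := α = 0 ∨ ∀ g, ∃ μ, c.Eig g μ ∧ ‖μ‖ = Real.exp (c.ht α g)

/-- regular elements -/
def Reg (t : c.G) : Prop := ∀ α β, c.Adm α → c.Adm β → c.ht α t = c.ht β t → α = β

/-- root spaces -/
def Wt (t : c.G) (α : Fin k → ℝ) : Submodule ℝ (V h) := ⨅ g : c.Cart t, c.D g (c.ht α g)

theorem gradea_flag : ∃ n, Nonempty (Flag c.AdC ⊤ ⊤ n) :=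
  exists_flag c.AdC ⊤ c.τ.ker c.comm_mem_ker c.unipC ⊤ fun _ _ _ _ => Submodule.mem_top

/-- a flag of `⊤` for `H = ⊤` (`exists_flag`, `unipC`), `Flag.of_eigen`, `χ_congr`, `Flag.exists_eigen` -/
theorem Eig.congr {g g' : c.G} {μ : ℂ} (hμ : c.Eig g μ) (he : c.tv g = c.tv g') : c.Eig g' μ := by
  obtain ⟨n, ⟨fl⟩⟩ := c.gradea_flag
  obtain ⟨v, h0, hv⟩ := hμ
  obtain ⟨j, hj, rfl⟩ := fl.of_eigen (Subgroup.mem_top g) Submodule.mem_top h0 hv
  obtain ⟨w, -, hw⟩ := fl.exists_eigen hj (Subgroup.mem_top g')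
  rw [c.χ_congr fl hj (Subgroup.mem_top g) (Subgroup.mem_top g') he]
  exact ⟨w, hw⟩

theorem finite_Eig (g : c.G) : {μ | c.Eig g μ}.Finite := by
  obtain ⟨n, ⟨fl⟩⟩ := c.gradea_flag
  refine ((Set.finite_lt_nat n).image fun j => fl.χ j g).subset ?_
  rintro μ ⟨v, h0, hv⟩
  obtain ⟨j, hj, rfl⟩ := fl.of_eigen (Subgroup.mem_top g) Submodule.mem_top h0 hv
  exact ⟨j, hj, rfl⟩

/-- `α i = log ‖μ‖` for an eigenvalue of an element with `tv g = Pi.single i 1` -/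
theorem finite_Adm : {α | c.Adm α}.Finite := by
  choose g hg using fun i : Fin k => c.tv_surj (Pi.single i 1)
  refine ((Set.finite_singleton 0).union (Set.Finite.pi' fun i =>
    (c.finite_Eig (g i)).image fun μ => Real.log ‖μ‖)).subset ?_
  rintro α (h | h)
  · exact Or.inl h
  · refine Or.inr fun i => ?_
    obtain ⟨μ, h1, h2⟩ := h (g i)
    refine ⟨μ, h1, ?_⟩
    simp only [h2, Real.log_exp, ht, hg, dotProduct]
    rw [Finset.sum_eq_single i (fun j _ hj => by simp [Pi.single_eq_of_ne hj]) (by simp)]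
    simp

theorem exists_reg : ∃ t, c.Reg t := by
  obtain ⟨a, ha⟩ := exists_int_regular
    (s := Set.image2 (· - ·) {α | c.Adm α} {α | c.Adm α} \ {0}) ((c.finite_Adm.image2 _ c.finite_Adm).diff) (by simp)
  obtain ⟨t, rfl⟩ := c.tv_surj a
  refine ⟨t, fun α β hα hβ e => by_contra fun hne => ha (α - β) ⟨⟨α, hα, β, hβ, rfl⟩, sub_ne_zero.2 hne⟩ ?_⟩
  rw [sub_dotProduct, sub_eq_zero]
  exact e

/-- For a flag of `cxS (D t b)` for `Cart t` (`n ≠ 0`), `log ‖χ j ·‖ = ht (α j)` on `Cart t` (`exists_form`, `χ_congr`); `α j` is admissible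
(`Eig.congr`, `Cart_surj`) and `ht (α j) t = b` (`dyn_eigen`), so `α j` does not depend on `j`. -/
theorem exists_alpha {t : c.G} (ht : c.Reg t) {b : ℝ} (hb : c.D t b ≠ ⊥) : ∃ α, c.Adm α ∧ c.ht α t = b ∧
    ∃ (n : ℕ) (fl : Flag c.AdC (c.Cart t) (cxS (c.D t b)) n), ∀ j < n, ∀ g ∈ c.Cart t,
      ‖fl.χ j g‖ = Real.exp (c.ht α g) := by
  obtain ⟨n, ⟨fl⟩⟩ := c.exists_flag_D t (c.Cart_le_Stab t) b
  have hn : 0 < n := Nat.pos_of_ne_zero fun e => hb (by
    subst e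
    exact cxS_eq_bot.1 (fl.top.symm.trans fl.zero))
  have key : ∀ j < n, ∃ α, c.Adm α ∧ c.ht α t = b ∧ ∀ g ∈ c.Cart t, ‖fl.χ j g‖ = Real.exp (c.ht α g) := by
    intro j hj
    have hpos : ∀ g ∈ c.Cart t, 0 < ‖fl.χ j g‖ := fun g hg => norm_pos_iff.2 (fl.χ_ne_zero hj hg)
    obtain ⟨α, hα⟩ := c.exists_form (c.Cart_surj t) (fun g => Real.log ‖fl.χ j g‖)
      (fun g hg g' hg' => by rw [fl.χ_mul hj hg hg', norm_mul, Real.log_mul (hpos g hg).ne' (hpos g' hg').ne'])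
      (fun g hg h0 => by
        rw [c.χ_congr fl hj hg (c.Cart t).one_mem (h0.trans c.tv_one.symm), fl.χ_one hj, norm_one, Real.log_one])
    have h1 : ∀ g ∈ c.Cart t, ‖fl.χ j g‖ = Real.exp (c.ht α g) := fun g hg => by
      rw [← hα g hg, Real.exp_log (hpos g hg)]
    refine ⟨α, Or.inr fun g => ?_, ?_, h1⟩
    · obtain ⟨g', hg', e⟩ := c.Cart_surj t (c.tv g)
      obtain ⟨v, -, hv⟩ := fl.exists_eigen hj hg'
      exact ⟨fl.χ j g', Eig.congr c ⟨v, hv⟩ e, by rw [h1 g' hg', c.ht_congr α e]⟩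
    · obtain ⟨v, hv, h0, hv'⟩ := fl.exists_eigen hj (c.self_mem_Cart t)
      rw [← dyn_cx] at hv
      have := dyn_eigen c.AdC hv h0 hv'
      rw [h1 t (c.self_mem_Cart t)] at this
      exact Real.exp_injective this
  obtain ⟨α, h1, h2, -⟩ := key 0 hn
  refine ⟨α, h1, h2, n, fl, fun j hj => ?_⟩
  obtain ⟨β, h3, h4, h5⟩ := key j hj
  rwa [ht α β h1 h3 (h2.trans h4.symm)]

theorem Wt_le (t : c.G) (α : Fin k → ℝ) : c.Wt t α ≤ c.D t (c.ht α t) := by
  exact iInf_le (fun g : c.Cart t => c.D g (c.ht α g)) ⟨t, c.self_mem_Cart t⟩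

/-- `exists_alpha`, `Flag.le_dyn` -/
theorem exists_Wt_eq {t : c.G} (ht : c.Reg t) {b : ℝ} (hb : c.D t b ≠ ⊥) :
    ∃ α, c.Adm α ∧ c.ht α t = b ∧ c.Wt t α = c.D t b := by
  obtain ⟨α, h1, h2, n, fl, h3⟩ := c.exists_alpha ht hb
  refine ⟨α, h1, h2, le_antisymm (h2 ▸ c.Wt_le t α) (le_iInf fun g X hX => ?_)⟩
  have h4 := Flag.le_dyn _ fl g.2 (fun j hj => h3 j hj g g.2) (emb_mem_cxS.2 hX)
  rwa [AdC, dyn_cx, emb_mem_cxS] at h4

/-- a nonzero vector in `D g (ht α g) ⊓ D g (ht β g)` forces equality (`dynR_indep`, `ht_ext`) -/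
theorem Wt_inj (t : c.G) {α β : Fin k → ℝ} {X : V h} (h0 : X ≠ 0) (hα : X ∈ c.Wt t α) (hβ : X ∈ c.Wt t β) : α = β := by
  refine c.ht_ext (c.Cart_surj t) fun g hg => ?_
  by_contra hne
  exact h0 (Submodule.disjoint_def.1 ((dynR_indep c.Ad g).pairwiseDisjoint hne) X
    ((Submodule.mem_iInf _).1 hα ⟨g, hg⟩) ((Submodule.mem_iInf _).1 hβ ⟨g, hg⟩))

theorem Wt_eq {t : c.G} (ht : c.Reg t) {α : Fin k → ℝ} (hα : c.Wt t α ≠ ⊥) : c.Adm α ∧ c.Wt t α = c.D t (c.ht α t) := by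
  obtain ⟨β, h1, -, h3⟩ := c.exists_Wt_eq ht (ne_bot_of_le_ne_bot hα (c.Wt_le t α))
  obtain ⟨X, hX, h0⟩ := (Submodule.ne_bot_iff _).1 hα
  obtain rfl : α = β := c.Wt_inj t h0 hX (h3 ▸ c.Wt_le t α hX)
  exact ⟨h1, h3⟩

theorem Wt_zero {t : c.G} (ht : c.Reg t) : c.Wt t 0 = c.D t 0 := by
  by_cases hb : c.D t 0 = ⊥
  · have := c.Wt_le t 0
    rw [c.ht_zero, hb] at this
    rw [hb, le_bot_iff.1 this]
  · obtain ⟨β, h1, h2, h3⟩ := c.exists_Wt_eq ht hb
    rwa [ht β 0 h1 (Or.inl rfl) (h2.trans (c.ht_zero t).symm)] at h3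

theorem Wt_indep {t : c.G} (ht : c.Reg t) : iSupIndep (c.Wt t) := by
  intro α
  by_cases hα : c.Wt t α = ⊥
  · rw [hα]
    exact disjoint_bot_left
  refine (dynR_indep c.Ad t (c.ht α t)).mono (c.Wt_le t α) (iSup₂_le fun β hβ => ?_)
  by_cases h0 : c.Wt t β = ⊥
  · rw [h0]
    exact bot_le
  · exact (c.Wt_le t β).trans (le_iSup₂ (f := fun b (_ : b ≠ c.ht α t) => dyn c.Ad t b) (c.ht β t)
      fun e => hβ (ht β α (c.Wt_eq ht h0).1 (c.Wt_eq ht hα).1 e))

theorem gradeb_one {t : c.G} (ht : c.Reg t) (R : ℝ) (α : Fin k → ℝ) : ∃ (B : ℝ) (D : ℕ), 0 ≤ B ∧ ∀ l : List c.G,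
    (∀ g ∈ l, g ∈ c.Cart t ∧ (∀ X, ‖c.Ad g X‖ ≤ R * ‖X‖) ∧ ∀ i, |(c.tv g i : ℝ)| ≤ R) →
      ∀ X ∈ c.Wt t α, ‖c.Ad l.prod X‖ ≤ B * (1 + l.length) ^ D * Real.exp (c.ht α l.prod) * ‖X‖ := by
  by_cases hα : c.Wt t α = ⊥
  · refine ⟨0, 0, le_rfl, fun l _ X hX => ?_⟩
    rw [hα, Submodule.mem_bot] at hX
    simp [hX]
  obtain ⟨β, h1, h2, n, fl, h3⟩ := c.exists_alpha ht (ne_bot_of_le_ne_bot hα (c.Wt_le t α))
  obtain rfl : β = α := ht β α h1 (c.Wt_eq ht hα).1 h2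
  obtain ⟨B, hB, h4⟩ := fl.growth (2 * |R| + |(∑ i, |β i|) * R|)
  refine ⟨B, n, hB, fun l hl X hX => ?_⟩
  have h5 := h4 (c.ht β) l (fun g hg => ⟨(hl g hg).1, fun v => ?_, ?_, fun j hj => h3 j hj g (hl g hg).1⟩)
    (emb X) (emb_mem_cxS.2 (c.Wt_le t β hX))
  · have e : c.AdC l.prod (emb X) = emb (c.Ad l.prod X) := cx_emb _ _
    rwa [e, norm_emb, norm_emb, ← c.ht_list_prod] at h5
  · refine (norm_cx_le (hl g hg).2.1 v).trans (mul_le_mul_of_nonneg_right ?_ (norm_nonneg v))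
    exact le_add_of_nonneg_right (abs_nonneg _)
  · have h6 := c.abs_ht_le β g (hl g hg).2.2
    have h7 := neg_abs_le (c.ht β g)
    have h8 := le_abs_self ((∑ i, |β i|) * R)
    have h9 := abs_nonneg R
    linarith

/-- finitely many `α` have `Wt t α ≠ ⊥` (`finite_Adm`); for each use `exists_alpha`, `Flag.growth` with `a = ht α`, `norm_cx_le`, `abs_ht_le` -/
theorem Wt_growth {t : c.G} (ht : c.Reg t) (R : ℝ) : ∃ (B : ℝ) (D : ℕ), 0 ≤ B ∧ ∀ l : List c.G,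
    (∀ g ∈ l, g ∈ c.Cart t ∧ (∀ X, ‖c.Ad g X‖ ≤ R * ‖X‖) ∧ ∀ i, |(c.tv g i : ℝ)| ≤ R) →
      ∀ α, ∀ X ∈ c.Wt t α, ‖c.Ad l.prod X‖ ≤ B * (1 + l.length) ^ D * Real.exp (c.ht α l.prod) * ‖X‖ := by
  choose B D hB hb using c.gradeb_one ht R
  refine ⟨∑ α ∈ c.finite_Adm.toFinset, B α, ∑ α ∈ c.finite_Adm.toFinset, D α,
    Finset.sum_nonneg fun α _ => hB α, fun l hl α X hX => ?_⟩
  by_cases hα : c.Wt t α = ⊥
  · rw [hα, Submodule.mem_bot] at hX
    simp [hX]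
  have hm : α ∈ c.finite_Adm.toFinset := (Finite.mem_toFinset _).2 (c.Wt_eq ht hα).1
  have h1 : B α ≤ ∑ α ∈ c.finite_Adm.toFinset, B α := Finset.single_le_sum (fun α _ => hB α) hm
  have h2 : D α ≤ ∑ α ∈ c.finite_Adm.toFinset, D α := Finset.single_le_sum (fun α _ => Nat.zero_le _) hm
  have h3 : (1 : ℝ) ≤ 1 + l.length := le_add_of_nonneg_right (Nat.cast_nonneg _)
  have h4 := (hB α).trans h1
  refine (hb α l hl X hX).trans ?_
  gcongr

/-- `C = Cart t`, `W = Wt t` for a regular `t` -/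
theorem exists_grading : ∃ C W, c.Grading C W := by
  obtain ⟨t, ht⟩ := c.exists_reg
  refine ⟨c.Cart t, c.Wt t, c.Wt_indep ht, fun U hU => ?_, fun α β X hX Y hY => ?_, c.Cart_surj t,
    fun X => by rw [c.exp_mem_Cart, c.Wt_zero ht], fun g hg α X hX => ?_, c.Wt_growth ht⟩
  · refine (dynR_span c.Ad t (hU t (c.self_mem_Cart t))).trans (iSup_le fun b => ?_)
    by_cases hb : c.D t b = ⊥
    · exact inf_le_right.trans (hb.le.trans bot_le)
    · obtain ⟨α, -, -, h3⟩ := c.exists_Wt_eq ht hb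
      exact le_iSup_of_le α (inf_le_inf_left _ h3.ge)
  · refine (Submodule.mem_iInf _).2 fun g => ?_
    rw [c.ht_add]
    exact c.D_br g ((Submodule.mem_iInf _).1 hX g) ((Submodule.mem_iInf _).1 hY g)
  · by_cases hα : c.Wt t α = ⊥
    · rw [hα, Submodule.mem_bot] at hX
      rw [hX, map_zero]
      exact Submodule.zero_mem _
    · rw [(c.Wt_eq ht hα).2] at hX ⊢
      exact (c.Cart_le_Stab t hg _ X).1 hX

variable {c} {C Γ : Subgroup c.G} {W : (Fin k → ℝ) → Submodule ℝ (V h)}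

theorem gradec_list {G : Type*} [Group G] (g : G) (j : ℤ) :
    ∃ l : List G, (∀ x ∈ l, x = g ∨ x = g⁻¹) ∧ l.prod = g ^ j ∧ (l.length : ℝ) = |(j : ℝ)| := by
  obtain ⟨n, rfl | rfl⟩ := Int.eq_nat_or_neg j
  · exact ⟨List.replicate n g, fun x hx => Or.inl (List.eq_of_mem_replicate hx), by simp, by simp⟩
  · exact ⟨List.replicate n g⁻¹, fun x hx => Or.inr (List.eq_of_mem_replicate hx), by simp, by simp⟩

/-- `growth` for `List.replicate j g` and `List.replicate j g⁻¹` -/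
theorem Grading.W_le_D (hg : c.Grading C W) {g : c.G} (hC : g ∈ C) (α : Fin k → ℝ) : W α ≤ c.D g (c.ht α g) := by
  intro X hX
  obtain ⟨B₁, h₁, hB₁⟩ := c.exists_norm_Ad g
  obtain ⟨B₂, h₂, hB₂⟩ := c.exists_norm_Ad g⁻¹
  have h₃ : 0 ≤ ∑ i, |(c.tv g i : ℝ)| := Finset.sum_nonneg fun i _ => abs_nonneg _
  have h₄ : ∀ i, |(c.tv g i : ℝ)| ≤ B₁ + B₂ + ∑ i, |(c.tv g i : ℝ)| := fun i => by
    have := Finset.single_le_sum (f := fun i => |(c.tv g i : ℝ)|) (fun i _ => abs_nonneg _) (Finset.mem_univ i)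
    linarith
  obtain ⟨B, D, hB, hl⟩ := hg.growth (B₁ + B₂ + ∑ i, |(c.tv g i : ℝ)|)
  refine ⟨B * ‖X‖, D, by positivity, fun j => ?_⟩
  obtain ⟨l, hl1, hl2, hl3⟩ := gradec_list g j
  have := hl l (fun x hx => ?_) α X hX
  · rw [hl2, hl3, c.ht_zpow, mul_comm (j : ℝ)] at this
    exact this.trans_eq (by ring)
  · rcases hl1 x hx with rfl | rfl
    · exact ⟨hC, fun Y => (hB₁ Y).trans (by gcongr; linarith), h₄⟩
    · refine ⟨C.inv_mem hC, fun Y => (hB₂ Y).trans (by gcongr; linarith), fun i => ?_⟩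
      simpa [c.tv_inv] using h₄ i

theorem Grading.iSup_eq_top (hg : c.Grading C W) : ⨆ α, W α = ⊤ := by
  simpa using hg.graded ⊤ fun _ _ _ _ => trivial

theorem Grading.finite (hg : c.Grading C W) : {α | W α ≠ ⊥}.Finite := by
  exact Submodule.finite_ne_bot_of_iSupIndep hg.indep

/-- WLOG `g ∈ C` (`Eig.congr`).  If `‖μ‖ ≠ exp (ht α g)` whenever `W α ≠ ⊥` then `AdC g - μ` is injective, so surjective, on each `cxS (W α)`
(`W_le_D`, `dyn_cx`, `dyn_eigen`), hence surjective and injective on `⊤ = ⨆ α, cxS (W α)`. -/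
theorem Grading.norm_eig (hg : c.Grading C W) {g : c.G} {μ : ℂ} (hμ : c.Eig g μ) :
    ∃ α, W α ≠ ⊥ ∧ ‖μ‖ = Real.exp (c.ht α g) := by
  obtain ⟨g', hC, he⟩ := hg.C_surj (c.tv g)
  obtain ⟨v, h0, hv⟩ := Eig.congr c hμ he.symm
  by_contra hne
  push Not at hne
  set T : Module.End ℂ (Fin h → ℂ) := c.AdC g' - μ • 1 with hT
  have hTv : ∀ w, T w = c.AdC g' w - μ • w := fun w => by simp [hT]
  have hle : ∀ α, cxS (W α) ≤ LinearMap.range T := fun α => by
    by_cases hα : W α = ⊥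
    · rw [cxS_eq_bot.2 hα]
      exact bot_le
    have hm : ∀ w ∈ cxS (W α), T w ∈ cxS (W α) := fun w hw => by
      rw [hTv]
      exact Submodule.sub_mem _ (cx_mem_cxS (hg.C_W g' hC α) hw) (Submodule.smul_mem _ _ hw)
    have hinj : Function.Injective (T.restrict hm) := by
      refine (injective_iff_map_eq_zero _).2 fun w hw => Subtype.ext ?_
      by_contra hw0
      have h1 : T w = 0 := congrArg Subtype.val hw
      rw [hTv, sub_eq_zero] at h1
      have h2 : (w : Fin h → ℂ) ∈ dyn c.AdC g' (c.ht α g') := by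
        have := cxS_mono (hg.W_le_D hC α) w.2
        rwa [← dyn_cx] at this
      exact hne α hα ((dyn_eigen c.AdC h2 hw0 h1).trans (by rw [c.ht_congr α he]))
    intro w hw
    obtain ⟨u, hu⟩ := LinearMap.injective_iff_surjective.1 hinj ⟨w, hw⟩
    exact ⟨u, congrArg Subtype.val hu⟩
  have htop : LinearMap.range T = ⊤ := by
    refine top_le_iff.1 ?_
    rw [← cxS_top, ← hg.iSup_eq_top, cxS_iSup]
    exact iSup_le hle
  exact h0 ((injective_iff_map_eq_zero _).1 (LinearMap.injective_iff_surjective.2 (LinearMap.range_eq_top.1 htop)) v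
    (by rw [hTv, hv, sub_self]))

theorem gradec_single (j : Fin h) : IsInt (Pi.single j (1 : ℝ) : V h) := fun i =>
  ⟨(Pi.single j 1 : Fin h → ℤ) i, by by_cases e : i = j <;> simp [e]⟩

theorem gradec_span : (⊤ : Submodule ℝ (V h)) ≤ Submodule.span ℝ {X | IsInt X} := by
  rw [← (Pi.basisFun ℝ (Fin h)).span_eq]
  refine Submodule.span_mono ?_
  rintro _ ⟨j, rfl⟩
  simpa using gradec_single j

theorem Arith.F_le_span (ha : c.Arith Γ) (i : ℕ) : c.F i ≤ Submodule.span ℝ {X | X ∈ c.F i ∧ IsInt X} := by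
  induction i with
  | zero => simpa [c.F_zero] using gradec_span
  | succ i ih =>
    rcases i with _ | i
    · simpa [c.F_one] using gradec_span
    · refine (c.F_succ i).le.trans ((Submodule.map₂_le_map₂ gradec_span ih).trans ?_)
      rw [Submodule.map₂_span_span]
      refine Submodule.span_mono ?_
      rintro _ ⟨X, hX, Y, hY, rfl⟩
      exact ⟨c.br_mem_F_succ X hY.1, ha.int_br X Y hX hY.2⟩

theorem gradec_det_int {T : Module.End ℝ (V h)} (hT : ∀ X, IsInt X → IsInt (T X)) : ∃ z : ℤ, LinearMap.det T = z := by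
  choose M hM using fun j => hT _ (gradec_single j)
  refine ⟨(Matrix.of fun i j => M j i).det, ?_⟩
  rw [← LinearMap.det_toMatrix', ← eq_intCast (Int.castRingHom ℝ), RingHom.map_det]
  congr 1
  ext i j
  simpa using hM j i

theorem gradec_det_exp (X : V h) (i : ℕ) (hi : ∀ Y ∈ c.F i, c.Ad (c.exp X) Y ∈ c.F i) :
    LinearMap.det ((c.Ad (c.exp X)).restrict hi) = 1 := by
  have h1 : IsNilpotent (c.Ad (c.exp X) - 1) := ⟨c.cl, by
    simpa using c.unip (List.replicate c.cl (c.exp X)) (by simp) fun x hx => by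
      rw [List.eq_of_mem_replicate hx]
      exact (c.τ_ker _).2 ⟨X, rfl⟩⟩
  have hm : ∀ Y ∈ c.F i, (-(c.Ad (c.exp X) - 1)) Y ∈ c.F i := fun Y hY =>
    Submodule.neg_mem _ (Submodule.sub_mem _ (hi Y hY) hY)
  have h2 := LinearMap.eval_charpoly ((-(c.Ad (c.exp X) - 1)).restrict hm) 1
  rw [(Module.End.isNilpotent.restrict hm h1.neg).charpoly_eq_X_pow_finrank] at h2
  simp only [Polynomial.eval_pow, Polynomial.eval_X, one_pow, map_one] at h2
  rw [h2]
  congr 1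
  ext Y
  simp

/-- `g = exp X * γ`.  For `γ ∈ Γ` the restrictions of `Ad γ` and `Ad γ⁻¹` have integer matrices in a basis from `exists_int_basis`
(`f = (F i).subtype`), so the determinant is a unit of `ℤ`; the restriction of `Ad (exp X) - 1` is nilpotent
(`LinearMap.det_one_add...`/`IsNilpotent.charpoly_eq_X_pow_finrank`, or all complex eigenvalues are `1`). -/
theorem Arith.unimod (ha : c.Arith Γ) : c.Unimod := by
  intro g i hi
  let d : c.G → ℝ := fun g => LinearMap.det ((c.Ad g).restrict fun X (hX : X ∈ c.F i) => c.Ad_F g hX)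
  have hmul : ∀ a b, d (a * b) = d a * d b := fun a b => by
    simp only [d]
    rw [← map_mul]
    congr 1
    ext Y
    simp
  have hone : d 1 = 1 := by
    rw [← c.exp_zero]
    exact gradec_det_exp 0 i _
  have hs : Submodule.span ℝ {X : c.F i | IsInt ((c.F i).subtype X)} = ⊤ := by
    apply Submodule.map_injective_of_injective (c.F i).injective_subtype
    rw [Submodule.map_span, Submodule.map_top, Submodule.range_subtype]
    refine le_antisymm (Submodule.span_le.2 ?_) ((ha.F_le_span i).trans (Submodule.span_mono ?_))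
    · rintro _ ⟨X, -, rfl⟩
      exact X.2
    · rintro X ⟨h1, h2⟩
      exact ⟨⟨X, h1⟩, h2, rfl⟩
  obtain ⟨n, e, he⟩ := exists_int_basis (c.F i).subtype (c.F i).injective_subtype hs
  have hint : ∀ γ ∈ Γ, ∃ z : ℤ, d γ = z := fun γ hγ => by
    simp only [d]
    rw [← LinearMap.det_conj _ e.symm]
    refine gradec_det_int fun X hX => (he _).2 ?_
    simpa using ha.int_Ad γ hγ _ ((he X).1 hX)
  obtain ⟨γ, hγ, ht⟩ := ha.lat.surj (c.tv g)
  obtain ⟨X, rfl⟩ := c.exists_exp_mul ht.symm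
  obtain ⟨z, hz⟩ := hint γ hγ
  obtain ⟨z', hz'⟩ := hint γ⁻¹ (Γ.inv_mem hγ)
  have h1 : z * z' = 1 := by
    have := hmul γ γ⁻¹
    rw [mul_inv_cancel, hone, hz, hz'] at this
    exact_mod_cast this.symm
  change |d (c.exp X * γ)| = 1
  rw [hmul, show d (c.exp X) = 1 from gradec_det_exp X i _, one_mul, hz]
  rcases Int.eq_one_or_neg_one_of_mul_eq_one h1 with rfl | rfl <;> simp

theorem graded_eig {g : c.G} {μ : ℂ} : c.Eig g μ ↔ (c.AdC g).charpoly.IsRoot μ := by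
  rw [← Module.End.hasEigenvalue_iff_isRoot_charpoly]
  constructor
  · rintro ⟨v, h0, hv⟩
    exact Module.End.hasEigenvalue_of_hasEigenvector ⟨Module.End.mem_eigenspace_iff.2 hv, h0⟩
  · intro hμ
    obtain ⟨v, hv, h0⟩ := hμ.exists_hasEigenvector
    exact ⟨v, h0, Module.End.mem_eigenspace_iff.1 hv⟩

theorem graded_poly (ha : c.Arith Γ) {γ : c.G} (hγ : γ ∈ Γ) :
    ∃ p : Polynomial ℤ, p.Monic ∧ p.natDegree ≤ h ∧ (c.AdC γ).charpoly = p.map (algebraMap ℤ ℂ) := by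
  classical
  have hi : ∀ j : Fin h, IsInt (Pi.single j (1 : ℝ) : V h) := fun j i => by
    by_cases hij : i = j
    · subst hij
      exact ⟨1, by simp⟩
    · exact ⟨0, by simp [hij]⟩
  choose z hz using fun j i => ha.int_Ad γ hγ _ (hi j) i
  let M : Matrix (Fin h) (Fin h) ℤ := fun i j => z j i
  refine ⟨M.charpoly, M.charpoly_monic, by simp, ?_⟩
  have e : c.AdC γ = Matrix.toLin' (M.map (algebraMap ℤ ℂ)) := by
    have e1 : c.AdC γ = Matrix.toLin' ((LinearMap.toMatrix' (c.Ad γ)).map Complex.ofRealHom) := rfl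
    rw [e1]
    congr 1
    ext i j
    simp [M, LinearMap.toMatrix'_apply, hz j i]
  rw [e, Matrix.charpoly_toLin', Matrix.charpoly_map]

theorem graded_fin (ha : c.Arith Γ) (B : ℝ) :
    {μ | ∃ γ ∈ Γ, (∀ ν, c.Eig γ ν → ‖ν‖ ≤ B) ∧ c.Eig γ μ}.Finite := by
  classical
  let K : ℕ := Nat.ceil (max B 1 ^ h * h.choose (h / 2))
  refine (Polynomial.bUnion_roots_finite (algebraMap ℤ ℂ) h (Set.finite_Icc (-K : ℤ) K)).subset ?_
  rintro μ ⟨γ, hγ, hB, hμ⟩
  obtain ⟨p, hm, hd, hp⟩ := graded_poly ha hγ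
  have hne : p.map (algebraMap ℤ ℂ) ≠ 0 := (hm.map _).ne_zero
  simp_rw [mem_iUnion]
  refine ⟨p, ⟨hd, fun i => ?_⟩, ?_⟩
  · have h1 := Polynomial.coeff_bdd_of_roots_le (B := B) (algebraMap ℤ ℂ) hm (IsAlgClosed.splits _) hd
      (fun z hz => hB z (graded_eig.2 (hp ▸ (Polynomial.mem_roots hne).1 hz))) i
    rw [mem_Icc, ← abs_le, ← @Int.cast_le ℝ]
    refine (Eq.trans_le ?_ h1).trans (Nat.le_ceil _)
    rw [Polynomial.coeff_map, eq_intCast, Complex.norm_intCast, Int.cast_abs]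
  · rw [Finset.mem_coe, Multiset.mem_toFinset, Polynomial.mem_roots hne, ← hp]
    exact graded_eig.1 hμ

/-- WLOG `g ∈ Γ`.  The characteristic polynomial of `AdC g` is the image of a monic integer polynomial of degree `h` with all roots of norm `≤ B`, so
the eigenvalues lie in a finite set `s` (`Polynomial.coeff_bdd_of_roots_le`, `Polynomial.bUnion_roots_finite`).  For a flag of `⊤` for `H = ⊤` the map
`tv g ↦ (χ j g) j < n ∈ s ^ n` is injective: `Flag.pow_eq_zero`, `cx_injective`, `Arith.unip`. -/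
theorem Arith.finite_tv (ha : c.Arith Γ) (B : ℝ) : {a | ∃ g, c.tv g = a ∧ ∀ μ, c.Eig g μ → ‖μ‖ ≤ B}.Finite := by
  obtain ⟨n, ⟨fl⟩⟩ := exists_flag c.AdC ⊤ c.τ.ker c.comm_mem_ker c.unipC ⊤ fun _ _ _ _ => Submodule.mem_top
  choose γ hγ htv using ha.lat.surj
  refine Set.Finite.of_injOn (f := fun a (j : Fin n) => fl.χ j (γ a))
    (t := Set.pi Set.univ fun _ : Fin n => {μ | ∃ γ ∈ Γ, (∀ ν, c.Eig γ ν → ‖ν‖ ≤ B) ∧ c.Eig γ μ}) ?_ ?_
    (Set.Finite.pi fun _ => graded_fin ha B)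
  · rintro a ⟨g, hg, hB⟩ j -
    obtain ⟨v, -, h0, hv⟩ := fl.exists_eigen j.2 (Subgroup.mem_top (γ a))
    exact ⟨γ a, hγ a, fun ν hν => hB ν (Eig.congr c hν ((htv a).trans hg.symm)), v, h0, hv⟩
  · intro a _ b _ hab
    have h1 : ∀ j < n, fl.χ j (γ a * (γ b)⁻¹) = 1 := fun j hj => by
      have h2 := fl.χ_mul hj (Subgroup.mem_top (γ a * (γ b)⁻¹)) (Subgroup.mem_top (γ b))
      rw [inv_mul_cancel_right, show fl.χ j (γ a) = fl.χ j (γ b) from congrFun hab ⟨j, hj⟩] at h2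
      exact mul_right_cancel₀ (fl.χ_ne_zero hj (Subgroup.mem_top (γ b))) (h2.symm.trans (one_mul _).symm)
    have h3 : (c.Ad (γ a * (γ b)⁻¹) - 1) ^ n = 0 := by
      apply cx_injective
      rw [map_pow, map_sub, map_one, map_zero]
      exact LinearMap.ext fun v => fl.pow_eq_zero (Subgroup.mem_top _) h1 Submodule.mem_top
    have h4 := ha.unip _ (mul_mem (hγ a) (inv_mem (hγ b))) ⟨n, h3⟩
    have h5 : c.tv (γ a * (γ b)⁻¹) = 0 := by
      rw [tv, h4]
      rfl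
    rw [tv_mul, tv_inv, htv, htv] at h5
    exact eq_of_sub_eq_zero (by rw [sub_eq_add_neg, h5])

/-- the integer vectors `a m = fun i => round (m * a i)` have bounded heights; `finite_tv`, `norm_eig` -/
theorem Arith.proper (ha : c.Arith Γ) (hg : c.Grading C W) (a : Fin k → ℝ) (h0 : ∀ α, W α ≠ ⊥ → α ⬝ᵥ a = 0) : a = 0 := by
  obtain ⟨B, hB⟩ := (hg.finite.image fun α => ∑ i, |α i|).bddAbove
  let z : ℕ → Fin k → ℤ := fun m i => round ((m : ℝ) * a i)
  have hz : ∀ m, z m ∈ {a | ∃ g, c.tv g = a ∧ ∀ μ, c.Eig g μ → ‖μ‖ ≤ Real.exp B} := by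
    intro m
    obtain ⟨g, hgz⟩ := c.tv_surj (z m)
    refine ⟨g, hgz, fun μ hμ => ?_⟩
    obtain ⟨α, hα, hn⟩ := hg.norm_eig hμ
    rw [hn, Real.exp_le_exp]
    refine le_trans ?_ (hB ⟨α, hα, rfl⟩)
    have e : c.ht α g = ∑ i, α i * ((z m i : ℝ) - m * a i) := by
      have h1 := h0 α hα
      simp only [dotProduct] at h1
      simp only [ht, dotProduct, hgz, mul_sub, Finset.sum_sub_distrib]
      have h2 : ∑ i, α i * ((m : ℝ) * a i) = m * ∑ i, α i * a i := by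
        rw [Finset.mul_sum]
        exact Finset.sum_congr rfl fun i _ => by ring
      rw [h2, h1, mul_zero, sub_zero]
    rw [e]
    refine Finset.sum_le_sum fun i _ => (le_abs_self _).trans ?_
    rw [abs_mul]
    refine mul_le_of_le_one_right (abs_nonneg _) ?_
    rw [abs_sub_comm]
    exact (abs_sub_round _).trans (by norm_num)
  ext i
  obtain ⟨K, hK⟩ := ((ha.finite_tv (Real.exp B)).image fun b => |(b i : ℝ)|).bddAbove
  by_contra hne
  have hpos : 0 < |a i| := abs_pos.2 hne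
  obtain ⟨m, hm⟩ := exists_nat_gt ((K + 1) / |a i|)
  rw [div_lt_iff₀ hpos] at hm
  have h1 : |(z m i : ℝ)| ≤ K := hK ⟨z m, hz m, rfl⟩
  have h2 : |(m : ℝ) * a i - z m i| ≤ 1 / 2 := abs_sub_round _
  have h3 : |(m : ℝ) * a i| ≤ |(m : ℝ) * a i - z m i| + |(z m i : ℝ)| := by
    simpa using abs_add_le ((m : ℝ) * a i - z m i) (z m i)
  rw [abs_mul, Nat.abs_cast] at h3
  linarith

end Core

end Crest.Agent.R182
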