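import Crest.Agent.R182.A.ApiCo
import Crest.Agent.R182.A.Grade

/-! R182/A: the roots of a model. -/

set_option autoImplicit false
set_option linter.unusedVariables false
set_option linter.unusedSectionVars false
open Set Filter Topology MeasureTheory Crest.GroupTheory
open scoped Pointwise commutatorElement

noncomputable section
namespace Crest.Agent.R182

namespace Model
variable {h k : ℕ} (M : Model h k)

theorem single_mem_W (j : Fin h) (t : ℝ) : Pi.single j t ∈ M.W (M.wt j) := by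
  exact M.mem_W.2 fun l hl => Pi.single_eq_of_ne (M := fun _ => ℝ) (fun e => hl (congrArg M.wt e)) t

theorem single_mem_F (j : Fin h) (t : ℝ) : Pi.single j t ∈ M.F (M.dep j) := by
  exact (M.mem_F _ _).2 fun l hl => Pi.single_eq_of_ne (M := fun _ => ℝ) (fun e => hl.ne (congrArg M.dep e)) t

theorem one_le_dep (j : Fin h) : 1 ≤ M.dep j := by
  exact not_lt.1 fun h1 => one_ne_zero ((M.mem_F 1 fun _ => 1).1 (M.F_one ▸ Submodule.mem_top) j h1)

theorem dep_le (j : Fin h) : M.dep j ≤ M.cl := by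
  refine not_lt.1 fun h1 => ?_
  have h2 := M.F_anti (Nat.succ_le_of_lt h1) (M.single_mem_F j 1)
  rw [M.F_cl, Submodule.mem_bot] at h2
  simpa using congrFun h2 j

theorem W_ne_bot {α : Fin k → ℝ} : M.W α ≠ ⊥ ↔ ∃ j, M.wt j = α := by
  refine ⟨fun h1 => by_contra fun h2 => h1 ((Submodule.eq_bot_iff _).2 fun X hX =>
    funext fun j => M.mem_W.1 hX j fun e => h2 ⟨j, e⟩), ?_⟩
  rintro ⟨j, rfl⟩ h1
  have h2 := M.single_mem_W j 1
  rw [h1, Submodule.mem_bot] at h2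
  simpa using congrFun h2 j

/-- coordinate subspaces given by an additively closed set of weights are subalgebras -/
theorem isSub_of_add {p : (Fin k → ℝ) → Prop} (hp : ∀ α β, p α → p β → p (α + β)) : M.IsSub (⨆ α : {α // p α}, M.W α) := by
  refine fun X hX Y hY => (show Submodule.map₂ M.br _ _ ≤ _ from ?_) (Submodule.apply_mem_map₂ M.br hX hY)
  simp only [Submodule.map₂_iSup_left, Submodule.map₂_iSup_right, iSup_le_iff, Submodule.map₂_le]
  exact fun β α X hX Y hY => Submodule.mem_iSup_of_mem ⟨_, hp _ _ α.2 β.2⟩ (M.gr.br_W _ _ X hX Y hY)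

theorem mem_iSup_W {p : (Fin k → ℝ) → Prop} {X : V h} : X ∈ ⨆ α : {α // p α}, M.W α ↔ ∀ j, ¬ p (M.wt j) → X j = 0 := by
  refine ⟨fun hX j hj => ?_, fun hX => ?_⟩
  · refine (show _ ≤ LinearMap.ker (LinearMap.proj (R := ℝ) (φ := fun _ : Fin h => ℝ) j) from iSup_le fun α Y hY => ?_) hX
    exact M.mem_W.1 hY j fun e => hj (e ▸ α.2)
  · rw [← Finset.univ_sum_single X]
    refine Submodule.sum_mem _ fun j _ => ?_
    by_cases hj : p (M.wt j)
    · exact Submodule.mem_iSup_of_mem ⟨_, hj⟩ (M.single_mem_W j _)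
    · simp [hX j hj]

theorem apiwtb_exp {C β : ℝ} {D : ℕ} (hb : ∀ n : ℕ, 1 ≤ C * (1 + n) ^ D * Real.exp (-β * n)) : β ≤ 0 := by
  by_contra h0
  have h1 := ((tendsto_rpow_mul_exp_neg_mul_atTop_nhds_zero D β (not_le.1 h0)).comp
    (tendsto_atTop_add_const_left _ 1 tendsto_natCast_atTop_atTop)).const_mul (C * Real.exp β)
  rw [mul_zero] at h1
  refine absurd (ge_of_tendsto' h1 fun n => (hb n).trans_eq ?_) (by norm_num)
  rw [Function.comp_apply, Real.rpow_natCast, mul_mul_mul_comm, ← Real.exp_add]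
  congr 2
  ring

theorem apiwtb_exp' {C β : ℝ} {D : ℕ} (hb : ∀ m : ℤ, 1 ≤ C * (1 + |(m : ℝ)|) ^ D * Real.exp (β * m)) : β = 0 := by
  refine le_antisymm (apiwtb_exp (C := C) (D := D) fun n => (hb (-n)).trans_eq ?_)
    (neg_nonpos.1 (apiwtb_exp (C := C) (D := D) fun n => (hb n).trans_eq ?_))
  · rw [Int.cast_neg, Int.cast_natCast, abs_neg, Nat.abs_cast, mul_neg, neg_mul]
  · rw [Int.cast_natCast, Nat.abs_cast, neg_neg]

theorem apiwtb_det {ι : Type} [Fintype ι] [DecidableEq ι] {A : Matrix ι ι ℝ} {c : ι → ℝ} (hc : ∀ i j, |A i j| ≤ c j) :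
    |A.det| ≤ (Fintype.card ι).factorial * ∏ j, c j := by
  rw [Matrix.det_apply, ← Fintype.card_perm, ← nsmul_eq_mul, ← Finset.card_univ, ← Finset.sum_const]
  refine (Finset.abs_sum_le_sum_abs _ _).trans (Finset.sum_le_sum fun σ _ => ?_)
  rw [Units.smul_def, zsmul_eq_mul, abs_mul, ← Int.cast_abs, Int.isUnit_iff_abs_eq.1 (Equiv.Perm.sign σ).isUnit,
    Int.cast_one, one_mul, Finset.abs_prod]
  exact Finset.prod_le_prod (fun _ _ => abs_nonneg _) fun j _ => hc _ j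

theorem apiwtb_unimod (i : ℕ) (g : M.G) {c : Fin h → ℝ} (hc : ∀ j, ‖M.Ad g (Pi.single j 1)‖ ≤ c j) :
    1 ≤ (Fintype.card {j // i ≤ M.dep j}).factorial * ∏ j with i ≤ M.dep j, c j := by
  let e : M.F i ≃ₗ[ℝ] ({j // i ≤ M.dep j} → ℝ) :=
    LinearEquiv.ofBijective (LinearMap.funLeft ℝ ℝ Subtype.val ∘ₗ (M.F i).subtype) ⟨fun X Y hXY => by
      ext j
      by_cases hj : i ≤ M.dep j
      · exact congrFun hXY ⟨j, hj⟩
      · rw [(M.mem_F i _).1 X.2 j (not_le.1 hj), (M.mem_F i _).1 Y.2 j (not_le.1 hj)], fun y =>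
      ⟨⟨fun j => if hj : i ≤ M.dep j then y ⟨j, hj⟩ else 0, (M.mem_F i _).2 fun j hj => dif_neg (not_le.2 hj)⟩,
        funext fun j => dif_pos j.2⟩⟩
  have hb : ∀ j, (Module.Basis.ofEquivFun e j : V h) = Pi.single j.1 1 := fun j => by
    have : e.symm (Pi.single j 1) = ⟨Pi.single j.1 1, M.F_anti j.2 (M.single_mem_F j.1 1)⟩ :=
      e.symm_apply_eq.2 (funext fun l => by
        change _ = (Pi.single j.1 1 : V h) l.1
        simp only [Pi.single_apply, Subtype.ext_iff])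
    rw [Module.Basis.coe_ofEquivFun]
    exact congrArg Subtype.val this
  rw [← M.unimod g i fun X hX => M.Ad_F g hX, ← LinearMap.det_toMatrix (Module.Basis.ofEquivFun e),
    Finset.prod_subtype (p := fun j => i ≤ M.dep j) _ (by simp)]
  refine apiwtb_det fun l j => le_trans ?_ (hc j.1)
  rw [LinearMap.toMatrix_apply, ← hb]
  exact norm_le_pi_norm (M.Ad g (Module.Basis.ofEquivFun e j)) l.1

/-- For `g ∈ C` let `T` be the matrix of `Ad g` restricted to `F i` in the basis `e j`, `i ≤ dep j`.  Column `j` of `T ^ m` is bounded by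
`B (1 + |m|) ^ D exp (m * ht (wt j) g)` (`Grading.W_le_D`), so `1 = |det T| ^ m ≤ B' (1 + |m|) ^ D' exp (m ∑ ht (wt j) g)` for all `m : ℤ`
(`Matrix.det_apply`, `unimod`); `ht_ext`. -/
theorem sum_wt_ge (i : ℕ) : ∑ j with i ≤ M.dep j, M.wt j = 0 := by
  refine M.ht_ext M.gr.C_surj fun g hg => ?_
  choose C D hC hb using fun j => M.grading.W_le_D hg (M.wt j) (M.single_mem_W j 1)
  have key : ∀ m : ℤ, 1 ≤ ((Fintype.card {j // i ≤ M.dep j}).factorial * ∏ j with i ≤ M.dep j, C j) *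
      (1 + |(m : ℝ)|) ^ (∑ j with i ≤ M.dep j, D j) * Real.exp (M.ht (∑ j with i ≤ M.dep j, M.wt j) g * m) := fun m => by
    refine (M.apiwtb_unimod i (g ^ m) fun j => hb j m).trans_eq ?_
    rw [Finset.prod_mul_distrib, Finset.prod_mul_distrib, Finset.prod_pow_eq_pow_sum, ← Real.exp_sum, ← Finset.sum_mul,
      ← mul_assoc, ← mul_assoc]
    simp only [Core.ht, sum_dotProduct]
  rw [M.ht_zero]
  exact apiwtb_exp' key

theorem sum_wt (i : ℕ) : ∑ j with M.dep j = i, M.wt j = 0 := by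
  rw [← M.sum_wt_ge i, ← add_zero (∑ j with M.dep j = i, M.wt j), ← M.sum_wt_ge (i + 1), Finset.sum_filter,
    Finset.sum_filter, Finset.sum_filter, ← Finset.sum_add_distrib]
  refine Finset.sum_congr rfl fun j _ => ?_
  split_ifs <;> first | omega | simp

theorem apiwtb_gen {p : (Fin k → ℝ) → Prop} (hp : ∀ α β, p α → p β → p (α + β)) (h1 : ∀ j, M.dep j = 1 → p (M.wt j))
    (j : Fin h) : p (M.wt j) := by
  have hU := Core.IsSub.eq_top _ (M.isSub_of_add hp) (eq_top_iff.2 fun X _ => by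
    rw [← Finset.univ_sum_single X]
    refine Submodule.sum_mem _ fun l _ => ?_
    rcases (M.one_le_dep l).eq_or_lt with hl | hl
    · exact Submodule.mem_sup_left (Submodule.mem_iSup_of_mem ⟨_, h1 l hl.symm⟩ (M.single_mem_W l _))
    · exact Submodule.mem_sup_right (M.F_anti hl (M.single_mem_F l _)))
  by_contra hj
  simpa using M.mem_iSup_W.1 (hU.ge (Submodule.mem_top (x := Pi.single j 1))) j hj

/-- the subalgebra `⨆ α ⬝ᵥ a = 0, W α` is everything (`IsSub.eq_top`); `proper` -/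
theorem span_wt (a : Fin k → ℝ) (ha : ∀ j, M.dep j = 1 → M.wt j ⬝ᵥ a = 0) : a = 0 := by
  exact M.proper a (M.apiwtb_gen (p := fun α => α ⬝ᵥ a = 0)
    (fun α β h1 h2 => by rw [add_dotProduct, h1, h2, add_zero]) ha)

/-- compactness of the unit sphere; `sum_wt 1`, `span_wt` -/
theorem exists_norm_le_wt : ∃ B : ℝ, 0 < B ∧ ∀ (a : Fin k → ℝ) (H : ℝ), 0 ≤ H →
    (∀ j, M.dep j = 1 → M.wt j ⬝ᵥ a ≤ H) → ‖a‖ ≤ B * H := by
  let L : (Fin k → ℝ) →ₗ[ℝ] ({j // M.dep j = 1} → ℝ) := (Matrix.of fun j : {j // M.dep j = 1} => M.wt j.1).mulVecLin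
  obtain ⟨K, hK, hL⟩ := L.exists_antilipschitzWith (LinearMap.ker_eq_bot'.2 fun a ha =>
    M.span_wt a fun j hj => congrFun ha ⟨j, hj⟩)
  refine ⟨K * (h + 1), by positivity, fun a H hH ha => (hL.le_mul_norm (map_zero L) a).trans ?_⟩
  rw [mul_assoc]
  refine mul_le_mul_of_nonneg_left ((pi_norm_le_iff_of_nonneg (by positivity)).2 fun j => ?_) K.2
  have h1 := Finset.single_le_sum (s := Finset.univ.filter fun l => M.dep l = 1) (f := fun l => H - M.wt l ⬝ᵥ a)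
    (fun l hl => sub_nonneg.2 (ha l (Finset.mem_filter.1 hl).2)) (Finset.mem_filter.2 ⟨Finset.mem_univ j.1, j.2⟩)
  rw [Finset.sum_sub_distrib, ← sum_dotProduct, M.sum_wt 1, zero_dotProduct, sub_zero, Finset.sum_const,
    nsmul_eq_mul] at h1
  have h2 : ((Finset.univ.filter fun l => M.dep l = 1).card : ℝ) ≤ h :=
    Nat.cast_le.2 ((Finset.card_filter_le _ _).trans (Finset.card_fin h).le)
  have h3 := mul_le_mul_of_nonneg_right h2 hH
  have h4 := ha j.1 j.2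
  have h5 : 0 ≤ (h : ℝ) * H := by positivity
  change |M.wt j.1 ⬝ᵥ a| ≤ _
  rw [abs_le]
  constructor <;> linarith

/-- every root is a sum of roots of depth one: the subalgebra `⨆ α ∈ closure, W α` is everything -/
theorem wt_mem_closure (j : Fin h) : M.wt j ∈ AddSubmonoid.closure (M.wt '' {l | M.dep l = 1}) := by
  exact M.apiwtb_gen (p := (· ∈ AddSubmonoid.closure (M.wt '' {l | M.dep l = 1}))) (fun _ _ => add_mem)
    (fun l hl => AddSubmonoid.subset_closure ⟨l, hl, rfl⟩) j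

/-- Affine cocycle of a nonzero root `α = wt j` of depth one.  `U = F 2 ⊔ ⨆ β ≠ α, W β` is `G`-invariant and proper; apply `exists_flag` and
`Flag.exists_dual` to the representation on `(Fin h → ℂ) ⧸ cxS U`; `ℓ X = ℓ' (mk (emb X))`.  The norm of `lam` on `C` follows from
`Grading.W_le_D`. -/
theorem exists_aff {j : Fin h} (h1 : M.dep j = 1) (h0 : M.wt j ≠ 0) : ∃ (ℓ : V h →ₗ[ℝ] ℂ) (lam : M.G →* ℂˣ),
    (∀ X ∈ M.F 2, ℓ X = 0) ∧ (∀ β, β ≠ M.wt j → ∀ X ∈ M.W β, ℓ X = 0) ∧ (∃ X ∈ M.W (M.wt j), ℓ X ≠ 0) ∧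
      (∀ g X, ℓ (M.Ad g X) = lam g * ℓ X) ∧ (∀ g, ‖(lam g : ℂ)‖ = Real.exp (M.ht (M.wt j) g)) ∧
      ∀ g g', ℓ (M.lgm (g * g')) = ℓ (M.lgm g) + lam g * ℓ (M.lgm g') := by
  classical
  set U : Submodule ℝ (V h) := M.F 2 ⊔ ⨆ β : {β // β ≠ M.wt j}, M.W β with hU
  have hF : M.F 2 ≤ U := le_sup_left
  have hW : ∀ β, β ≠ M.wt j → M.W β ≤ U := fun β hβ =>
    le_sup_of_le_right (le_iSup (fun β : {β // β ≠ M.wt j} => M.W β) ⟨β, hβ⟩)
  have hexp : ∀ X Y, M.Ad (M.exp X) Y - Y ∈ M.F 2 := fun X Y =>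
    M.Ad_exp_sub_mem (M.br_mem_F_succ (i := 1) X Submodule.mem_top) (M.isIdl_F 2 X)
  have hinv : ∀ g, ∀ X ∈ U, M.Ad g X ∈ U := fun g X hX => by
    have h2 : U ≤ U.comap (M.Ad (M.sec (M.tv g))) := sup_le (fun Y hY => hF (M.Ad_F _ hY))
      (iSup_le fun β Y hY => hW β β.2 (M.grading.C_W _ (M.sec_mem _) _ _ hY))
    rw [← M.exp_lgm g, map_mul, Module.End.mul_apply]
    simpa using U.add_mem (hF (hexp (M.lgm g) (M.Ad (M.sec (M.tv g)) X))) (h2 hX)
  have hj : Pi.single j 1 ∉ U := fun hj => by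
    have h2 : U ≤ LinearMap.ker (LinearMap.proj (R := ℝ) (φ := fun _ : Fin h => ℝ) j) :=
      sup_le (fun Y hY => (M.mem_F 2 Y).1 hY j (by omega)) (iSup_le fun β Y hY => M.mem_W.1 hY j β.2.symm)
    simpa using h2 hj
  let ρ : M.G →* Module.End ℂ ((Fin h → ℂ) ⧸ cxS U) :=
    Representation.quotient M.AdC (cxS U) fun g v hv => cx_mem_cxS (hinv g) hv
  have hρ : ∀ g v, ρ g ((cxS U).mkQ v) = (cxS U).mkQ (cx h (M.Ad g) v) := fun g v => rfl
  have hu : Unip ρ M.τ.ker 1 := fun l hl hm => by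
    obtain ⟨x, rfl⟩ := List.length_eq_one_iff.1 hl
    obtain ⟨X, rfl⟩ := (M.τ_ker x).1 (hm x (List.mem_singleton_self x))
    refine LinearMap.ext fun w => ?_
    obtain ⟨v, rfl⟩ := (cxS U).mkQ_surjective w
    simp only [List.map_cons, List.map_nil, List.prod_cons, List.prod_nil, mul_one, LinearMap.sub_apply,
      Module.End.one_apply, LinearMap.zero_apply]
    rw [hρ, sub_eq_zero, Submodule.mkQ_apply, Submodule.mkQ_apply, Submodule.Quotient.eq]
    exact ⟨hF (by convert hexp X (reV v) using 1; rw [← reV_cx]; ext l; simp [reV]),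
      hF (by convert hexp X (imV v) using 1; rw [← imV_cx]; ext l; simp [imV])⟩
  obtain ⟨n, ⟨fl⟩⟩ := exists_flag ρ ⊤ M.τ.ker M.comm_mem_ker hu ⊤ fun _ _ _ _ => Submodule.mem_top
  obtain ⟨m, rfl⟩ : ∃ m, n = m + 1 := Nat.exists_eq_succ_of_ne_zero fun e => by
    subst e
    have : (cxS U).mkQ (emb (Pi.single j 1)) ∈ fl.U 0 := fl.top.ge Submodule.mem_top
    rw [fl.zero, Submodule.mem_bot, Submodule.mkQ_apply, Submodule.Quotient.mk_eq_zero, emb_mem_cxS] at this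
    exact hj this
  obtain ⟨ℓ', ⟨w, -, hw⟩, hℓ'⟩ := fl.exists_dual rfl
  let ℓ : V h →ₗ[ℝ] ℂ := (ℓ'.comp (cxS U).mkQ).restrictScalars ℝ ∘ₗ (Algebra.linearMap ℝ ℂ).compLeft (Fin h)
  have hℓ : ∀ X, ℓ X = ℓ' ((cxS U).mkQ (emb X)) := fun X => rfl
  have hz : ∀ X ∈ U, ℓ X = 0 := fun X hX => by
    rw [hℓ, Submodule.mkQ_apply, (Submodule.Quotient.mk_eq_zero _).2 (emb_mem_cxS.2 hX), map_zero]
  let χ : M.G →* ℂ := ⟨⟨fl.χ m, fl.χ_one m.lt_succ_self⟩, fun g g' => fl.χ_mul m.lt_succ_self trivial trivial⟩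
  have hA : ∀ g X, ℓ (M.Ad g X) = χ g * ℓ X := fun g X => by
    rw [hℓ, hℓ, ← cx_emb, ← hρ]
    exact hℓ' g trivial _ trivial
  obtain ⟨X₀, hX₀, hX⟩ : ∃ X ∈ M.W (M.wt j), ℓ X ≠ 0 := by
    by_contra! hc
    have h2 : ∀ X, ℓ X = 0 := fun X => (show ⨆ β, M.W β ≤ LinearMap.ker ℓ from iSup_le fun β Y hY => by
      rcases eq_or_ne β (M.wt j) with rfl | hβ
      exacts [hc Y hY, hz Y (hW β hβ hY)]) (M.grading.iSup_eq_top ▸ Submodule.mem_top)
    obtain ⟨v, rfl⟩ := (cxS U).mkQ_surjective w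
    rw [emb_re_im v, map_add, map_add, map_smul, map_smul, ← hℓ, ← hℓ, h2, h2] at hw
    simp at hw
  have h3 : ∀ X, χ (M.exp X) = 1 := fun X => by
    have := hz _ (hF (hexp X X₀))
    rw [map_sub, hA, sub_eq_zero] at this
    exact (mul_eq_right₀ hX).1 this
  have h4 : ∀ g, χ g = χ (M.sec (M.tv g)) := fun g => by
    conv_lhs => rw [← M.exp_lgm g, map_mul, h3, one_mul]
  have h5 : ∀ X Y, ℓ (M.bch X Y) = ℓ X + ℓ Y := fun X Y => by
    have := hz _ (hF (M.bch_sub_mem_F (i := 1) (j := 1) (X := X) (Y := Y) Submodule.mem_top Submodule.mem_top))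
    rw [map_sub, map_sub] at this
    linear_combination this
  refine ⟨ℓ, χ.toHomUnits, fun X hX => hz X (hF hX), fun β hβ X hX => hz X (hW β hβ hX), ⟨X₀, hX₀, hX⟩, hA,
    fun g => ?_, fun g g' => ?_⟩
  · rw [MonoidHom.coe_toHomUnits, h4, M.ht_congr _ (M.tv_sec (M.tv g)).symm]
    obtain ⟨B, D, hB, hD⟩ := M.grading.W_le_D (M.sec_mem (M.tv g)) _ hX₀
    refine dyn_eigen ((algebraMap ℂ (Module.End ℂ ℂ)).toMonoidHom.comp χ) (t := M.sec (M.tv g)) (v := ℓ X₀)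
      ⟨‖LinearMap.toContinuousLinearMap ℓ‖ * B, D, by positivity, fun i => ?_⟩ hX rfl
    change ‖χ _ * ℓ X₀‖ ≤ _
    rw [← hA, mul_assoc, mul_assoc, ← mul_assoc B]
    exact ((LinearMap.toContinuousLinearMap ℓ).le_opNorm _).trans (mul_le_mul_of_nonneg_left (hD i) (norm_nonneg _))
  · rw [MonoidHom.coe_toHomUnits, M.lgm_mul, h5, h5, hA, ← h4,
      hz _ (hW 0 h0.symm (M.mem_C.1 (M.C.mul_mem (M.sec_mem _) (M.sec_mem _)))), add_zero]

theorem isIdl_E : M.IsIdl M.E := by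
  exact fun X Y hY => Submodule.mem_sInf.2 fun U hU => hU.1 X Y (Submodule.mem_sInf.1 hY U hU)

theorem W_le_E {α : Fin k → ℝ} (hα : α ≠ 0) : M.W α ≤ M.E := by
  exact le_sInf fun U hU => hU.2 α hα

theorem Ad_E (g : M.G) {X : V h} (hX : X ∈ M.E) : M.Ad g X ∈ M.E := by
  obtain ⟨c, hc, e⟩ := M.gr.C_surj (M.tv g)
  obtain ⟨Y, rfl⟩ := M.exists_exp_mul e.symm
  rw [map_mul]
  refine M.isIdl_iff.1 M.isIdl_E Y _ ((show M.E ≤ M.E.comap (M.Ad c) from sInf_le ⟨fun A B hB => ?_, fun α hα A hA => ?_⟩) hX)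
  · rw [Submodule.mem_comap, M.Ad_br]
    exact M.isIdl_E _ _ hB
  · exact M.W_le_E hα (M.gr.C_W c hc α A hA)

theorem E_sup_W : M.E ⊔ M.W 0 = ⊤ := by
  refine top_le_iff.1 (M.grading.iSup_eq_top.ge.trans (iSup_le fun α => ?_))
  by_cases hα : α = 0
  exacts [hα ▸ le_sup_right, (M.W_le_E hα).trans le_sup_left]

/-- the right hand side is an ideal -/
theorem E_eq : M.E = ⨆ α : {α : Fin k → ℝ // α ≠ 0}, M.W α ⊔ Submodule.map₂ M.br (M.W α) (M.W (-α)) := by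
  set R := ⨆ α : {α : Fin k → ℝ // α ≠ 0}, M.W α ⊔ Submodule.map₂ M.br (M.W α) (M.W (-α))
  have h1 : ∀ α, α ≠ 0 → M.W α ⊔ Submodule.map₂ M.br (M.W α) (M.W (-α)) ≤ R := fun α hα =>
    le_iSup (fun α : {α : Fin k → ℝ // α ≠ 0} => M.W α ⊔ Submodule.map₂ M.br (M.W α) (M.W (-α))) ⟨α, hα⟩
  have h2 : ∀ α, α ≠ 0 → ∀ Y ∈ M.W α, ∀ X, M.br X Y ∈ R := fun α hα Y hY X => by
    refine (show ⊤ ≤ R.comap (M.br.flip Y) from M.grading.iSup_eq_top.ge.trans (iSup_le fun β X hX => ?_)) trivial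
    by_cases e : β + α = 0
    · obtain rfl := eq_neg_of_add_eq_zero_right e
      exact h1 β (neg_ne_zero.1 hα) (Submodule.mem_sup_right (Submodule.apply_mem_map₂ M.br hX hY))
    · exact h1 _ e (Submodule.mem_sup_left (M.gr.br_W _ _ X hX Y hY))
  refine le_antisymm (sInf_le ⟨fun X => show R ≤ R.comap (M.br X) from iSup_le fun α => sup_le
    (fun Y hY => h2 α α.2 Y hY X) (Submodule.map₂_le.2 fun A hA B hB => ?_), fun α hα => le_sup_left.trans (h1 α hα)⟩)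
    (iSup_le fun α => sup_le (M.W_le_E α.2) (Submodule.map₂_le.2 fun A hA B hB =>
      M.isIdl_E A B (M.W_le_E (neg_ne_zero.2 α.2) hB)))
  rw [Submodule.mem_comap, M.jacobi, M.br_anti A]
  exact add_mem (h2 _ (neg_ne_zero.2 α.2) B hB _) (neg_mem (h2 α α.2 A hA _))

end Model

end Crest.Agent.R182
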