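import Crest.Agent.R182.A.Log

/-! R182/A: the Baker-Campbell-Hausdorff theorem. -/

set_option autoImplicit false
set_option linter.unusedVariables false
set_option linter.unusedSectionVars false
open Set Filter Topology MeasureTheory Crest.GroupTheory
open scoped Pointwise commutatorElement

noncomputable section
namespace Crest.Agent.R182

variable {A : Type*} [Ring A] [Algebra ℝ A] {c : ℕ} {J : Submodule ℝ A}

theorem bcha_pow (D : A →ₗ[ℝ] A) (hD : ∀ a b, D (a * b) = D a * b + a * D b) (Z : A) (n : ℕ) :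
    D (Z ^ n) = ∑ j ∈ Finset.range n,
      ((-1 : ℝ) ^ j * (n.choose (j + 1) : ℝ)) • (Z ^ (n - 1 - j) * ((lie A Z) ^ j) (D Z)) := by
  induction n with
  | zero =>
    have := hD 1 1
    simp only [mul_one, one_mul] at this
    simpa using this
  | succ n ih =>
    rw [pow_succ, hD, ih, Finset.sum_mul]
    have e : ∀ j ∈ Finset.range n, (((-1 : ℝ) ^ j * (n.choose (j + 1) : ℝ)) •
        (Z ^ (n - 1 - j) * ((lie A Z) ^ j) (D Z))) * Z =
        ((-1 : ℝ) ^ j * (n.choose (j + 1) : ℝ)) • (Z ^ (n - j) * ((lie A Z) ^ j) (D Z)) +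
          ((-1 : ℝ) ^ (j + 1) * (n.choose (j + 1) : ℝ)) • (Z ^ (n - (j + 1)) * ((lie A Z) ^ (j + 1)) (D Z)) := by
      intro j hj
      have hj' := Finset.mem_range.1 hj
      rw [pow_succ' (lie A Z), Module.End.mul_apply, lie_apply, show n - j = n - 1 - j + 1 by omega,
        show n - (j + 1) = n - 1 - j by omega, pow_succ Z, pow_succ (-1 : ℝ), smul_mul_assoc, mul_neg_one, neg_mul,
        neg_smul, ← sub_eq_add_neg, ← smul_sub]
      congr 1
      noncomm_ring
    rw [Finset.sum_congr rfl e, Finset.sum_add_distrib]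
    simp only [Nat.add_sub_cancel, Nat.choose_succ_succ', Nat.cast_add, mul_add, add_smul, Finset.sum_add_distrib]
    rw [Finset.sum_range_succ' (fun j => ((-1 : ℝ) ^ j * (n.choose j : ℝ)) • (Z ^ (n - j) * ((lie A Z) ^ j) (D Z))),
      Finset.sum_range_succ (fun j => ((-1 : ℝ) ^ j * (n.choose (j + 1) : ℝ)) •
        (Z ^ (n - j) * ((lie A Z) ^ j) (D Z)))]
    simp only [Nat.choose_succ_self, Nat.cast_zero, mul_zero, zero_smul, add_zero, pow_zero, Nat.choose_zero_right,
      Nat.cast_one, mul_one, one_smul, Nat.sub_zero, Module.End.one_apply]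
    abel

/-- derivative of the exponential -/
theorem Nil.deriv_ex (hJ : Nil J c) (D : A →ₗ[ℝ] A) (hD : ∀ a b, D (a * b) = D a * b + a * D b) {Z : A} (hZ : Z ∈ J)
    (hDZ : D Z ∈ J) : D (ex c Z) =
      ex c Z * ∑ j ∈ Finset.range c, ((-1 : ℝ) ^ j / (j + 1).factorial) • ((lie A Z) ^ j) (D Z) := by
  rcases c with _ | c
  · simp [ex]
  set T : ℕ → ℕ → A := fun j i => (((i.factorial : ℝ)⁻¹) * ((-1 : ℝ) ^ j / (j + 1).factorial)) •
    (Z ^ i * ((lie A Z) ^ j) (D Z)) with hT
  have hT0 : ∀ j i, c ≤ i + j → T j i = 0 := by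
    intro j i h
    have h1 : Z ^ i * ((lie A Z) ^ j) (D Z) ∈ J ^ (i + (1 + j)) := by
      rw [pow_add]
      exact Submodule.mul_mem_mul (Submodule.pow_mem_pow _ hZ i) (hJ.lie_pow_mem hZ (by rwa [pow_one]) j)
    rw [hJ.pow_eq_bot (by omega), Submodule.mem_bot] at h1
    simp [hT, h1]
  have hL : D (ex (c + 1) Z) = ∑ m ∈ Finset.range c, ∑ j ∈ Finset.range (m + 1), T j (m - j) := by
    rw [ex, map_sum, Finset.sum_range_succ']
    simp only [map_smul, bcha_pow D hD, Finset.range_zero, Finset.sum_empty, smul_zero, add_zero, Finset.smul_sum,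
      smul_smul, Nat.add_sub_cancel]
    refine Finset.sum_congr rfl fun m _ => Finset.sum_congr rfl fun j hj => ?_
    have hj' : j + 1 ≤ m + 1 := Finset.mem_range.1 hj
    rw [hT]
    congr 1
    rw [Nat.cast_choose ℝ hj', show m + 1 - (j + 1) = m - j by omega]
    field_simp
  have hR : ex (c + 1) Z * ∑ j ∈ Finset.range (c + 1), ((-1 : ℝ) ^ j / (j + 1).factorial) • ((lie A Z) ^ j) (D Z) =
      ∑ j ∈ Finset.range (c + 1), ∑ i ∈ Finset.range (c + 1), T j i := by
    rw [ex, Finset.mul_sum]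
    refine Finset.sum_congr rfl fun j _ => ?_
    rw [Finset.sum_mul]
    exact Finset.sum_congr rfl fun i _ => by rw [smul_mul_smul_comm]
  rw [hL, hR, Finset.sum_range_diag_flip, Finset.sum_range_succ (n := c),
    Finset.sum_eq_zero (s := Finset.range (c + 1)) fun i _ => hT0 c i (by omega), add_zero]
  refine Finset.sum_congr rfl fun j _ => Finset.sum_subset (Finset.range_mono (by omega)) fun i _ hi => hT0 j i ?_
  rw [Finset.mem_range] at hi
  omega

/-- polynomials with coefficients in `U` -/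
def coefS (U : Submodule ℝ A) : Submodule ℝ (Polynomial A) :=
  ⨅ m : ℕ, U.comap ((Polynomial.lcoeff A m).restrictScalars ℝ)

theorem mem_coefS {U : Submodule ℝ A} {p : Polynomial A} : p ∈ coefS U ↔ ∀ m, p.coeff m ∈ U := by
  simp [coefS, Submodule.mem_iInf]

theorem bchc_mul {U U' : Submodule ℝ A} {p q : Polynomial A} (hp : p ∈ coefS U) (hq : q ∈ coefS U') :
    p * q ∈ coefS (U * U') := by
  rw [mem_coefS] at hp hq ⊢
  intro m
  rw [Polynomial.coeff_mul]
  exact Submodule.sum_mem _ fun x _ => Submodule.mul_mem_mul (hp _) (hq _)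

theorem bchc_mono {U U' : Submodule ℝ A} (h : U ≤ U') : coefS U ≤ coefS U' :=
  fun p hp => mem_coefS.2 fun m => h (mem_coefS.1 hp m)

theorem bchc_pow (U : Submodule ℝ A) (n : ℕ) : coefS U ^ n ≤ coefS (U ^ n) := by
  induction n with
  | zero =>
    rw [pow_zero, pow_zero, Submodule.one_le, mem_coefS]
    intro m
    rw [Polynomial.coeff_one]
    split_ifs
    · exact Submodule.one_le.1 le_rfl
    · exact zero_mem _
  | succ n ih =>
    rw [pow_succ, pow_succ]
    exact Submodule.mul_le.2 fun p hp q hq => bchc_mul (ih hp) hq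

/-- `coefS U * coefS U' ≤ coefS (U * U')` by `Polynomial.coeff_mul` -/
theorem Nil.poly (hJ : Nil J c) : Nil (coefS J) c := by
  refine ⟨Submodule.mul_le.2 fun p hp q hq => bchc_mono hJ.mul (bchc_mul hp hq), eq_bot_iff.2 fun p hp => ?_⟩
  have := bchc_pow J c hp
  rw [hJ.pow, mem_coefS] at this
  exact Polynomial.ext fun m => by simpa using this m

theorem bchc_lie {U₁ U₂ U₃ : Submodule ℝ A} (h : ∀ x ∈ U₁, ∀ y ∈ U₂, lie A x y ∈ U₃) {p q : Polynomial A}
    (hp : p ∈ coefS U₁) (hq : q ∈ coefS U₂) : lie (Polynomial A) p q ∈ coefS U₃ := by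
  rw [mem_coefS] at hp hq ⊢
  intro m
  rw [lie_apply, Polynomial.coeff_sub, Polynomial.coeff_mul, Polynomial.coeff_mul,
    ← Finset.Nat.sum_antidiagonal_swap (f := fun x => q.coeff x.1 * p.coeff x.2), ← Finset.sum_sub_distrib]
  exact Submodule.sum_mem _ fun x _ => h _ (hp _) _ (hq _)

theorem bchc_ex_zero {c : ℕ} : ex (c + 1) (0 : A) = 1 := by
  simp [ex, Finset.sum_range_succ']

/-- the BCH series stays in a subalgebra -/
theorem Nil.closure (hJ : Nil J c) {U U' : Submodule ℝ A} (hU : U ≤ J) (hle : U' ≤ U)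
    (hb : ∀ X ∈ U, ∀ Y ∈ U, lie A X Y ∈ U') {X Y : A} (hX : X ∈ U) (hY : Y ∈ U) :
    lg c (ex c X * ex c Y) - X - Y ∈ U' := by
  rcases c with _ | c
  · have : Subsingleton A := subsingleton_of_zero_eq_one (by simpa using (hJ.pow_eq_zero (hU hX)).symm)
    rw [Subsingleton.elim (_ - _ - _) 0]
    exact zero_mem _
  have hP := hJ.poly
  have hC : ∀ {V : Submodule ℝ A} {x : A} (n : ℕ), x ∈ V → Polynomial.monomial n x ∈ coefS V := by
    intro V x n hx
    rw [mem_coefS]
    intro m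
    rw [Polynomial.coeff_monomial]
    split_ifs
    exacts [hx, zero_mem _]
  set a : Polynomial A := Polynomial.monomial 0 X with ha
  set b : Polynomial A := Polynomial.monomial 1 Y with hb'
  set y : Polynomial A := Polynomial.monomial 0 Y with hy
  have haJ : a ∈ coefS J := hC 0 (hU hX)
  have hbJ : b ∈ coefS J := hC 1 (hU hY)
  have hg1 : ex (c + 1) a * ex (c + 1) b - 1 ∈ coefS J :=
    hP.mul_sub_one_mem (hP.ex_sub_one_mem haJ) (hP.ex_sub_one_mem hbJ)
  set Z := lg (c + 1) (ex (c + 1) a * ex (c + 1) b) with hZ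
  have hZJ : Z ∈ coefS J := hP.lg_mem hg1
  have hexZ : ex (c + 1) Z = ex (c + 1) a * ex (c + 1) b := ex_lg (hP.pow_eq_zero hg1)
  let D : Polynomial A →ₗ[ℝ] Polynomial A := (Polynomial.derivative (R := A)).restrictScalars ℝ
  have hD : ∀ p q, D (p * q) = D p * q + p * D q := fun p q => Polynomial.derivative_mul
  have hDmem : ∀ {V : Submodule ℝ A} {p : Polynomial A}, p ∈ coefS V → D p ∈ coefS V := by
    intro V p hp
    rw [mem_coefS] at hp ⊢
    intro m
    change (Polynomial.derivative p).coeff m ∈ V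
    rw [Polynomial.coeff_derivative, show p.coeff (m + 1) * ((m : A) + 1) = ((m + 1 : ℕ) : ℝ) • p.coeff (m + 1) by
      rw [Nat.cast_smul_eq_nsmul, nsmul_eq_mul', Nat.cast_succ]]
    exact V.smul_mem _ (hp _)
  have hDa : D a = 0 := by simp [D, ha]
  have hDb : D b = y := by simp [D, hb', hy]
  have hlb : lie (Polynomial A) b y = 0 := by
    simp [lie_apply, hb', hy, Polynomial.monomial_mul_monomial, -Polynomial.monomial_zero_left]
  have h1 : D (ex (c + 1) a) = 0 := by
    rw [hP.deriv_ex D hD haJ (hDmem haJ), hDa]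
    simp
  have h2 : D (ex (c + 1) b) = ex (c + 1) b * y := by
    rw [hP.deriv_ex D hD hbJ (hDmem hbJ), hDb, Finset.sum_range_succ']
    simp [pow_succ, hlb]
  have h3 : D Z - y = -∑ j ∈ Finset.range c,
      ((-1 : ℝ) ^ (j + 1) / (j + 1 + 1).factorial) • ((lie (Polynomial A) Z) ^ (j + 1)) (D Z) := by
    have h4 := hP.deriv_ex D hD hZJ (hDmem hZJ)
    rw [Finset.sum_range_succ'] at h4
    conv_lhs at h4 => rw [hexZ, hD, h1, h2, zero_mul, zero_add, ← mul_assoc, ← hexZ]
    have h5 := congrArg (fun w => ex (c + 1) (-Z) * w) h4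
    simp only [← mul_assoc, ex_neg_mul (hP.pow_eq_zero hZJ), one_mul] at h5
    rw [h5]
    simp
  have hev0 : Z.coeff 0 = X := by
    let e0 : Polynomial A →ₐ[ℝ] A := Polynomial.eval₂AlgHom (AlgHom.id ℝ A) 0 fun _ => Commute.zero_right _
    have he : ∀ p, e0 p = p.coeff 0 := fun p => by
      change Polynomial.eval₂ _ 0 p = _
      rw [Polynomial.eval₂_at_zero]; rfl
    rw [← he, hZ, map_lg, map_mul, map_ex, map_ex, he, he]
    simp only [ha, hb', Polynomial.coeff_monomial, if_true, one_ne_zero, if_false, bchc_ex_zero, mul_one]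
    exact lg_ex (hJ.pow_eq_zero (hU hX))
  have hstep : ∀ i, 1 ≤ i → Z ∈ coefS (U ⊔ J ^ i) → Z - a - b ∈ coefS (U' ⊔ J ^ (i + 1)) := by
    intro i hi hZi
    have hle' : U' ⊔ J ^ (i + 1) ≤ U ⊔ J ^ i := sup_le_sup hle (hJ.pow_anti hi (by omega))
    have hiJ : J ^ i ≤ J := by simpa using hJ.pow_anti le_rfl hi
    have hbr : ∀ x ∈ U ⊔ J ^ i, ∀ y ∈ U ⊔ J ^ i, lie A x y ∈ U' ⊔ J ^ (i + 1) := by
      intro x hx y hy
      obtain ⟨u, hu, j, hj, rfl⟩ := Submodule.mem_sup.1 hx
      obtain ⟨u', hu', j', hj', rfl⟩ := Submodule.mem_sup.1 hy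
      have m1 : ∀ p ∈ J, ∀ q ∈ J ^ i, p * q ∈ J ^ (i + 1) := fun p hp q hq => by
        rw [pow_succ']; exact Submodule.mul_mem_mul hp hq
      have m2 : ∀ p ∈ J, ∀ q ∈ J ^ i, q * p ∈ J ^ (i + 1) := fun p hp q hq => by
        rw [pow_succ]; exact Submodule.mul_mem_mul hq hp
      have e : lie A (u + j) (u' + j') = lie A u u' + ((u * j' - j' * u) + (j * (u' + j') - (u' + j') * j)) := by
        simp only [lie_apply]; noncomm_ring
      have hJ' : u' + j' ∈ J := add_mem (hU hu') (hiJ hj')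
      rw [e]
      exact Submodule.add_mem_sup (hb u hu u' hu') (add_mem (sub_mem (m1 _ (hU hu) _ hj') (m2 _ (hU hu) _ hj'))
        (sub_mem (m2 _ hJ' _ hj) (m1 _ hJ' _ hj)))
    have hit : ∀ j, ((lie (Polynomial A) Z) ^ (j + 1)) (D Z) ∈ coefS (U' ⊔ J ^ (i + 1)) := by
      intro j
      induction j with
      | zero => simpa using bchc_lie hbr hZi (hDmem hZi)
      | succ j ih =>
        rw [pow_succ' (lie (Polynomial A) Z), Module.End.mul_apply]
        exact bchc_lie hbr hZi (bchc_mono hle' ih)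
    have hDW : D (Z - a - b) ∈ coefS (U' ⊔ J ^ (i + 1)) := by
      rw [map_sub, map_sub, hDa, hDb, sub_zero, h3]
      exact neg_mem (Submodule.sum_mem _ fun j _ => Submodule.smul_mem _ _ (hit j))
    rw [mem_coefS] at hDW ⊢
    rintro (_ | m)
    · simp [hev0, ha, hb', Polynomial.coeff_monomial]
    · have h6 := hDW m
      change (Polynomial.derivative (Z - a - b)).coeff m ∈ _ at h6
      rw [Polynomial.coeff_derivative, show (Z - a - b).coeff (m + 1) * ((m : A) + 1) =
        ((m + 1 : ℕ) : ℝ) • (Z - a - b).coeff (m + 1) by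
          rw [Nat.cast_smul_eq_nsmul, nsmul_eq_mul', Nat.cast_succ]] at h6
      exact (Submodule.smul_mem_iff _ (by positivity)).1 h6
  have hall : ∀ i, Z ∈ coefS (U ⊔ J ^ (i + 1)) := by
    intro i
    induction i with
    | zero => exact bchc_mono (by simp) hZJ
    | succ i ih =>
      have := bchc_mono (sup_le_sup_right hle _) (hstep (i + 1) (by omega) ih)
      rw [show Z = Z - a - b + a + b by abel]
      exact add_mem (add_mem this (hC 0 (Submodule.mem_sup_left hX))) (hC 1 (Submodule.mem_sup_left hY))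
  have hfin := hstep (c + 1) (by omega) (hall c)
  rw [hJ.pow_eq_bot (by omega), sup_bot_eq, mem_coefS] at hfin
  let e1 : Polynomial A →ₐ[ℝ] A := Polynomial.eval₂AlgHom (AlgHom.id ℝ A) 1 fun _ => Commute.one_right _
  have he : ∀ n x, e1 (Polynomial.monomial n x) = x := fun n x => by
    change Polynomial.eval₂ _ 1 _ = _
    rw [Polynomial.eval₂_monomial]; simp
  have h7 : e1 (Z - a - b) = lg (c + 1) (ex (c + 1) X * ex (c + 1) Y) - X - Y := by
    rw [map_sub, map_sub, hZ, map_lg, map_mul, map_ex, map_ex, ha, hb', he, he]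
  rw [← h7, (Z - a - b).as_sum_support, map_sum]
  exact Submodule.sum_mem _ fun n _ => by rw [he]; exact hfin n

/-- `br X`, `br Y` preserve the span `U'` of the nested brackets; `{a | ∀ b ∈ U', br a b ∈ U'}` is closed under brackets (Jacobi) -/
theorem nest_closed {n : Type*} [AddCommGroup n] [Module ℝ n] (br : n →ₗ[ℝ] n →ₗ[ℝ] n) (hs : ∀ X, br X X = 0)
    (hj : ∀ X Y Z, br X (br Y Z) = br (br X Y) Z + br Y (br X Z)) (X Y : n) :
    ∀ a ∈ Submodule.span ℝ {X, Y} ⊔ Submodule.span ℝ (range (nest br X Y)),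
      ∀ b ∈ Submodule.span ℝ {X, Y} ⊔ Submodule.span ℝ (range (nest br X Y)),
        br a b ∈ Submodule.span ℝ (range (nest br X Y)) := by
  set U' := Submodule.span ℝ (range (nest br X Y)) with hU'
  have anti : ∀ a b, br a b = -br b a := by
    intro a b
    have := hs (a + b)
    simp only [map_add, LinearMap.add_apply, hs, zero_add, add_zero] at this
    exact eq_neg_of_add_eq_zero_right this
  let N : Submodule ℝ n := ⨅ b : U', U'.comap (br.flip b)
  have hN : ∀ a, a ∈ N ↔ ∀ b ∈ U', br a b ∈ U' := fun a => by simp [N, Submodule.mem_iInf]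
  have hgen : ∀ e : Bool, (if e then X else Y) ∈ N := by
    intro e
    rw [hN]
    refine fun b hb => (Submodule.span_le (p := U'.comap (br (if e then X else Y)))).2 ?_ hb
    rintro _ ⟨w, rfl⟩
    exact Submodule.subset_span ⟨e :: w, rfl⟩
  have hX : X ∈ N := hgen true
  have hY : Y ∈ N := hgen false
  have hbr : ∀ a ∈ N, ∀ a' ∈ N, br a a' ∈ N := by
    intro a ha a' ha'
    rw [hN] at ha ha' ⊢
    intro b hb
    rw [eq_sub_of_add_eq (hj a a' b).symm]
    exact sub_mem (ha _ (ha' _ hb)) (ha' _ (ha _ hb))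
  have hUN : U' ≤ N := by
    refine Submodule.span_le.2 ?_
    rintro _ ⟨w, rfl⟩
    induction w with
    | nil => exact hbr _ hX _ hY
    | cons e w ih => exact hbr _ (hgen e) _ ih
  have hall : Submodule.span ℝ {X, Y} ⊔ U' ≤ N :=
    sup_le (Submodule.span_le.2 (by rintro _ (rfl | rfl); exacts [hX, hY])) hUN
  intro a ha b hb
  obtain ⟨p, hp, u, hu, rfl⟩ := Submodule.mem_sup.1 hb
  rw [map_add]
  refine add_mem ?_ ((hN a).1 (hall ha) u hu)
  obtain ⟨p', hp', u', hu', rfl⟩ := Submodule.mem_sup.1 ha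
  rw [map_add, LinearMap.add_apply, anti u' p]
  refine add_mem ?_ (neg_mem ((hN p).1 (hall (Submodule.mem_sup_left hp)) u' hu'))
  obtain ⟨s, t, rfl⟩ := Submodule.mem_span_pair.1 hp
  obtain ⟨s', t', rfl⟩ := Submodule.mem_span_pair.1 hp'
  have h0 : br X Y ∈ U' := Submodule.subset_span ⟨[], rfl⟩
  simp only [map_add, map_smul, LinearMap.add_apply, LinearMap.smul_apply, hs, smul_zero, zero_add, add_zero, anti Y X]
  exact add_mem (U'.smul_mem _ (U'.smul_mem _ (neg_mem h0))) (U'.smul_mem _ (U'.smul_mem _ h0))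

/-- the free nilpotent algebra on two generators -/
theorem exists_free_nil (c : ℕ) : ∃ (Q : Type) (_ : Ring Q) (_ : Algebra ℝ Q) (J : Submodule ℝ Q) (x y : Q),
    Nil J c ∧ x ∈ J ∧ y ∈ J ∧ ∀ (A : Type) [Ring A] [Algebra ℝ A] (J' : Submodule ℝ A), Nil J' c → ∀ X ∈ J', ∀ Y ∈ J',
      ∃ f : Q →ₐ[ℝ] A, f x = X ∧ f y = Y := by
  let r : FreeAlgebra ℝ Bool → FreeAlgebra ℝ Bool → Prop := fun a b =>
    b = 0 ∧ ∃ l : List Bool, l.length = c ∧ a = (l.map (FreeAlgebra.ι ℝ)).prod
  let π := RingQuot.mkAlgHom ℝ r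
  let wd : List Bool → RingQuot r := fun l => (l.map fun b => π (FreeAlgebra.ι ℝ b)).prod
  have hwd : ∀ l l', wd (l ++ l') = wd l * wd l' := fun l l' => by simp [wd]
  let S : ℕ → Set (RingQuot r) := fun n => wd '' {l | n ≤ l.length}
  have hS : ∀ m n, Submodule.span ℝ (S m) * Submodule.span ℝ (S n) ≤ Submodule.span ℝ (S (m + n)) := by
    intro m n
    rw [Submodule.span_mul_span]
    refine Submodule.span_mono ?_
    rintro _ ⟨_, ⟨l, hl, rfl⟩, _, ⟨l', hl', rfl⟩, rfl⟩
    exact ⟨l ++ l', by simpa using add_le_add hl hl', hwd l l'⟩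
  have hpow : ∀ n, Submodule.span ℝ (S 1) ^ n ≤ Submodule.span ℝ (S n) := by
    intro n
    induction n with
    | zero => rw [pow_zero, Submodule.one_le]; exact Submodule.subset_span ⟨[], by simp, by simp [wd]⟩
    | succ n ih => rw [pow_succ]; exact (mul_le_mul_left ih _).trans (hS n 1)
  refine ⟨RingQuot r, inferInstance, inferInstance, Submodule.span ℝ (S 1), wd [true], wd [false],
    ⟨(hS 1 1).trans (Submodule.span_mono (image_mono fun l (hl : 1 + 1 ≤ l.length) => (by omega : 1 ≤ l.length))),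
      eq_bot_iff.2 ((hpow c).trans (Submodule.span_le.2 ?_))⟩,
    Submodule.subset_span ⟨_, by simp, rfl⟩, Submodule.subset_span ⟨_, by simp, rfl⟩, fun A _ _ J' hJ' X hX Y hY => ?_⟩
  · rintro _ ⟨l, hl, rfl⟩
    have h0 : wd (l.take c) = 0 := by
      have := RingQuot.mkAlgHom_rel ℝ (s := r) ⟨rfl, l.take c, by simpa using hl, rfl⟩
      rw [map_zero, map_list_prod, List.map_map] at this
      exact this
    rw [← List.take_append_drop c l, hwd, h0, zero_mul]
    exact zero_mem _
  · let f : FreeAlgebra ℝ Bool →ₐ[ℝ] A := FreeAlgebra.lift ℝ fun b => if b then X else Y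
    have hf : ∀ ⦃a b⦄, r a b → f a = f b := by
      rintro a b ⟨rfl, l, hl, rfl⟩
      rw [map_zero, map_list_prod]
      refine hJ'.prod_eq_zero (by simp [hl]) fun z hz => ?_
      simp only [List.map_map, List.mem_map, Function.comp] at hz
      obtain ⟨b, -, rfl⟩ := hz
      simp only [f, FreeAlgebra.lift_ι_apply]
      split_ifs
      exacts [hX, hY]
    refine ⟨RingQuot.liftAlgHom ℝ ⟨f, hf⟩, ?_, ?_⟩ <;> simp [wd, π, f]

theorem bchb_map_nest {A B : Type*} [Ring A] [Algebra ℝ A] [Ring B] [Algebra ℝ B] (f : A →ₐ[ℝ] B) (X Y : A)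
    (w : List Bool) : f (nest (lie A) X Y w) = nest (lie B) (f X) (f Y) w := by
  induction w with
  | nil => simp [nest, lie_apply]
  | cons e w ih =>
    change f (lie A _ (nest (lie A) X Y w)) = lie B _ (nest (lie B) (f X) (f Y) w)
    rw [← ih, lie_apply, lie_apply, map_sub, map_mul, map_mul, apply_ite f]

/-- the Baker-Campbell-Hausdorff formula with universal coefficients -/
theorem exists_bch (c : ℕ) : ∃ (ws : Finset (List Bool)) (coef : List Bool → ℝ), ∀ (A : Type) [Ring A] [Algebra ℝ A]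
    (J : Submodule ℝ A), Nil J c → ∀ X ∈ J, ∀ Y ∈ J, ex c X * ex c Y = ex c (bchF (lie A) ws coef X Y) := by
  obtain ⟨Q, _, _, J, x, y, hJ, hx, hy, hu⟩ := exists_free_nil c
  have hlie : ∀ a ∈ J, ∀ b ∈ J, lie Q a b ∈ J := fun a ha b hb =>
    sub_mem (hJ.mul (Submodule.mul_mem_mul ha hb)) (hJ.mul (Submodule.mul_mem_mul hb ha))
  have hU : Submodule.span ℝ {x, y} ⊔ Submodule.span ℝ (range (nest (lie Q) x y)) ≤ J := by
    refine sup_le (Submodule.span_le.2 (by rintro _ (rfl | rfl); exacts [hx, hy])) (Submodule.span_le.2 ?_)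
    rintro _ ⟨w, rfl⟩
    induction w with
    | nil => exact hlie _ hx _ hy
    | cons e w ih => exact hlie _ (by split_ifs; exacts [hx, hy]) _ ih
  have h := hJ.closure hU le_sup_right
    (nest_closed (lie Q) (fun X => by simp [lie_apply]) (fun X Y Z => by simp only [lie_apply]; noncomm_ring) x y)
    (Submodule.mem_sup_left (Submodule.subset_span (Or.inl rfl)))
    (Submodule.mem_sup_left (Submodule.subset_span (Or.inr rfl)))
  obtain ⟨co, hco⟩ := Finsupp.mem_span_range_iff_exists_finsupp.1 h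
  have hQ : ex c x * ex c y = ex c (bchF (lie Q) co.support co x y) := by
    have e : bchF (lie Q) co.support co x y = lg c (ex c x * ex c y) := by
      rw [bchF, show ∑ w ∈ co.support, co w • nest (lie Q) x y w = _ from hco]; abel
    rw [e, ex_lg (hJ.pow_eq_zero (hJ.mul_sub_one_mem (hJ.ex_sub_one_mem hx) (hJ.ex_sub_one_mem hy)))]
  refine ⟨co.support, co, fun A _ _ J' hJ' X hX Y hY => ?_⟩
  obtain ⟨f, rfl, rfl⟩ := hu A J' hJ' X hX Y hY
  rw [← map_ex, ← map_ex, ← map_mul, hQ, map_ex]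
  simp only [bchF, map_add, map_sum, map_smul, bchb_map_nest]

end Crest.Agent.R182
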