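import Crest.Agent.R182.A.Grade

/-! R182/A: adapted bases. -/

set_option autoImplicit false
set_option linter.unusedVariables false
set_option linter.unusedSectionVars false
open Set Filter Topology MeasureTheory Crest.GroupTheory
open scoped Pointwise commutatorElement

noncomputable section
namespace Crest.Agent.R182

namespace Core
variable {h k : ℕ}

/-- isomorphisms of cores -/
structure Iso (c' c : Core h k) (e : V h ≃ₗ[ℝ] V h) (φ : c'.G ≃* c.G) : Prop where
  exp : ∀ X, φ (c'.exp X) = c.exp (e X)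
  br : ∀ X Y, e (c'.br X Y) = c.br (e X) (e Y)
  Ad : ∀ g X, e (c'.Ad g X) = c.Ad (φ g) (e X)
  tv : ∀ g, c'.tv g = c.tv (φ g)

theorem basisa_lcs {br br' : V h →ₗ[ℝ] V h →ₗ[ℝ] V h} (e : V h →ₗ[ℝ] V h) (he : ∀ X Y, e (br' X Y) = br (e X) (e Y)) :
    ∀ i, lcs br' i ≤ (lcs br i).comap e
  | 0 => fun _ _ => trivial
  | 1 => fun _ _ => trivial
  | i + 2 => Submodule.map₂_le.2 fun X _ Y hY => by
    rw [Submodule.mem_comap, he]
    exact Submodule.apply_mem_map₂ _ trivial (basisa_lcs e he (i + 1) hY)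

theorem basisa_bch {br br' : V h →ₗ[ℝ] V h →ₗ[ℝ] V h} (e : V h →ₗ[ℝ] V h) (he : ∀ X Y, e (br' X Y) = br (e X) (e Y))
    (ws : Finset (List Bool)) (coef : List Bool → ℝ) (X Y : V h) :
    e (bchF br' ws coef X Y) = bchF br ws coef (e X) (e Y) := by
  have : ∀ w, e (nest br' X Y w) = nest br (e X) (e Y) w := fun w => by
    induction w with
    | nil => exact he X Y
    | cons b w ih =>
      simp only [nest, List.foldr_cons] at ih ⊢
      rw [he, ih, apply_ite e]
  simp only [bchF, map_add, map_sum, map_smul, this]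

theorem basisa_bound (e : V h →ₗ[ℝ] V h) : ∃ B : ℝ, 0 ≤ B ∧ ∀ X, ‖e X‖ ≤ B * ‖X‖ :=
  ⟨‖LinearMap.toContinuousLinearMap e‖, norm_nonneg _, fun X => (LinearMap.toContinuousLinearMap e).le_opNorm X⟩

/-- same group, `φ = MulEquiv.refl`, `br' = (c.br.compl₁₂ e e).compr₂ e.symm`, `Ad' g = e.symm.conj (Ad g)` -/
theorem exists_iso (c : Core h k) (e : V h ≃ₗ[ℝ] V h) : ∃ (c' : Core h k) (φ : c'.G ≃* c.G), Iso c' c e φ := by
  let br' : V h →ₗ[ℝ] V h →ₗ[ℝ] V h := (c.br.compl₁₂ e.toLinearMap e.toLinearMap).compr₂ e.symm.toLinearMap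
  have hb : ∀ X Y, br' X Y = e.symm (c.br (e X) (e Y)) := fun _ _ => rfl
  have he : ∀ X Y, e.toLinearMap (br' X Y) = c.br (e.toLinearMap X) (e.toLinearMap Y) := fun X Y =>
    e.apply_symm_apply _
  let A : Module.End ℝ (V h) →ₐ[ℝ] Module.End ℝ (V h) := (e.symm.conjAlgEquiv ℝ).toAlgHom
  have hA : ∀ T X, A T X = e.symm (T (e X)) := fun _ _ => rfl
  refine ⟨{ G := c.G, br := br', br_self := fun X => by rw [hb, c.br_self, map_zero]
            jacobi := fun X Y Z => by simp only [hb, e.apply_symm_apply, ← map_add, ← c.jacobi]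
            cl := c.cl
            nilp := eq_bot_iff.2 fun X hX => ?_
            exp := fun X => c.exp (e X)
            exp_inj := c.exp_inj.comp e.injective
            ws := c.ws, coef := c.coef
            exp_mul := fun X Y => (c.exp_mul _ _).trans (congrArg c.exp (basisa_bch e.toLinearMap he _ _ X Y).symm)
            Ad := A.toMonoidHom.comp c.Ad
            conj := fun g X => (c.conj g _).trans (congrArg c.exp (e.apply_symm_apply _).symm)
            Ad_br := fun g X Y => ?_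
            Ad_exp := fun X => (congrArg A (c.Ad_exp _)).trans ((map_ex A _).trans rfl)
            τ := c.τ, τ_surj := c.τ_surj
            τ_ker := fun g => (c.τ_ker g).trans ⟨fun ⟨X, hX⟩ => ⟨e.symm X, by rw [e.apply_symm_apply, hX]⟩,
              fun ⟨X, hX⟩ => ⟨_, hX⟩⟩ }, MulEquiv.refl _,
    fun _ => rfl, he, fun g X => e.apply_symm_apply _, fun _ => rfl⟩
  · have := basisa_lcs e.toLinearMap he _ hX
    rw [c.nilp] at this
    exact e.map_eq_zero_iff.1 this
  · change A (c.Ad g) (br' X Y) = br' (A (c.Ad g) X) (A (c.Ad g) Y)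
    simp only [hA, hb, e.apply_symm_apply, c.Ad_br]

variable {c' c : Core h k} {e : V h ≃ₗ[ℝ] V h} {φ : c'.G ≃* c.G}

theorem Iso.mem_F (hi : Iso c' c e φ) (i : ℕ) (X : V h) : X ∈ c'.F i ↔ e X ∈ c.F i :=
  ⟨fun hX => basisa_lcs e.toLinearMap hi.br i hX, fun hX => by
    have := basisa_lcs (br := c'.br) (br' := c.br) e.symm.toLinearMap (fun X Y => e.injective (by
      simp only [LinearEquiv.coe_coe, hi.br, e.apply_symm_apply])) i hX
    simpa [F] using this⟩

theorem Iso.lat (hi : Iso c' c e φ) {Γ : Subgroup c.G} (hΓ : c.Lat Γ) : c'.Lat (Γ.comap φ.toMonoidHom) := by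
  obtain ⟨B, hB, hB'⟩ := basisa_bound e.toLinearMap
  obtain ⟨B', hB2, hB2'⟩ := basisa_bound e.symm.toLinearMap
  refine ⟨fun a => ?_, fun R => ?_, ?_⟩
  · obtain ⟨γ, hγ, rfl⟩ := hΓ.surj a
    exact ⟨φ.symm γ, by simpa using hγ, by rw [hi.tv, φ.apply_symm_apply]⟩
  · refine ((hΓ.fin (B * R)).preimage e.injective.injOn).subset fun X hX => ⟨?_, ?_⟩
    · rw [← hi.exp]; exact hX.1
    · exact (hB' X).trans (mul_le_mul_of_nonneg_left hX.2 hB)
  · obtain ⟨R, hR⟩ := hΓ.cc
    refine ⟨B' * R, fun X => ?_⟩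
    obtain ⟨γ, hγ, Y, hY, hXY⟩ := hR (e X)
    refine ⟨φ.symm γ, by simpa using hγ, e.symm Y, (hB2' Y).trans (mul_le_mul_of_nonneg_left hY hB2),
      φ.injective ?_⟩
    rw [map_mul, hi.exp, hi.exp, φ.apply_symm_apply, e.apply_symm_apply, hXY]

theorem Iso.unimod (hi : Iso c' c e φ) (hu : c.Unimod) : c'.Unimod := by
  intro g i hg
  have hm : (c'.F i).map e.toLinearMap = c.F i := by
    ext X
    rw [Submodule.mem_map_equiv, hi.mem_F, e.apply_symm_apply]
  rw [← hu (φ g) i (fun X => c.Ad_F _), ← LinearMap.det_conj _ (e.ofSubmodules _ _ hm)]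
  congr 2
  ext X : 2
  exact (hi.Ad g (e.symm X)).trans (by rw [e.apply_symm_apply]; rfl)

theorem Iso.grading (hi : Iso c' c e φ) {C : Subgroup c.G} {W : (Fin k → ℝ) → Submodule ℝ (V h)} (hg : c.Grading C W) :
    c'.Grading (C.comap φ.toMonoidHom) fun α => (W α).comap e.toLinearMap := by
  obtain ⟨B, hB, hB'⟩ := basisa_bound e.toLinearMap
  obtain ⟨B', hB2, hB2'⟩ := basisa_bound e.symm.toLinearMap
  refine ⟨hg.indep.map_orderIso (Submodule.orderIsoMapComap e).symm, fun U hU X hX => ?_,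
    fun α β X hX Y hY => ?_, fun a => ?_, fun X => ?_, fun g hC α X hX => ?_, fun R => ?_⟩
  · have h1 := hg.graded (U.map e.toLinearMap) (by
      rintro g hC _ ⟨Y, hY, rfl⟩
      refine ⟨_, hU (φ.symm g) (by simpa using hC) Y hY, (hi.Ad _ _).trans ?_⟩
      rw [φ.apply_symm_apply]; rfl) ⟨X, hX, rfl⟩
    have h2 : (⨆ α, U.map e.toLinearMap ⊓ W α) ≤ (⨆ α, U ⊓ (W α).comap e.toLinearMap).map e.toLinearMap :=
      iSup_le fun α => by
        rintro _ ⟨⟨Y, hY, rfl⟩, hW⟩
        exact ⟨Y, Submodule.mem_iSup_of_mem α ⟨hY, hW⟩, rfl⟩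
    obtain ⟨Y, hY, hYX⟩ := h2 h1
    exact e.injective hYX ▸ hY
  · change e _ ∈ W _
    rw [hi.br]; exact hg.br_W α β _ hX _ hY
  · obtain ⟨γ, hγ, rfl⟩ := hg.C_surj a
    exact ⟨φ.symm γ, by simpa using hγ, by rw [hi.tv, φ.apply_symm_apply]⟩
  · change φ (c'.exp X) ∈ C ↔ _
    rw [hi.exp, hg.C_exp]; rfl
  · change e _ ∈ W _
    rw [hi.Ad]; exact hg.C_W _ hC α _ hX
  · obtain ⟨A, D, hA, hD⟩ := hg.growth (max R (B * |R| * B'))
    refine ⟨B' * A * B, D, by positivity, fun l hl α X hX => ?_⟩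
    have h1 := hD (l.map φ) (fun g hg' => by
      obtain ⟨g, hg'', rfl⟩ := List.mem_map.1 hg'
      obtain ⟨h1, h2, h3⟩ := hl g hg''
      refine ⟨h1, fun Y => ?_, fun i => hi.tv g ▸ (h3 i).trans (le_max_left _ _)⟩
      rw [← e.apply_symm_apply Y, ← hi.Ad, e.apply_symm_apply]
      refine (hB' _).trans (le_trans ?_ (mul_le_mul_of_nonneg_right (le_max_right _ _) (norm_nonneg _)))
      rw [mul_assoc, mul_assoc]
      exact mul_le_mul_of_nonneg_left ((h2 _).trans (mul_le_mul (le_abs_self R) (hB2' Y) (norm_nonneg _)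
        (abs_nonneg R))) hB) α (e X) hX
    have h2 : c.ht α (φ l.prod) = c'.ht α l.prod := by simp only [ht, hi.tv]
    rw [← map_list_prod, List.length_map, ← hi.Ad, h2] at h1
    have h3 := hB2' (e (c'.Ad l.prod X))
    rw [LinearEquiv.coe_coe, e.symm_apply_apply] at h3
    calc _ ≤ B' * (A * (1 + l.length) ^ D * Real.exp (c'.ht α l.prod) * (B * ‖X‖)) :=
          h3.trans (mul_le_mul_of_nonneg_left (h1.trans (mul_le_mul_of_nonneg_left (hB' X) (by positivity))) hB2)
      _ = _ := by ring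

end Core

theorem mem_coordW {h k : ℕ} {wt : Fin h → Fin k → ℝ} {α : Fin k → ℝ} {X : V h} :
    X ∈ coordW wt α ↔ ∀ j, wt j ≠ α → X j = 0 := by
  simp [coordW, Submodule.mem_iInf]

theorem basisb_flag {U : Type*} [AddCommGroup U] [Module ℝ U] (m : ℕ) (G : ℕ → Submodule ℝ U) (hG : Antitone G)
    (hm : G m = ⊥) : ∃ s : ℕ → Set U, Antitone s ∧ ∀ i, LinearIndepOn ℝ id (s i) ∧ Submodule.span ℝ (s i) = G i := by
  induction m generalizing G with
  | zero =>
    refine ⟨fun _ => ∅, antitone_const, fun i => ⟨linearIndepOn_empty _ _, ?_⟩⟩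
    rw [Submodule.span_empty, eq_comm, eq_bot_iff, ← hm]
    exact hG (Nat.zero_le i)
  | succ m ih =>
    obtain ⟨s, h1, h2⟩ := ih (fun i => G (i + 1)) (fun i j hij => hG (by omega)) hm
    have h3 : s 0 ⊆ G 0 := Submodule.subset_span.trans ((h2 0).2.le.trans (hG (Nat.zero_le _)))
    obtain ⟨b, h4, h5, h6, h7⟩ := exists_linearIndepOn_id_extension (h2 0).1 h3
    refine ⟨fun i => Nat.casesOn i b s, antitone_nat_of_succ_le ?_, ?_⟩
    · rintro (_ | i)
      · exact h5
      · exact h1 i.le_succ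
    · rintro (_ | i)
      · exact ⟨h7, le_antisymm (Submodule.span_le.2 h4) h6⟩
      · exact h2 i

/-- Choose `D (α, i)` with `D (α, i) ⊔ (F (i + 1) ⊓ W α) = F i ⊓ W α` disjointly (`Submodule.exists_isCompl` in `F i ⊓ W α`).  Then
`F i ⊓ W α = ⨆ i' ≥ i, D (α, i')` (downward induction from `m`), the family `D` is independent and spans
(`DirectSum.IsInternal.collectedBasis`); reindex the basis by `Fin h` and use `Basis.mem_span_image`-type lemmas. -/
theorem exists_adapted {h k m : ℕ} (W : (Fin k → ℝ) → Submodule ℝ (V h)) (hW : iSupIndep W) (F : ℕ → Submodule ℝ (V h))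
    (hF : Antitone F) (h0 : F 0 = ⊤) (hm : F m = ⊥) (hg : ∀ i, F i ≤ ⨆ α, F i ⊓ W α) :
    ∃ (e : V h ≃ₗ[ℝ] V h) (dep : Fin h → ℕ) (wt : Fin h → Fin k → ℝ),
      (∀ i X, e X ∈ F i ↔ ∀ j, dep j < i → X j = 0) ∧ ∀ α, (W α).comap e.toLinearMap = coordW wt α := by
  classical
  choose s hs hs' using fun α => basisb_flag m (fun i => F i ⊓ W α) (fun i j hij => inf_le_inf_right _ (hF hij))
    (by rw [hm, bot_inf_eq])
  have hW' : ∀ α, Submodule.span ℝ (range ((↑) : s α 0 → V h)) = W α := fun α => by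
    rw [Subtype.range_coe, (hs' α 0).2, h0, top_inf_eq]
  have hli : LinearIndependent ℝ fun q : Σ α, s α 0 => (q.2 : V h) :=
    linearIndependent_iUnion_finite (f := fun α => ((↑) : s α 0 → V h)) (fun α => (hs' α 0).1) fun α t _ ht => by
      simp only [hW']
      exact hW.disjoint_biSup ht
  have hsp : ⊤ ≤ Submodule.span ℝ (range fun q : Σ α, s α 0 => (q.2 : V h)) := by
    rw [← h0]
    refine (hg 0).trans (iSup_le fun α => inf_le_right.trans ?_)
    rw [← hW']
    exact Submodule.span_mono (by rintro _ ⟨x, rfl⟩; exact ⟨⟨α, x⟩, rfl⟩)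
  let b₀ := Module.Basis.mk hli hsp
  let σ := b₀.indexEquiv (Pi.basisFun ℝ (Fin h))
  let b := b₀.reindex σ
  have hb : ∀ j, b j = (σ.symm j).2 := fun j => by simp [b, b₀]
  have hex : ∀ q : Σ α, s α 0, ∃ i, (q.2 : V h) ∉ s q.1 (i + 1) := fun q => ⟨m, fun hq => by
    have h1 : (q.2 : V h) ∈ F m ⊓ W q.1 := (hs' q.1 m).2 ▸ Submodule.subset_span (hs q.1 m.le_succ hq)
    rw [hm, bot_inf_eq, Submodule.mem_bot] at h1
    exact (hs' q.1 0).1.ne_zero q.2.2 h1⟩
  have hdep : ∀ (q : Σ α, s α 0) i, (q.2 : V h) ∈ s q.1 i ↔ i ≤ Nat.find (hex q) := fun q i => by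
    refine ⟨fun hq => not_lt.1 fun hi => Nat.find_spec (hex q) (hs q.1 hi hq), fun hi => ?_⟩
    rcases i with _ | i
    · exact q.2.2
    · exact not_not.1 (Nat.find_min (hex q) hi)
  have key : ∀ (T : Set (Fin h)) (X : V h),
      b.equivFun.symm X ∈ Submodule.span ℝ (b '' T) ↔ ∀ j, j ∉ T → X j = 0 := fun T X => by
    rw [b.mem_span_image]
    refine forall_congr' fun j => ?_
    rw [Finset.mem_coe, Finsupp.mem_support_iff, ← b.equivFun_apply, LinearEquiv.apply_symm_apply, not_imp_comm]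
  refine ⟨b.equivFun.symm, fun j => Nat.find (hex (σ.symm j)), fun j => (σ.symm j).1, fun i X => ?_, fun α => ?_⟩
  · have : F i = Submodule.span ℝ (b '' {j | i ≤ Nat.find (hex (σ.symm j))}) := by
      refine le_antisymm ((hg i).trans (iSup_le fun α => ?_)) (Submodule.span_le.2 ?_)
      · rw [← (hs' α i).2]
        refine Submodule.span_mono fun x hx => ⟨σ ⟨α, x, hs α (Nat.zero_le i) hx⟩, ?_, ?_⟩
        · rw [mem_ofPred_eq, σ.symm_apply_apply, ← hdep]
          exact hx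
        · rw [hb, σ.symm_apply_apply]
      · rintro _ ⟨j, hj, rfl⟩
        have h1 : b j ∈ F i ⊓ W (σ.symm j).1 :=
          (hs' _ i).2 ▸ Submodule.subset_span (hb j ▸ (hdep _ i).2 hj)
        exact h1.1
    rw [this, key]
    simp only [mem_ofPred_eq, not_le]
  · have : W α = Submodule.span ℝ (b '' {j | (σ.symm j).1 = α}) := by
      refine le_antisymm ?_ (Submodule.span_le.2 ?_)
      · rw [← hW']
        refine Submodule.span_mono ?_
        rintro _ ⟨x, rfl⟩
        exact ⟨σ ⟨α, x⟩, by rw [mem_ofPred_eq, σ.symm_apply_apply], by rw [hb, σ.symm_apply_apply]⟩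
      · rintro _ ⟨j, rfl, rfl⟩
        rw [← hW', hb]
        exact Submodule.subset_span ⟨_, rfl⟩
    ext X
    rw [Submodule.mem_comap, mem_coordW, this]
    exact key _ X

/-- `exists_grading`, `exists_adapted`, `exists_iso`; `proper`: if `W α ≠ ⊥` then `α = wt j` for some `j` -/
theorem exists_model_of_arith {h k : ℕ} (c : Core h k) {Γ : Subgroup c.G} (ha : c.Arith Γ) :
    ∃ M : Model h k, Nonempty (M.Γ ≃* Γ) := by
  obtain ⟨C, W, hg⟩ := c.exists_grading
  obtain ⟨e, dep, wt, hF, hW⟩ := exists_adapted W hg.indep c.F c.F_anti c.F_zero c.F_cl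
    fun i => hg.graded _ fun g _ X => c.Ad_F g
  obtain ⟨c', φ, hi⟩ := c.exists_iso e
  refine ⟨⟨c', C.comap φ.toMonoidHom, Γ.comap φ.toMonoidHom, dep, wt, fun i X => (hi.mem_F i X).trans (hF i X),
    (funext hW : _ = coordW wt) ▸ hi.grading hg, hi.lat ha.lat, hi.unimod ha.unimod,
    fun a h0 => ha.proper hg a fun α hα => ?_⟩, ⟨?_⟩⟩
  · by_contra hc
    refine hα (eq_bot_iff.2 fun X hX => ?_)
    have : e.symm X ∈ coordW wt α := hW α ▸ by simpa using hX
    rw [Submodule.mem_bot, ← e.symm.map_eq_zero_iff]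
    exact funext fun j => mem_coordW.1 this j fun hj => hc (hj ▸ h0 j)
  · exact
      { toFun := fun g => ⟨φ g.1, g.2⟩
        invFun := fun g => ⟨φ.symm g.1, by simp⟩
        left_inv := fun g => Subtype.ext (φ.symm_apply_apply _)
        right_inv := fun g => Subtype.ext (φ.apply_symm_apply _)
        map_mul' := fun g g' => Subtype.ext (φ.map_mul _ _) }

end Crest.Agent.R182
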