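import Crest.Agent.R182.A.Tri

/-! R182/A: complexification and the spaces `dyn`. -/

set_option autoImplicit false
set_option linter.unusedVariables false
set_option linter.unusedSectionVars false
open Set Filter Topology MeasureTheory Crest.GroupTheory
open scoped Pointwise commutatorElement

noncomputable section
namespace Crest.Agent.R182

section cx
variable {h : ℕ}

theorem dyna_cx (T : Module.End ℝ (V h)) : cx h T = Matrix.toLin' ((LinearMap.toMatrix' T).map Complex.ofReal) := rfl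

theorem dyna_apply (T : Module.End ℝ (V h)) (v : Fin h → ℂ) (i : Fin h) :
    cx h T v i = ∑ j, ((LinearMap.toMatrix' T i j : ℝ) : ℂ) * v j := rfl

theorem dyna_real (T : Module.End ℝ (V h)) (X : V h) (i : Fin h) : T X i = ∑ j, LinearMap.toMatrix' T i j * X j :=
  congrFun (LinearMap.toMatrix'_mulVec T X).symm i

theorem reV_cx (T : Module.End ℝ (V h)) (v : Fin h → ℂ) : reV (cx h T v) = T (reV v) := by
  ext i
  simp only [reV, dyna_apply, dyna_real T, Complex.re_sum, Complex.re_ofReal_mul]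

theorem imV_cx (T : Module.End ℝ (V h)) (v : Fin h → ℂ) : imV (cx h T v) = T (imV v) := by
  ext i
  simp only [imV, dyna_apply, dyna_real T, Complex.im_sum, Complex.im_ofReal_mul]

theorem cx_emb (T : Module.End ℝ (V h)) (X : V h) : cx h T (emb X) = emb (T X) := by
  ext i
  simp only [emb, dyna_apply, dyna_real T, Complex.ofReal_sum, Complex.ofReal_mul]

theorem reV_emb (X : V h) : reV (emb X) = X := by
  rfl

theorem imV_emb (X : V h) : imV (emb X) = 0 := by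
  rfl

theorem emb_re_im (v : Fin h → ℂ) : v = emb (reV v) + Complex.I • emb (imV v) := by
  ext i
  simp [emb, reV, imV, mul_comm Complex.I]

theorem norm_emb (X : V h) : ‖emb X‖ = ‖X‖ := by
  simp [Pi.norm_def, emb]

theorem norm_reV_le (v : Fin h → ℂ) : ‖reV v‖ ≤ ‖v‖ := by
  exact (pi_norm_le_iff_of_nonneg (norm_nonneg _)).2 fun i => (Complex.abs_re_le_norm _).trans (norm_le_pi_norm v i)

theorem norm_imV_le (v : Fin h → ℂ) : ‖imV v‖ ≤ ‖v‖ := by
  exact (pi_norm_le_iff_of_nonneg (norm_nonneg _)).2 fun i => (Complex.abs_im_le_norm _).trans (norm_le_pi_norm v i)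

theorem norm_le_re_im (v : Fin h → ℂ) : ‖v‖ ≤ ‖reV v‖ + ‖imV v‖ := by
  conv_lhs => rw [emb_re_im v]
  exact (norm_add_le _ _).trans (by simp [norm_smul, norm_emb])

theorem norm_cx_le {T : Module.End ℝ (V h)} {R : ℝ} (hT : ∀ X, ‖T X‖ ≤ R * ‖X‖) (v : Fin h → ℂ) :
    ‖cx h T v‖ ≤ 2 * |R| * ‖v‖ := by
  have key : ∀ X : V h, ‖X‖ ≤ ‖v‖ → ‖T X‖ ≤ |R| * ‖v‖ := fun X hX =>
    (hT X).trans (mul_le_mul (le_abs_self R) hX (norm_nonneg _) (abs_nonneg _))
  have := norm_le_re_im (cx h T v)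
  rw [reV_cx, imV_cx] at this
  linarith [key _ (norm_reV_le v), key _ (norm_imV_le v)]

theorem cx_injective : Function.Injective (cx h) := by
  intro T T' e
  refine LinearMap.ext fun X => ?_
  rw [← reV_emb X, ← reV_cx, ← reV_cx, e]

theorem mem_cxS {U : Submodule ℝ (V h)} {v : Fin h → ℂ} : v ∈ cxS U ↔ reV v ∈ U ∧ imV v ∈ U := Iff.rfl

theorem emb_mem_cxS {U : Submodule ℝ (V h)} {X : V h} : emb X ∈ cxS U ↔ X ∈ U := by
  simp [mem_cxS, reV_emb, imV_emb]

theorem cxS_mono {U U' : Submodule ℝ (V h)} (hU : U ≤ U') : cxS U ≤ cxS U' := by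
  exact fun v hv => ⟨hU hv.1, hU hv.2⟩

theorem cxS_top : cxS (⊤ : Submodule ℝ (V h)) = ⊤ := by
  exact eq_top_iff.2 fun v _ => ⟨trivial, trivial⟩

theorem cxS_eq_bot {U : Submodule ℝ (V h)} : cxS U = ⊥ ↔ U = ⊥ := by
  simp only [Submodule.eq_bot_iff]
  refine ⟨fun H X hX => ?_, fun H v hv => ?_⟩
  · rw [← reV_emb X, H _ (emb_mem_cxS.2 hX)]
    rfl
  · rw [← norm_le_zero_iff]
    simpa [H _ hv.1, H _ hv.2] using norm_le_re_im v

theorem cxS_iSup {ι : Sort*} (U : ι → Submodule ℝ (V h)) : cxS (⨆ i, U i) = ⨆ i, cxS (U i) := by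
  refine le_antisymm (fun v hv => ?_) (iSup_le fun i => cxS_mono (le_iSup U i))
  have key : ∀ X ∈ ⨆ i, U i, emb X ∈ ⨆ i, cxS (U i) := fun X hX => by
    induction hX using Submodule.iSup_induction' with
    | mem i X hX => exact Submodule.mem_iSup_of_mem i (emb_mem_cxS.2 hX)
    | zero => exact Submodule.zero_mem _
    | add X Y _ _ hX hY =>
      rw [show emb (X + Y) = emb X + emb Y from funext fun j => Complex.ofReal_add _ _]
      exact Submodule.add_mem _ hX hY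
  rw [emb_re_im v]
  exact Submodule.add_mem _ (key _ hv.1) (Submodule.smul_mem _ _ (key _ hv.2))

theorem cx_mem_cxS {T : Module.End ℝ (V h)} {U : Submodule ℝ (V h)} (hT : ∀ X ∈ U, T X ∈ U) {v : Fin h → ℂ}
    (hv : v ∈ cxS U) : cx h T v ∈ cxS U := by
  rw [mem_cxS, reV_cx, imV_cx]
  exact ⟨hT _ hv.1, hT _ hv.2⟩

theorem charpoly_cx (T : Module.End ℝ (V h)) : (cx h T).charpoly = T.charpoly.map (algebraMap ℝ ℂ) := by
  rw [dyna_cx, Matrix.charpoly_toLin', ← T.charpoly_toMatrix (Pi.basisFun ℝ _), ← Matrix.charpoly_map]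
  rfl

end cx

variable {G : Type*} [Group G]

theorem dynb_bound {𝕜 E : Type*} [RCLike 𝕜] [NormedAddCommGroup E] [NormedSpace 𝕜 E] [FiniteDimensional 𝕜 E]
    (T : Module.End 𝕜 E) : ∃ K : ℝ, 0 ≤ K ∧ ∀ v, ‖T v‖ ≤ K * ‖v‖ :=
  ⟨‖LinearMap.toContinuousLinearMap T‖, norm_nonneg _, (LinearMap.toContinuousLinearMap T).le_opNorm⟩

theorem dyn_conj {𝕜 E : Type*} [RCLike 𝕜] [NormedAddCommGroup E] [NormedSpace 𝕜 E] [FiniteDimensional 𝕜 E]
    (ρ : G →* Module.End 𝕜 E) {t : G} {b : ℝ} {v : E} (hv : v ∈ dyn ρ t b) (g : G) : ρ g v ∈ dyn ρ (g * t * g⁻¹) b := by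
  obtain ⟨C, D, hC, h⟩ := hv
  obtain ⟨K, hK, hK'⟩ := dynb_bound (ρ g)
  refine ⟨K * C, D, by positivity, fun j => ?_⟩
  rw [conj_zpow, ← Module.End.mul_apply, ← map_mul, inv_mul_cancel_right, map_mul, Module.End.mul_apply,
    mul_assoc, mul_assoc, ← mul_assoc C]
  exact (hK' _).trans (mul_le_mul_of_nonneg_left (h j) hK)

section
variable {E : Type*} [NormedAddCommGroup E] [NormedSpace ℂ E] [FiniteDimensional ℂ E] (ρ : G →* Module.End ℂ E)

/-- one-sided growth -/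
def DynbP {E : Type*} [NormedAddCommGroup E] [NormedSpace ℂ E] (S : Module.End ℂ E) (β : ℝ) (v : E) : Prop :=
  ∃ (C : ℝ) (D : ℕ), 0 ≤ C ∧ ∀ n : ℕ, ‖(S ^ n) v‖ ≤ C * (1 + (n : ℝ)) ^ D * Real.exp (β * n)

theorem dynb_iff {t : G} {b : ℝ} {v : E} : v ∈ dyn ρ t b ↔ DynbP (ρ t) b v ∧ DynbP (ρ t⁻¹) (-b) v := by
  constructor
  · rintro ⟨C, D, hC, h⟩
    refine ⟨⟨C, D, hC, fun n => ?_⟩, ⟨C, D, hC, fun n => ?_⟩⟩
    · simpa using h n
    · have := h (-n)
      rw [zpow_neg, zpow_natCast, ← inv_pow, map_pow] at this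
      simpa using this
  · rintro ⟨⟨C, D, hC, h⟩, ⟨C', D', hC', h'⟩⟩
    refine ⟨C + C', D + D', by positivity, fun j => ?_⟩
    obtain ⟨n, rfl | rfl⟩ := Int.eq_nat_or_neg j
    · have h1 : (1 : ℝ) ≤ 1 + (n : ℝ) := by simp
      have h2 := pow_le_pow_right₀ h1 (Nat.le_add_right D D')
      rw [zpow_natCast, map_pow, Int.cast_natCast, Nat.abs_cast]
      refine (h n).trans ?_
      gcongr
      linarith
    · have h1 : (1 : ℝ) ≤ 1 + (n : ℝ) := by simp
      have h2 := pow_le_pow_right₀ h1 (Nat.le_add_left D' D)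
      rw [zpow_neg, zpow_natCast, ← inv_pow, map_pow, Int.cast_neg, Int.cast_natCast, abs_neg, Nat.abs_cast, mul_neg,
        ← neg_mul]
      refine (h' n).trans ?_
      gcongr
      linarith

theorem dynb_le {S : Module.End ℂ E} {β : ℝ} {v : E} (h : DynbP S β v) (h0 : v ≠ 0) {μ : ℂ} (hμ : S v = μ • v) :
    ‖μ‖ ≤ Real.exp β := by
  obtain ⟨C, D, hC, h⟩ := h
  by_contra hc
  have hβ := Real.exp_pos β
  have hr : 1 < ‖μ‖ / Real.exp β := (one_lt_div hβ).2 (not_le.1 hc)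
  set r := ‖μ‖ / Real.exp β with hr'
  have hp : ∀ n : ℕ, (S ^ n) v = μ ^ n • v := fun n => by
    induction n with
    | zero => simp
    | succ n ih => rw [pow_succ, Module.End.mul_apply, hμ, map_smul, ih, smul_smul, pow_succ']
  have h1 := ((tendsto_pow_const_div_const_pow_of_one_lt D hr).comp (tendsto_add_atTop_nat 1)).const_mul (C * r)
  rw [mul_zero] at h1
  refine absurd (ge_of_tendsto' h1 fun n => ?_) (not_le.2 (norm_pos_iff.2 h0))
  have h2 := h n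
  rw [hp, norm_smul, norm_pow, mul_comm β, Real.exp_nat_mul, ← div_le_iff₀ (by positivity), mul_div_right_comm,
    ← div_pow, ← hr'] at h2
  have hr0 : 0 < r := by linarith
  simp only [Function.comp, Nat.cast_add, Nat.cast_one]
  rw [← mul_div_assoc, le_div_iff₀ (by positivity), add_comm (n : ℝ)]
  calc ‖v‖ * r ^ (n + 1) = r * (r ^ n * ‖v‖) := by ring
    _ ≤ r * (C * (1 + (n : ℝ)) ^ D) := mul_le_mul_of_nonneg_left h2 hr0.le
    _ = _ := by ring

theorem dynb_step {S : Module.End ℂ E} {β : ℝ} {v w : E} (h : DynbP S β w) {μ : ℂ} (hμ : ‖μ‖ = Real.exp β)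
    (hv : S v = μ • v + w) : DynbP S β v := by
  obtain ⟨C, D, hC, h⟩ := h
  have hβ := Real.exp_pos β
  refine ⟨‖v‖ + C / Real.exp β, D + 1, by positivity, fun n => ?_⟩
  set K := ‖v‖ + C / Real.exp β with hK
  have hK0 : 0 ≤ K := by positivity
  have hCK : C ≤ K * Real.exp β := by
    rw [hK, add_mul, div_mul_cancel₀ _ hβ.ne']
    exact le_add_of_nonneg_left (by positivity)
  induction n with
  | zero => simpa [hK] using div_nonneg hC hβ.le
  | succ n ih =>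
    rw [pow_succ, Module.End.mul_apply, hv, map_add, map_smul]
    refine (norm_add_le _ _).trans ?_
    rw [norm_smul, hμ, Nat.cast_succ, mul_add β, mul_one, Real.exp_add]
    have h1 : (1 + (n : ℝ)) ^ D ≤ (1 + ((n : ℝ) + 1)) ^ D := by gcongr; linarith
    calc _ ≤ Real.exp β * (K * (1 + (n : ℝ)) ^ (D + 1) * Real.exp (β * n)) +
          K * Real.exp β * (1 + (n : ℝ)) ^ D * Real.exp (β * n) :=
          add_le_add (mul_le_mul_of_nonneg_left ih hβ.le) ((h n).trans (by gcongr))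
      _ = K * ((1 + (n : ℝ)) ^ D * (1 + ((n : ℝ) + 1))) * (Real.exp (β * n) * Real.exp β) := by ring
      _ ≤ _ := by rw [pow_succ]; gcongr

theorem dynb_inv {t : G} {b : ℝ} {v : E} (hv : v ∈ dyn ρ t b) : ρ t v ∈ dyn ρ t b ∧ ρ t⁻¹ v ∈ dyn ρ t b :=
  ⟨by simpa using dyn_conj ρ hv t, by simpa using dyn_conj ρ hv t⁻¹⟩

/-- `(‖μ‖ / exp b) ^ j ≤ C (1 + |j|) ^ D` for all `j : ℤ` -/
theorem dyn_eigen {t : G} {b : ℝ} {v : E} (hv : v ∈ dyn ρ t b) (h0 : v ≠ 0) {μ : ℂ} (hμ : ρ t v = μ • v) :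
    ‖μ‖ = Real.exp b := by
  obtain ⟨h1, h2⟩ := (dynb_iff ρ).1 hv
  have hinv : ∀ w, ρ t⁻¹ (ρ t w) = w := fun w => by
    rw [← Module.End.mul_apply, ← map_mul, inv_mul_cancel, map_one, Module.End.one_apply]
  have hμ0 : μ ≠ 0 := by
    rintro rfl
    rw [zero_smul] at hμ
    exact h0 (by rw [← hinv v, hμ, map_zero])
  have hμ' : ρ t⁻¹ v = μ⁻¹ • v := by
    have := hinv v
    rw [hμ, map_smul] at this
    rw [eq_inv_smul_iff₀ hμ0, this]
  refine le_antisymm (dynb_le h1 h0 hμ) ?_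
  have := dynb_le h2 h0 hμ'
  rwa [norm_inv, Real.exp_neg, inv_le_inv₀ (norm_pos_iff.2 hμ0) (Real.exp_pos b)] at this

/-- `Flag.growth` for the lists `List.replicate j t` and `List.replicate j t⁻¹` -/
theorem Flag.le_dyn {H : Subgroup G} {U₀ : Submodule ℂ E} {n : ℕ} (fl : Flag ρ H U₀ n) {t : G} (ht : t ∈ H) {b : ℝ}
    (hb : ∀ j < n, ‖fl.χ j t‖ = Real.exp b) : U₀ ≤ dyn ρ t b := by
  intro v hv
  obtain ⟨K, hK, hK'⟩ := dynb_bound (ρ t)
  obtain ⟨K', hK₁, hK₁'⟩ := dynb_bound (ρ t⁻¹)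
  obtain ⟨B, hB, h⟩ := fl.growth (K + K' + |b|)
  have key : ∀ (g : G) (β : ℝ), g ∈ H → (∀ v, ‖ρ g v‖ ≤ (K + K' + |b|) * ‖v‖) → -(K + K' + |b|) ≤ β →
      (∀ j < n, ‖fl.χ j g‖ = Real.exp β) → DynbP (ρ g) β v := by
    intro g β h1 h2 h3 h4
    refine ⟨B * ‖v‖, n, by positivity, fun m => ?_⟩
    have := h (fun _ => β) (List.replicate m g) (fun g' hg' => by
      rw [List.eq_of_mem_replicate hg']
      exact ⟨h1, h2, h3, h4⟩) v hv
    rw [List.prod_replicate, map_pow, List.length_replicate, List.map_replicate, List.sum_replicate, nsmul_eq_mul,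
      mul_comm (m : ℝ)] at this
    exact this.trans_eq (by ring)
  have h1 := le_abs_self b
  have h2 := neg_abs_le b
  refine (dynb_iff ρ).2 ⟨key t b ht (fun w => (hK' w).trans (by gcongr; linarith)) (by linarith) hb,
    key t⁻¹ (-b) (H.inv_mem ht) (fun w => (hK₁' w).trans (by gcongr; linarith)) (by linarith) fun j hj => ?_⟩
  have := congrArg norm (fl.χ_mul hj ht (H.inv_mem ht))
  rw [mul_inv_cancel, fl.χ_one hj, norm_one, norm_mul, hb j hj] at this
  rw [Real.exp_neg]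
  exact eq_inv_of_mul_eq_one_right this.symm

theorem dynb_gen_norm {t : G} {b : ℝ} {μ : ℂ} (m : ℕ) : ∀ {v : E}, v ∈ dyn ρ t b → v ≠ 0 →
    ((ρ t - μ • 1) ^ m) v = 0 → ‖μ‖ = Real.exp b := by
  induction m with
  | zero => exact fun _ h0 h => absurd h h0
  | succ m ih =>
    intro v hv h0 h
    by_cases hw : ρ t v - μ • v = 0
    · exact dyn_eigen ρ hv h0 (sub_eq_zero.1 hw)
    · exact ih (sub_mem (dynb_inv ρ hv).1 (Submodule.smul_mem _ _ hv)) hw h

theorem dynb_gen_mem {t : G} {μ : ℂ} (hμ : μ ≠ 0) (m : ℕ) : ∀ {v : E}, ((ρ t - μ • 1) ^ m) v = 0 →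
    v ∈ dyn ρ t (Real.log ‖μ‖) := by
  induction m with
  | zero =>
    intro v h
    rw [show v = 0 from h]
    exact zero_mem _
  | succ m ih =>
    intro v h
    have hw : ρ t v - μ • v ∈ dyn ρ t (Real.log ‖μ‖) := ih h
    have e := (Real.exp_log (norm_pos_iff.2 hμ)).symm
    refine (dynb_iff ρ).2 ⟨dynb_step ((dynb_iff ρ).1 hw).1 e (add_sub_cancel _ _).symm,
      dynb_step ((dynb_iff ρ).1 (Submodule.smul_mem _ (-μ⁻¹) (dynb_inv ρ hw).2)).2 (μ := μ⁻¹)
        (by rw [norm_inv, Real.exp_neg, ← e]) ?_⟩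
    rw [map_sub, map_smul, ← Module.End.mul_apply, ← map_mul, inv_mul_cancel, map_one, Module.End.one_apply, smul_sub,
      smul_smul, neg_mul, inv_mul_cancel₀ hμ]
    simp

/-- A nonzero `ρ t`-invariant space `dyn b ⊓ ⨆ b' ≠ b, dyn b'` contains an eigenvector, `‖μ‖ = exp b`; `ρ t - μ` is injective, hence surjective, on each
`dyn b'`, so surjective, hence injective, on their sum. -/
theorem dynC_indep (t : G) : iSupIndep (dyn ρ t) := by
  have key : ∀ b, dyn ρ t b ≤ ⨆ μ ∈ {μ : ℂ | ‖μ‖ = Real.exp b}, (ρ t).maxGenEigenspace μ := by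
    intro b
    rw [Submodule.eq_iSup_inf_genEigenspace (p := dyn ρ t b) (f := ρ t) ⊤ (fun v hv => (dynb_inv ρ hv).1)
      (Module.End.iSup_maxGenEigenspace_eq_top _)]
    refine iSup_le fun μ => ?_
    rintro v ⟨hv, hv'⟩
    by_cases h0 : v = 0
    · rw [h0]
      exact zero_mem _
    obtain ⟨m, hm⟩ := (Module.End.mem_maxGenEigenspace _ _ _).1 hv'
    exact (le_biSup (fun μ => (ρ t).maxGenEigenspace μ) (show μ ∈ {μ : ℂ | ‖μ‖ = Real.exp b} from
      dynb_gen_norm ρ m hv h0 hm) :) hv'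
  intro b
  refine ((Module.End.independent_maxGenEigenspace (ρ t)).disjoint_biSup_biSup
    (disjoint_compl_right (a := {μ : ℂ | ‖μ‖ = Real.exp b}))).mono (key b) (iSup₂_le fun b' hb' => (key b').trans ?_)
  exact biSup_mono fun μ hμ hμ' => hb' (Real.exp_injective (Eq.trans (Eq.symm hμ) hμ'))

/-- `exists_flag`-free proof: `Submodule.eq_iSup_inf_genEigenspace` with `Module.End.iSup_maxGenEigenspace_eq_top`; a vector killed by `(ρ t - μ) ^ m` lies in
`dyn ρ t (log ‖μ‖)` (induction on `m`, or `Flag.le_dyn` with `exists_flag` for `H = zpowers t` after restricting `ρ` to the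
commutative group `zpowers t`) -/
theorem dynC_span (t : G) {U : Submodule ℂ E} (hU : ∀ v ∈ U, ρ t v ∈ U) : U ≤ ⨆ b, U ⊓ dyn ρ t b := by
  refine (Submodule.eq_iSup_inf_genEigenspace (p := U) (f := ρ t) ⊤ hU
    (Module.End.iSup_maxGenEigenspace_eq_top _)).le.trans (iSup_le fun μ => ?_)
  rintro v ⟨hv, hv'⟩
  obtain ⟨m, hm⟩ := (Module.End.mem_maxGenEigenspace _ _ _).1 hv'
  by_cases hμ : μ = 0
  · rw [hμ, zero_smul, sub_zero, ← map_pow] at hm
    have : v = ρ (t ^ m)⁻¹ (ρ (t ^ m) v) := by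
      rw [← Module.End.mul_apply, ← map_mul, inv_mul_cancel, map_one, Module.End.one_apply]
    rw [this, hm, map_zero]
    exact zero_mem _
  · exact Submodule.mem_iSup_of_mem (Real.log ‖μ‖) ⟨hv, dynb_gen_mem ρ hμ m hm⟩

end

variable {h : ℕ} (ρ : G →* Module.End ℝ (V h))

theorem dyn_cx (t : G) (b : ℝ) : dyn ((cx h).toMonoidHom.comp ρ) t b = cxS (dyn ρ t b) := by
  have key : ∀ X ∈ dyn ρ t b, emb X ∈ dyn ((cx h).toMonoidHom.comp ρ) t b := by
    rintro X ⟨C, D, hC, hX⟩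
    refine ⟨C, D, hC, fun j => ?_⟩
    change ‖cx h (ρ (t ^ j)) (emb X)‖ ≤ _
    rw [cx_emb, norm_emb]
    exact hX j
  ext v
  constructor
  · rintro ⟨C, D, hC, hv⟩
    refine ⟨⟨C, D, hC, fun j => ?_⟩, ⟨C, D, hC, fun j => ?_⟩⟩
    · rw [← reV_cx]
      exact (norm_reV_le _).trans (hv j)
    · rw [← imV_cx]
      exact (norm_imV_le _).trans (hv j)
  · rintro ⟨h1, h2⟩
    rw [emb_re_im v]
    exact Submodule.add_mem _ (key _ h1) (Submodule.smul_mem _ _ (key _ h2))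

theorem dynR_indep (t : G) : iSupIndep (dyn ρ t) := by
  intro b
  have h1 := dynC_indep ((cx h).toMonoidHom.comp ρ) t b
  simp only [dyn_cx, ← cxS_iSup] at h1
  rw [Submodule.disjoint_def] at h1 ⊢
  intro X hX hX'
  rw [← reV_emb X, h1 _ (emb_mem_cxS.2 hX) (emb_mem_cxS.2 hX')]
  rfl

theorem dynR_span (t : G) {U : Submodule ℝ (V h)} (hU : ∀ X ∈ U, ρ t X ∈ U) : U ≤ ⨆ b, U ⊓ dyn ρ t b := by
  intro X hX
  have h1 := dynC_span ((cx h).toMonoidHom.comp ρ) t (U := cxS U) (fun v hv => cx_mem_cxS hU hv) (emb_mem_cxS.2 hX)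
  rw [← emb_mem_cxS, cxS_iSup]
  refine (iSup_mono fun b => ?_ : (⨆ b, cxS U ⊓ dyn ((cx h).toMonoidHom.comp ρ) t b) ≤ _) h1
  rw [dyn_cx]
  exact fun v hv => ⟨⟨hv.1.1, hv.2.1⟩, ⟨hv.1.2, hv.2.2⟩⟩

/-- two gradings, one contained in the other -/
theorem eq_of_le_of_indep {E ι : Type*} [AddCommGroup E] [Module ℝ E] {A B : ι → Submodule ℝ E} (hle : ∀ i, A i ≤ B i)
    (hA : ⨆ i, A i = ⊤) (hB : iSupIndep B) : A = B := by
  funext i
  refine le_antisymm (hle i) fun x hx => ?_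
  have h1 : x ∈ A i ⊔ ⨆ (j) (_ : j ≠ i), A j := by
    rw [← iSup_split_single, hA]
    trivial
  obtain ⟨a, ha, c, hc, rfl⟩ := Submodule.mem_sup.1 h1
  have h2 : c = 0 := Submodule.disjoint_def.1 (hB i) c ((Submodule.add_mem_iff_right _ (hle i ha)).1 hx)
    ((iSup₂_mono fun j _ => hle j : (⨆ (j) (_ : j ≠ i), A j) ≤ ⨆ (j) (_ : j ≠ i), B j) hc)
  rwa [h2, add_zero]

/-- on `dyn ρ t b`, `b ≠ 0`, the map `1 - ρ t` is injective (complexify, `dyn_eigen`), hence bijective on `U ⊓ dyn ρ t b` -/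
theorem one_sub_surj (t : G) {U : Submodule ℝ (V h)} (hU : ∀ X ∈ U, ρ t X ∈ U) {Y : V h} (hY : Y ∈ U) :
    ∃ X ∈ U, Y - (X - ρ t X) ∈ dyn ρ t 0 := by
  refine Submodule.iSup_induction (motive := fun Y => ∃ X ∈ U, Y - (X - ρ t X) ∈ dyn ρ t 0) _
    (dynR_span ρ t hU hY) (fun b Y hY => ?_) ⟨0, U.zero_mem, by simp⟩ ?_
  · by_cases hb : b = 0
    · exact ⟨0, U.zero_mem, by simpa [hb] using hY.2⟩
    have hi : ∀ X ∈ U ⊓ dyn ρ t b, (1 - ρ t) X ∈ U ⊓ dyn ρ t b := fun X hX => by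
      have h1 := dyn_conj ρ hX.2 t
      rw [mul_inv_cancel_right] at h1
      exact Submodule.sub_mem _ hX ⟨hU X hX.1, h1⟩
    have hinj : Function.Injective ((1 - ρ t).restrict hi) := by
      refine (injective_iff_map_eq_zero _).2 fun X hX => ?_
      by_contra h0
      have h1 : X.1 - ρ t X.1 = 0 := congrArg Subtype.val hX
      have h2 : emb X.1 ∈ dyn ((cx h).toMonoidHom.comp ρ) t b := by
        rw [dyn_cx]
        exact emb_mem_cxS.2 X.2.2
      have h3 := dyn_eigen _ h2 (μ := 1) (fun e => h0 (Subtype.ext (by rw [← reV_emb X.1, e]; rfl))) (by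
        change cx h (ρ t) (emb X.1) = _
        rw [cx_emb, one_smul, ← sub_eq_zero.1 h1])
      rw [norm_one, eq_comm, Real.exp_eq_one_iff] at h3
      exact hb h3
    obtain ⟨X, hX⟩ := LinearMap.injective_iff_surjective.1 hinj ⟨Y, hY⟩
    have h1 : X.1 - ρ t X.1 = Y := congrArg Subtype.val hX
    exact ⟨X.1, X.2.1, by rw [h1, sub_self]; exact Submodule.zero_mem _⟩
  · rintro Y Y' ⟨X, h1, h2⟩ ⟨X', h1', h2'⟩
    refine ⟨X + X', U.add_mem h1 h1', ?_⟩
    convert Submodule.add_mem _ h2 h2' using 1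
    rw [map_add]
    abel

/-- the map induced by `1 - ρ t` on `V h ⧸ U` is surjective (`one_sub_surj` for `⊤`), hence injective -/
theorem one_sub_inj (t : G) {U : Submodule ℝ (V h)} (hU : ∀ X ∈ U, ρ t X ∈ U) (h0 : dyn ρ t 0 ≤ U) {Y : V h}
    (hY : Y - ρ t Y ∈ U) : Y ∈ U := by
  have hi : U ≤ U.comap (1 - ρ t) := fun X hX => U.sub_mem hX (hU X hX)
  have hs : Function.Surjective (U.mapQ U (1 - ρ t) hi) := fun q => by
    obtain ⟨Z, rfl⟩ := U.mkQ_surjective q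
    obtain ⟨X, -, hX⟩ := one_sub_surj ρ t (U := ⊤) (fun _ _ => trivial) (Y := Z) trivial
    refine ⟨U.mkQ X, ?_⟩
    rw [Submodule.mkQ_apply, Submodule.mapQ_apply, Submodule.mkQ_apply, eq_comm, Submodule.Quotient.eq]
    exact h0 hX
  have hinj := LinearMap.injective_iff_surjective.2 hs
  rw [← Submodule.Quotient.mk_eq_zero]
  refine (injective_iff_map_eq_zero _).1 hinj _ ?_
  rw [Submodule.mapQ_apply, Submodule.Quotient.mk_eq_zero]
  exact hY

end Crest.Agent.R182
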