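import Crest.Agent.R182.A.CoreB
import Crest.Agent.R182.A.Dyn

/-! R182/A: the supplement defined by one element. -/

set_option autoImplicit false
set_option linter.unusedVariables false
set_option linter.unusedSectionVars false
open Set Filter Topology MeasureTheory Crest.GroupTheory
open scoped Pointwise commutatorElement

noncomputable section
namespace Crest.Agent.R182

namespace Core
variable {h k : ℕ} (c : Core h k)

/-- the grading defined by `t` -/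
abbrev D (t : c.G) (b : ℝ) : Submodule ℝ (V h) := dyn c.Ad t b

/-- the stabiliser of the grading defined by `t` -/
def Stab (t : c.G) : Subgroup c.G where
  carrier := {g | ∀ b X, X ∈ c.D t b ↔ c.Ad g X ∈ c.D t b}
  one_mem' := fun b X => by simp
  mul_mem' := fun {g g'} hg hg' b X => by rw [map_mul, Module.End.mul_apply, ← hg, ← hg']
  inv_mem' := fun {g} hg b X => by rw [hg b (c.Ad g⁻¹ X), c.Ad_Ad_inv]

/-- the supplement -/
def Cart (t : c.G) : Subgroup c.G := Subgroup.closure {g | g * t * g⁻¹ * t⁻¹ ∈ c.expSub (c.D t 0)}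

theorem D_br (t : c.G) {a b : ℝ} {X Y : V h} (hX : X ∈ c.D t a) (hY : Y ∈ c.D t b) : c.br X Y ∈ c.D t (a + b) := by
  obtain ⟨C, D, hC, h1⟩ := hX
  obtain ⟨C', D', hC', h2⟩ := hY
  obtain ⟨B, hB, h3⟩ := c.exists_norm_br
  refine ⟨B * C * C', D + D', by positivity, fun j => ?_⟩
  rw [c.Ad_br]
  refine (h3 _ _).trans ((mul_le_mul (mul_le_mul_of_nonneg_left (h1 j) hB) (h2 j) (norm_nonneg _)
    (by positivity)).trans (le_of_eq ?_))
  rw [add_mul, Real.exp_add, pow_add]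
  ring

theorem isSub_D (t : c.G) : c.IsSub (c.D t 0) := by
  intro X hX Y hY
  simpa using c.D_br t hX hY

/-- it is enough to check one inclusion for `g` and `g⁻¹` -/
theorem mem_Stab {t g : c.G} (h1 : ∀ b, ∀ X ∈ c.D t b, c.Ad g X ∈ c.D t b) (h2 : ∀ b, ∀ X ∈ c.D t b, c.Ad g⁻¹ X ∈ c.D t b) :
    g ∈ c.Stab t := by
  intro b X
  exact ⟨h1 b X, fun hX => c.Ad_inv_Ad g X ▸ h2 b _ hX⟩

theorem self_mem_Stab (t : c.G) : t ∈ c.Stab t := by
  refine c.mem_Stab (fun b X hX => ?_) fun b X hX => ?_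
  · simpa using dyn_conj c.Ad hX t
  · simpa using dyn_conj c.Ad hX t⁻¹

theorem expSub_le_Stab (t : c.G) : c.expSub (c.D t 0) ≤ c.Stab t := by
  have key : ∀ X ∈ c.D t 0, ∀ b, ∀ Y ∈ c.D t b, c.Ad (c.exp X) Y ∈ c.D t b := by
    intro X hX b Y hY
    have h1 : ∀ Z ∈ c.D t b, c.br X Z ∈ c.D t b := fun Z hZ => by simpa using c.D_br t hX hZ
    simpa using Submodule.add_mem _ (c.Ad_exp_sub_mem (h1 Y hY) h1) hY
  refine (Subgroup.closure_le _).2 ?_
  rintro _ ⟨X, hX, rfl⟩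
  refine c.mem_Stab (key X hX) ?_
  rw [← c.exp_neg]
  exact key _ (Submodule.neg_mem _ hX)

theorem exists_flag_D (t : c.G) {H : Subgroup c.G} (hH : H ≤ c.Stab t) (b : ℝ) :
    ∃ n, Nonempty (Flag c.AdC H (cxS (c.D t b)) n) := by
  exact exists_flag c.AdC H c.τ.ker c.comm_mem_ker c.unipC _ fun g hg v hv =>
    cx_mem_cxS (fun X hX => (hH hg b X).1 hX) hv

/-- `χ j` is multiplicative and trivial on `exp` (`unipC`, `Flag.χ_eq_one`) -/
theorem χ_congr {H : Subgroup c.G} {U₀ : Submodule ℂ (Fin h → ℂ)} {n : ℕ} (fl : Flag c.AdC H U₀ n) {j : ℕ} (hj : j < n)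
    {g g' : c.G} (hg : g ∈ H) (hg' : g' ∈ H) (he : c.tv g = c.tv g') : fl.χ j g = fl.χ j g' := by
  obtain ⟨X, rfl⟩ := c.exists_exp_mul he
  have h1 : c.exp X ∈ H := by simpa using H.mul_mem hg (H.inv_mem hg')
  rw [fl.χ_mul hj h1 hg', fl.χ_eq_one hj h1 (c.unipC.isNilpotent ((c.τ_ker _).2 ⟨X, rfl⟩)), one_mul]

/-- a flag of `cxS (D t b)` for `Stab t` has `‖χ j s‖ = ‖χ j t‖ = exp b` (`Flag.exists_eigen`, `dyn_eigen`, `dyn_cx`), so `D t b ≤ D s b`
(`Flag.le_dyn`); `eq_of_le_of_indep` -/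
theorem D_eq_of_Stab {t s : c.G} (hs : s ∈ c.Stab t) (he : c.tv s = c.tv t) : c.D s = c.D t := by
  refine (eq_of_le_of_indep (fun b X hX => ?_) ?_ (dynR_indep c.Ad s)).symm
  · obtain ⟨n, ⟨fl⟩⟩ := c.exists_flag_D t le_rfl b
    have h1 := fl.le_dyn c.AdC hs (b := b) fun j hj => by
      obtain ⟨v, hv, h0, hμ⟩ := fl.exists_eigen hj (c.self_mem_Stab t)
      rw [c.χ_congr fl hj hs (c.self_mem_Stab t) he]
      exact dyn_eigen c.AdC ((dyn_cx c.Ad t b).ge hv) h0 hμ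
    exact emb_mem_cxS.1 ((dyn_cx c.Ad s b).le (h1 (emb_mem_cxS.2 hX)))
  · simpa using dynR_span c.Ad t (U := ⊤) fun _ _ => trivial

/-- `s = g t g⁻¹ ∈ Stab t`, `Ad g (D t b) ≤ D s b = D t b` and `Ad g⁻¹ (D s b) ≤ D t b` (`dyn_conj`) -/
theorem mem_Stab_of_comm {t g : c.G} (hg : g * t * g⁻¹ * t⁻¹ ∈ c.expSub (c.D t 0)) : g ∈ c.Stab t := by
  have h1 : g * t * g⁻¹ ∈ c.Stab t := by
    simpa using (c.Stab t).mul_mem (c.expSub_le_Stab t hg) (c.self_mem_Stab t)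
  have h2 := c.D_eq_of_Stab h1 (by simp only [c.tv_mul, c.tv_inv]; abel)
  refine c.mem_Stab (fun b X hX => ?_) fun b X hX => ?_
  · rw [← h2]; exact dyn_conj c.Ad hX g
  · rw [← h2] at hX
    have h3 := dyn_conj c.Ad hX g⁻¹
    rwa [show g⁻¹ * (g * t * g⁻¹) * g⁻¹⁻¹ = t by group] at h3

theorem mem_Cart {t g : c.G} : g ∈ c.Cart t ↔ g * t * g⁻¹ * t⁻¹ ∈ c.expSub (c.D t 0) := by
  refine ⟨fun hg => ?_, fun hg => Subgroup.subset_closure hg⟩
  induction hg using Subgroup.closure_induction with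
  | mem g hg => exact hg
  | one => simp
  | mul g g' _ _ hg hg' =>
    have h1 := c.conj_mem_expSub (c.isSub_D t) (fun X hX => (c.mem_Stab_of_comm hg 0 X).1 hX) hg'
    convert Subgroup.mul_mem _ h1 hg using 1
    group
  | inv g _ hg =>
    have h1 := c.conj_mem_expSub (c.isSub_D t)
      (fun X hX => ((c.Stab t).inv_mem (c.mem_Stab_of_comm hg) 0 X).1 hX) (Subgroup.inv_mem _ hg)
    convert h1 using 1
    group

theorem Cart_le_Stab (t : c.G) : c.Cart t ≤ c.Stab t := by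
  exact fun g hg => c.mem_Stab_of_comm (c.mem_Cart.1 hg)

theorem self_mem_Cart (t : c.G) : t ∈ c.Cart t := by
  exact c.mem_Cart.2 (by simp)

theorem cartanb_br (t : c.G) {i : ℕ} {A B : V h} (hA : A ∈ c.D t 0 ⊔ c.F i) (hB : B ∈ c.D t 0 ⊔ c.F i) :
    c.br A B ∈ c.D t 0 ⊔ c.F (i + 1) := by
  obtain ⟨B0, hB0, B1, hB1, rfl⟩ := Submodule.mem_sup.1 hB
  rw [map_add]
  refine Submodule.add_mem _ ?_ (Submodule.mem_sup_right (c.br_mem_F_succ A hB1))
  obtain ⟨A0, hA0, A1, hA1, rfl⟩ := Submodule.mem_sup.1 hA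
  rw [map_add, LinearMap.add_apply, c.br_anti A1]
  exact Submodule.add_mem_sup (c.isSub_D t _ hA0 _ hB0) (Submodule.neg_mem _ (c.br_mem_F_succ B0 hA1))

theorem cartanb_le (t : c.G) (i : ℕ) : c.D t 0 ⊔ c.F (i + 1) ≤ c.D t 0 ⊔ c.F i :=
  sup_le_sup_left (c.F_anti (Nat.le_succ i)) _

theorem cartanb_bch (t : c.G) {i : ℕ} {A B : V h} (hA : A ∈ c.D t 0 ⊔ c.F i) (hB : B ∈ c.D t 0 ⊔ c.F i) :
    c.bch A B - A - B ∈ c.D t 0 ⊔ c.F (i + 1) :=
  c.bch_sub_mem (c.cartanb_br t hA hB) (fun _ hZ => c.cartanb_br t hA (c.cartanb_le t i hZ))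
    fun _ hZ => c.cartanb_br t hB (c.cartanb_le t i hZ)

theorem cartanb_Ad (t : c.G) (i : ℕ) : ∀ X ∈ c.D t 0 ⊔ c.F i, c.Ad t X ∈ c.D t 0 ⊔ c.F i := fun X hX => by
  obtain ⟨A0, hA0, A1, hA1, rfl⟩ := Submodule.mem_sup.1 hX
  rw [map_add]
  exact Submodule.add_mem_sup ((c.self_mem_Stab t 0 A0).1 hA0) (c.Ad_F t hA1)

/-- `g t g⁻¹ t⁻¹ = exp Z`.  By induction on `i ≥ 1` there is `X` with `exp X * exp Z * exp (-Ad t X) = exp Z'`, `Z' ∈ D t 0 ⊔ F i`
(`one_sub_surj` for `U = F i`, `bch_sub_mem_F`); then `exp X * g ∈ Cart t`. -/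
theorem Cart_surj (t : c.G) (a : Fin k → ℤ) : ∃ g ∈ c.Cart t, c.tv g = a := by
  have key : ∀ i, ∃ g, c.tv g = a ∧ ∃ Z ∈ c.D t 0 ⊔ c.F i, c.exp Z = g * t * g⁻¹ * t⁻¹ := fun i => by
    induction i with
    | zero =>
      obtain ⟨g, hg⟩ := c.tv_surj a
      obtain ⟨Z, hZ⟩ := (c.tv_eq_zero (g := g * t * g⁻¹ * t⁻¹)).1 (by simp only [c.tv_mul, c.tv_inv]; abel)
      exact ⟨g, hg, Z, Submodule.mem_sup_right (c.F_zero ▸ Submodule.mem_top), hZ⟩
    | succ i ih =>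
      obtain ⟨g, hg, Z, hZ, e⟩ := ih
      obtain ⟨Z0, h0, Z1, h1, rfl⟩ := Submodule.mem_sup.1 hZ
      obtain ⟨X, hX, hX'⟩ := one_sub_surj c.Ad t (U := c.F i) (fun X hX => c.Ad_F t hX) (Submodule.neg_mem _ h1)
      have m1 : X ∈ c.D t 0 ⊔ c.F i := Submodule.mem_sup_right hX
      have m2 := c.cartanb_bch t m1 hZ
      have m3 : c.bch X (Z0 + Z1) ∈ c.D t 0 ⊔ c.F i := by
        simpa using Submodule.add_mem _ (Submodule.add_mem _ (c.cartanb_le t i m2) hZ) m1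
      have m4 := c.cartanb_bch t m3 (c.cartanb_Ad t i _ (Submodule.neg_mem _ m1))
      refine ⟨c.exp X * g, by rw [c.tv_mul, c.tv_exp, zero_add, hg], c.bch (c.bch X (Z0 + Z1)) (c.Ad t (-X)), ?_, ?_⟩
      · convert Submodule.add_mem _ (Submodule.add_mem _ m4 m2)
          (Submodule.mem_sup_left (Submodule.sub_mem _ h0 hX')) using 1
        rw [map_neg]
        abel
      · rw [← c.exp_bch, ← c.exp_bch, e, ← c.conj, c.exp_neg]
        group
  obtain ⟨g, hg, Z, hZ, e⟩ := key (c.cl + 1)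
  rw [c.F_cl, sup_bot_eq] at hZ
  exact ⟨g, c.mem_Cart.2 (e ▸ (c.exp_mem_expSub (c.isSub_D t)).2 hZ), hg⟩

/-- `→`: by induction `X ∈ D t 0 ⊔ F i`; all brackets of elements of this subalgebra lie in `U = D t 0 ⊔ F (i + 1)`, so
`bch X (-Ad t X) - (X - Ad t X) ∈ U` (`bch_sub_mem`), and `one_sub_inj` applies -/
theorem exp_mem_Cart {t : c.G} {X : V h} : c.exp X ∈ c.Cart t ↔ X ∈ c.D t 0 := by
  have e : c.exp X * t * (c.exp X)⁻¹ * t⁻¹ = c.exp (c.bch X (c.Ad t (-X))) := by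
    rw [← c.exp_bch, ← c.conj, c.exp_neg]
    group
  rw [c.mem_Cart, e, c.exp_mem_expSub (c.isSub_D t)]
  refine ⟨fun hb => ?_, fun hX => (c.isSub_D t).bch_mem c hX ((c.self_mem_Stab t 0 _).1 (Submodule.neg_mem _ hX))⟩
  have key : ∀ i, X ∈ c.D t 0 ⊔ c.F i := fun i => by
    induction i with
    | zero => exact Submodule.mem_sup_right (c.F_zero ▸ Submodule.mem_top)
    | succ i ih =>
      refine one_sub_inj c.Ad t (c.cartanb_Ad t _) le_sup_left ?_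
      convert Submodule.sub_mem _ (Submodule.mem_sup_left hb)
        (c.cartanb_bch t ih (c.cartanb_Ad t i _ (Submodule.neg_mem _ ih))) using 1
      rw [map_neg]
      abel
  simpa [c.F_cl] using key (c.cl + 1)

end Core

end Crest.Agent.R182
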