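import Crest.Agent.R182.A.Grp1

/-! R182/A: polycyclic groups are virtually nilpotent-by-abelian. -/

set_option autoImplicit false
set_option linter.unusedVariables false
set_option linter.unusedSectionVars false
open Set Filter Topology MeasureTheory Crest.GroupTheory
open scoped Pointwise commutatorElement

noncomputable section
namespace Crest.Agent.R182

variable {G : Type*} [Group G]

/-- induction; `⁅H ⊔ ⟨g⟩, H ⊔ ⟨g⟩⁆ ≤ H` (`Nz.mem_sup`), `solvable_of_ker_le_range` -/
theorem PC.solvable {K : Subgroup G} (h : PC K) : Group.IsSolvable K := by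
  induction h with
  | bot => infer_instance
  | step H g _ hg ih =>
    refine Group.isSolvable_of_ker_le_range (Subgroup.inclusion (le_sup_left : H ≤ H ⊔ Subgroup.zpowers g))
      Abelianization.of ?_
    rw [Abelianization.ker_of, Subgroup.inclusion_range, commutator_def, Subgroup.commutator_le]
    rintro ⟨x, hx⟩ - ⟨x', hx'⟩ -
    obtain ⟨y, hy, i, rfl⟩ := hg.mem_sup.1 hx
    obtain ⟨y', hy', j, rfl⟩ := hg.mem_sup.1 hx'
    have hn : ∀ (k : ℤ) (z : G), z ∈ H → g ^ k * z * (g ^ k)⁻¹ ∈ H := fun k z hz =>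
      (Subgroup.mem_normalizer_iff.1 (Subgroup.zpow_mem _ (Subgroup.mem_normalizer_iff.2 hg) k) z).1 hz
    have e : ⁅y * g ^ i, y' * g ^ j⁆ = y * (g ^ i * y' * (g ^ i)⁻¹) * (g ^ j * y⁻¹ * (g ^ j)⁻¹) * y'⁻¹ := by
      rw [commutatorElement_def]
      group
    show ⁅y * g ^ i, y' * g ^ j⁆ ∈ H
    rw [e]
    exact H.mul_mem (H.mul_mem (H.mul_mem hy (hn i _ hy')) (hn j _ (H.inv_mem hy))) (H.inv_mem hy')

theorem itc_mono {N N' K K' : Subgroup G} (hN : N ≤ N') (hK : K ≤ K') (i : ℕ) : itc N K i ≤ itc N' K' i := by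
  induction i with
  | zero => exact hK
  | succ i ih => exact Subgroup.commutator_mono hN ih

theorem itc_add (N K : Subgroup G) (i j : ℕ) : itc N (itc N K i) j = itc N K (i + j) := by
  induction j with
  | zero => rfl
  | succ j ih => rw [← add_assoc, itc, itc, ih]

theorem itc_le (N K : Subgroup G) [K.Normal] (i : ℕ) : itc N K i ≤ K := by
  induction i with
  | zero => exact le_rfl
  | succ i ih => exact (Subgroup.commutator_mono le_rfl ih).trans (Subgroup.commutator_le_right _ _)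

/-- `(lowerCentralSeries N i).map N.subtype = itc N N i` -/
theorem nilpotent_of_itc {N : Subgroup G} {c : ℕ} (h : itc N N c = ⊥) : Group.IsNilpotent N := by
  have e : ∀ i, N.lowerCentralSeries i = itc N N i := fun i => by
    induction i with
    | zero => rfl
    | succ i ih => rw [Subgroup.lowerCentralSeries_succ, ih, itc, Subgroup.commutator_comm]
  exact (Subgroup.isNilpotent_iff_lowerCentralSeries N).2 ⟨c, (e c).trans h⟩

/-- the set is already a subgroup: it is the preimage of the torsion subgroup of `Abelianization K` -/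
theorem mem_isol {K : Subgroup G} {a : G} : a ∈ isol K ↔ a ∈ K ∧ ∃ n : ℕ, 0 < n ∧ a ^ n ∈ ⁅K, K⁆ := by
  have key : ∀ (x : K) (n : ℕ), (x : G) ^ n ∈ ⁅K, K⁆ ↔ Abelianization.of x ^ n = 1 := by
    intro x n
    rw [← Subgroup.map_subtype_commutator, ← map_pow, ← MonoidHom.mem_ker, Abelianization.ker_of]
    exact Subgroup.mem_map_iff_mem (f := K.subtype) (x := x ^ n) Subtype.val_injective
  have e : {a | a ∈ K ∧ ∃ n : ℕ, 0 < n ∧ a ^ n ∈ ⁅K, K⁆} =
      (((CommGroup.torsion (Abelianization K)).comap Abelianization.of).map K.subtype : Subgroup G) := by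
    ext a
    simp only [mem_ofPred_eq, SetLike.mem_coe, Subgroup.mem_map, Subgroup.mem_comap, CommGroup.mem_torsion,
      isOfFinOrder_iff_pow_eq_one]
    constructor
    · rintro ⟨ha, n, hn, h⟩
      exact ⟨⟨a, ha⟩, ⟨n, hn, (key ⟨a, ha⟩ n).1 h⟩, rfl⟩
    · rintro ⟨x, ⟨n, hn, h⟩, rfl⟩
      exact ⟨x.2, n, hn, (key x n).2 h⟩
  unfold isol
  rw [e, Subgroup.closure_eq]
  exact (Set.ext_iff.1 e a).symm

/-- `zmultiplesHom A a : ℤ →+ A` is injective; extend `ℤ → ℂ` along it (`Module.Baer.of_divisible`,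
`Module.Baer.extension_property_addMonoidHom`) -/
theorem exists_char {A : Type*} [AddCommGroup A] {a : A} (ha : ¬ IsOfFinAddOrder a) : ∃ φ : A →+ ℂ, φ a ≠ 0 := by
  obtain ⟨φ, hφ⟩ := (Module.Baer.of_divisible ℂ).extension_property_addMonoidHom (zmultiplesHom A a)
    (injective_zsmul_iff_not_isOfFinAddOrder.2 ha) (Int.castAddHom ℂ)
  refine ⟨φ, ?_⟩
  have := DFunLike.congr_fun hφ 1
  simp only [AddMonoidHom.comp_apply, zmultiplesHom_apply, one_zsmul, Int.coe_castAddHom, Int.cast_one] at this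
  rw [this]
  exact one_ne_zero

/-- the action on additive characters of a normal subgroup -/
def grp2b_rho (K : Subgroup G) [K.Normal] : G →* Module.End ℂ (Additive K →+ ℂ) where
  toFun g :=
    { toFun := fun φ => φ.comp (MonoidHom.toAdditive (MulAut.conjNormal g⁻¹ : MulAut K).toMonoidHom)
      map_add' := fun _ _ => rfl
      map_smul' := fun _ _ => rfl }
  map_one' := by
    refine LinearMap.ext fun φ => AddMonoidHom.ext fun a => ?_
    simp
  map_mul' g h := by
    refine LinearMap.ext fun φ => AddMonoidHom.ext fun a => ?_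
    simp

theorem grp2b_fd {K : Subgroup G} (hK : K.FG) : FiniteDimensional ℂ (Additive K →+ ℂ) := by
  obtain ⟨S, hS⟩ := ((Group.fg_iff_subgroup_fg K).2 hK).out
  let ev : (Additive K →+ ℂ) →ₗ[ℂ] (S → ℂ) :=
    { toFun := fun φ s => φ (Additive.ofMul s.1)
      map_add' := fun _ _ => rfl
      map_smul' := fun _ _ => rfl }
  refine FiniteDimensional.of_injective ev ((injective_iff_map_eq_zero _).2 fun φ hφ => ?_)
  have key : ∀ a ∈ Subgroup.closure (S : Set K), φ (Additive.ofMul a) = 0 := by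
    intro a ha
    induction ha using Subgroup.closure_induction with
    | mem x hx => exact congrFun hφ ⟨x, hx⟩
    | one => exact map_zero φ
    | mul x y _ _ hx hy => rw [ofMul_mul, map_add, hx, hy, add_zero]
    | inv x _ hx => rw [ofMul_inv, map_neg, hx, neg_zero]
  exact AddMonoidHom.ext fun a => key a.toMul (hS ▸ Subgroup.mem_top _)

theorem grp2b_van (N K : Subgroup G) [K.Normal] (i : ℕ) : ∀ φ : Additive K →+ ℂ,
    (∀ l : List G, l.length = i → (∀ x ∈ l, x ∈ N) → (l.map fun x => grp2b_rho K x - 1).prod φ = 0) →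
      ∀ a : K, (a : G) ∈ itc N K i → φ (Additive.ofMul a) = 0 := by
  induction i with
  | zero =>
    intro φ h a _
    have : φ = 0 := h [] rfl (by simp)
    rw [this]
    rfl
  | succ i ih =>
    intro φ h a ha
    have key : itc N K (i + 1) ≤ (AddMonoidHom.toMultiplicativeRight φ).ker.map K.subtype := by
      refine Subgroup.commutator_le.2 fun x hx b hb => ?_
      have hbK : b ∈ K := itc_le N K i hb
      have h1 := ih ((grp2b_rho K x⁻¹ - 1) φ) (fun l hl hN => by
        have := h (l ++ [x⁻¹]) (by simp [hl]) (fun y hy => by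
          rcases List.mem_append.1 hy with hy | hy
          · exact hN y hy
          · rw [List.mem_singleton.1 hy]; exact N.inv_mem hx)
        rwa [List.map_append, List.prod_append, List.map_singleton, List.prod_singleton,
          Module.End.mul_apply] at this) ⟨b, hbK⟩ hb
      refine ⟨MulAut.conjNormal x (⟨b, hbK⟩ : K) * (⟨b, hbK⟩ : K)⁻¹, ?_, rfl⟩
      have h2 : φ (Additive.ofMul (MulAut.conjNormal x (⟨b, hbK⟩ : K))) - φ (Additive.ofMul ⟨b, hbK⟩) = 0 := by
        simpa [grp2b_rho] using h1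
      change φ (Additive.ofMul _) = 0
      rw [ofMul_mul, ofMul_inv, map_add, map_neg, ← sub_eq_add_neg, h2]
    obtain ⟨b, hb, e⟩ := key ha
    rw [← Subtype.ext e]
    exact hb

/-- `E = (Additive K →+ ℂ)` is finite dimensional (`K` is finitely generated: evaluation at the generators is injective),
`ρ g φ = φ ∘ (conjugation by g⁻¹)`, `exists_unip`.  By induction on `i`: if all products of `i` operators `ρ x - 1`, `x ∈ N = ⁅L, L⁆`,
kill `φ` then `φ` vanishes on `itc N K i` (`φ ⁅x, a⁆ = ((ρ x⁻¹ - 1) φ) a`).  An element of `K` killed by all `φ` has finite order in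
`Abelianization K` (`exists_char`). -/
theorem exists_itc_le_isol (hG : PC (⊤ : Subgroup G)) (K : Subgroup G) [K.Normal] :
    ∃ L : Subgroup G, L.FiniteIndex ∧ ∃ c : ℕ, itc ⁅L, L⁆ K c ≤ isol K := by
  have := grp2b_fd (hG.of_le (le_top : K ≤ ⊤)).fg
  obtain ⟨L, hL, hu⟩ := exists_unip _ G (Additive K →+ ℂ) le_rfl hG (grp2b_rho K)
  refine ⟨L, hL, Module.finrank ℂ (Additive K →+ ℂ), fun a ha => ?_⟩
  have haK : a ∈ K := itc_le _ K _ ha
  have hfin : IsOfFinOrder (Abelianization.of (⟨a, haK⟩ : K)) := by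
    by_contra hn
    obtain ⟨φ, hφ⟩ := exists_char (A := Additive (Abelianization K))
      (a := Additive.ofMul (Abelianization.of (⟨a, haK⟩ : K))) (by rwa [isOfFinAddOrder_ofMul_iff])
    exact hφ (grp2b_van ⁅L, L⁆ K _ (φ.comp (MonoidHom.toAdditive Abelianization.of))
      (fun l hl hN => by rw [hu l hl hN]; rfl) ⟨a, haK⟩ ha)
  obtain ⟨n, hn, e⟩ := isOfFinOrder_iff_pow_eq_one.1 hfin
  refine Subgroup.subset_closure ⟨haK, n, hn, ?_⟩
  rw [← map_pow, ← MonoidHom.mem_ker, Abelianization.ker_of] at e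
  rw [← Subgroup.map_subtype_commutator]
  exact ⟨_, e, rfl⟩

/-- the image `T` of `isol K` in `G ⧸ ⁅K, K⁆` is normal, commutative, finitely generated and torsion, hence finite
(`CommGroup.finite_of_fg_torsion`); `L` = preimage of the kernel of `MulAut.conjNormal : _ →* MulAut T` -/
theorem exists_comm_isol_le (hG : PC (⊤ : Subgroup G)) (K : Subgroup G) [K.Normal] :
    ∃ L : Subgroup G, L.FiniteIndex ∧ ⁅L, isol K⁆ ≤ ⁅K, K⁆ := by
  have hI : (isol K).Normal := ⟨fun a ha g => by
    obtain ⟨h1, n, hn, h2⟩ := mem_isol.1 ha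
    refine mem_isol.2 ⟨Subgroup.Normal.conj_mem inferInstance a h1 g, n, hn, ?_⟩
    rw [conj_pow]
    exact Subgroup.Normal.conj_mem inferInstance _ h2 g⟩
  let π := QuotientGroup.mk' ⁅K, K⁆
  let T := (isol K).map π
  have hT : T.Normal := hI.map π (QuotientGroup.mk'_surjective _)
  have hfg : Group.FG T := (Group.fg_iff_subgroup_fg T).2 ((hG.of_le le_top).map π).fg
  have hπ : ∀ x, π x = 1 ↔ x ∈ ⁅K, K⁆ := fun x => QuotientGroup.eq_one_iff x
  have hfin : Finite T := by
    let _ : CommGroup T := { (inferInstance : Group T) with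
      mul_comm := by
        rintro ⟨_, x, hx, rfl⟩ ⟨_, y, hy, rfl⟩
        refine Subtype.ext ?_
        have h := (hπ _).2 (Subgroup.commutator_mem_commutator (mem_isol.1 hx).1 (mem_isol.1 hy).1)
        rw [map_commutatorElement, commutatorElement_eq_one_iff_mul_comm] at h
        exact h }
    refine CommGroup.finite_of_fg_isMulTorsion T ?_
    rintro ⟨_, x, hx, rfl⟩
    obtain ⟨-, n, hn, h⟩ := mem_isol.1 hx
    refine isOfFinOrder_iff_pow_eq_one.2 ⟨n, hn, Subtype.ext ?_⟩
    have := (hπ _).2 h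
    rw [map_pow] at this
    exact this
  have hA : Finite (MulAut T) := Finite.of_injective (fun f : MulAut T => (f : T → T)) DFunLike.coe_injective
  refine ⟨((MulAut.conjNormal : _ →* MulAut T).comp π).ker, inferInstance, Subgroup.commutator_le.2 fun g hg a ha => ?_⟩
  have h := congrArg (fun f : MulAut T => (f ⟨π a, a, ha, rfl⟩ : G ⧸ ⁅K, K⁆)) (MonoidHom.mem_ker.1 hg)
  simp only [MonoidHom.comp_apply, MulAut.conjNormal_apply, MulAut.one_apply] at h
  rw [← hπ, map_commutatorElement, commutatorElement_def, h, mul_inv_cancel]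

/-- by induction on `i`: `∃ L c`, `L` of finite index, `itc ⁅L, L⁆ ⊤ c ≤ derivedSeries G i` -/
theorem exists_nil (hG : PC (⊤ : Subgroup G)) :
    ∃ L : Subgroup G, L.FiniteIndex ∧ Group.IsNilpotent (⁅L, L⁆ : Subgroup G) := by
  have key : ∀ i, ∃ L : Subgroup G, L.FiniteIndex ∧ ∃ c, itc ⁅L, L⁆ ⊤ c ≤ derivedSeries G i := fun i => by
    induction i with
    | zero => exact ⟨⊤, inferInstance, 0, le_top⟩
    | succ i ih =>
      obtain ⟨L₁, h1, c₁, hc₁⟩ := ih
      obtain ⟨L₂, h2, c₂, hc₂⟩ := exists_itc_le_isol hG (derivedSeries G i)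
      obtain ⟨L₃, h3, hc₃⟩ := exists_comm_isol_le hG (derivedSeries G i)
      have a1 : L₁ ⊓ L₂ ⊓ L₃ ≤ L₁ := inf_le_left.trans inf_le_left
      have a2 : L₁ ⊓ L₂ ⊓ L₃ ≤ L₂ := inf_le_left.trans inf_le_right
      have a3 : ⁅L₁ ⊓ L₂ ⊓ L₃, L₁ ⊓ L₂ ⊓ L₃⁆ ≤ L₃ := Subgroup.commutator_le.2 fun x hx y hy =>
        L₃.mul_mem (L₃.mul_mem (L₃.mul_mem hx.2 hy.2) (L₃.inv_mem hx.2)) (L₃.inv_mem hy.2)
      refine ⟨L₁ ⊓ L₂ ⊓ L₃, inferInstance, c₁ + c₂ + 1, ?_⟩
      rw [itc, ← itc_add, derivedSeries_succ]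
      exact (Subgroup.commutator_mono a3 ((itc_mono (Subgroup.commutator_mono a2 a2)
        ((itc_mono (Subgroup.commutator_mono a1 a1) le_rfl c₁).trans hc₁) c₂).trans hc₂)).trans hc₃
  have := hG.solvable
  have : Group.IsSolvable G :=
    Group.isSolvable_of_surjective (f := (⊤ : Subgroup G).subtype) fun x => ⟨⟨x, trivial⟩, rfl⟩
  obtain ⟨n, hn⟩ := this.solvable
  obtain ⟨L, hL, c, hc⟩ := key n
  exact ⟨L, hL, nilpotent_of_itc (c := c) (le_bot_iff.1 ((itc_mono le_rfl le_top c).trans (hn ▸ hc)))⟩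

end Crest.Agent.R182
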