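import Crest.Agent.R182.A.BCH
import Crest.Agent.R182.A.Grp2

/-! R182/A: basic properties of `Core`. -/

set_option autoImplicit false
set_option linter.unusedVariables false
set_option linter.unusedSectionVars false
open Set Filter Topology MeasureTheory Crest.GroupTheory
open scoped Pointwise commutatorElement

noncomputable section
namespace Crest.Agent.R182

namespace Core
variable {h k : ℕ} (c : Core h k)

theorem exp_bch (X Y : V h) : c.exp X * c.exp Y = c.exp (c.bch X Y) := c.exp_mul X Y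

theorem br_anti (X Y : V h) : c.br X Y = -c.br Y X := by
  have := c.br_self (X + Y)
  simp only [map_add, LinearMap.add_apply, c.br_self, zero_add, add_zero] at this
  exact eq_neg_of_add_eq_zero_right this

theorem bch_of_br {X Y : V h} (hb : c.br X Y = 0) : c.bch X Y = X + Y := by
  have : ∀ w, nest c.br X Y w = 0 := fun w => by
    induction w with
    | nil => exact hb
    | cons b w ih =>
      rw [nest] at ih
      rw [nest, List.foldr_cons, ih, map_zero]
  simp [bch, bchF, this]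

theorem exp_zero : c.exp 0 = 1 := by
  have := c.exp_bch 0 0
  rw [c.bch_of_br (c.br_self 0), add_zero] at this
  exact mul_eq_left.1 this

theorem exp_neg (X : V h) : c.exp (-X) = (c.exp X)⁻¹ := by
  refine eq_inv_of_mul_eq_one_left ?_
  rw [c.exp_bch, c.bch_of_br (by simp [c.br_self]), neg_add_cancel, c.exp_zero]

theorem exp_add_smul (s t : ℝ) (X : V h) : c.exp ((s + t) • X) = c.exp (s • X) * c.exp (t • X) := by
  rw [c.exp_bch, c.bch_of_br (by simp [c.br_self]), add_smul]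

theorem exp_zpow (X : V h) (n : ℤ) : c.exp X ^ n = c.exp ((n : ℝ) • X) := by
  induction n using Int.induction_on with
  | zero => simp [c.exp_zero]
  | succ n ih => rw [zpow_add_one, ih, Int.cast_add, c.exp_add_smul, Int.cast_one, one_smul]
  | pred n ih => rw [zpow_sub_one, ih, Int.cast_sub, sub_eq_add_neg, c.exp_add_smul, Int.cast_one, neg_one_smul, c.exp_neg]

theorem tv_mul (g g' : c.G) : c.tv (g * g') = c.tv g + c.tv g' := by
  simp [tv]

theorem tv_one : c.tv 1 = 0 := by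
  simp [tv]

theorem tv_inv (g : c.G) : c.tv g⁻¹ = -c.tv g := by
  simp [tv]

theorem tv_zpow (g : c.G) (n : ℤ) : c.tv (g ^ n) = n • c.tv g := by
  rw [tv, map_zpow, toAdd_zpow, tv]

theorem tv_exp (X : V h) : c.tv (c.exp X) = 0 := by
  rw [tv, (c.τ_ker _).2 ⟨X, rfl⟩, toAdd_one]

theorem tv_eq_zero {g : c.G} : c.tv g = 0 ↔ ∃ X, c.exp X = g := by
  exact toAdd_eq_zero.trans (c.τ_ker g)

theorem tv_surj (a : Fin k → ℤ) : ∃ g, c.tv g = a := by
  exact (c.τ_surj (Multiplicative.ofAdd a)).imp fun g hg => congrArg Multiplicative.toAdd hg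

theorem exists_exp_mul {g g' : c.G} (hg : c.tv g = c.tv g') : ∃ X, g = c.exp X * g' := by
  obtain ⟨X, hX⟩ := (c.tv_eq_zero (g := g * g'⁻¹)).1 (by rw [c.tv_mul, c.tv_inv, hg, add_neg_cancel])
  exact ⟨X, by rw [hX, inv_mul_cancel_right]⟩

theorem comm_mem_ker (a b : c.G) : ⁅a, b⁆ ∈ c.τ.ker := by
  rw [MonoidHom.mem_ker, map_commutatorElement, commutatorElement_eq_one_iff_mul_comm, mul_comm]

theorem ht_mul (α : Fin k → ℝ) (g g' : c.G) : c.ht α (g * g') = c.ht α g + c.ht α g' := by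
  simp [ht, c.tv_mul, dotProduct, mul_add, Finset.sum_add_distrib]

theorem ht_one (α : Fin k → ℝ) : c.ht α 1 = 0 := by
  simp [ht, c.tv_one, dotProduct]

theorem ht_inv (α : Fin k → ℝ) (g : c.G) : c.ht α g⁻¹ = -c.ht α g := by
  simp [ht, c.tv_inv, dotProduct]

theorem ht_zpow (α : Fin k → ℝ) (g : c.G) (n : ℤ) : c.ht α (g ^ n) = n * c.ht α g := by
  simp [ht, c.tv_zpow, dotProduct, Finset.mul_sum, mul_left_comm]

theorem ht_exp (α : Fin k → ℝ) (X : V h) : c.ht α (c.exp X) = 0 := by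
  simp [ht, c.tv_exp, dotProduct]

theorem ht_add (α β : Fin k → ℝ) (g : c.G) : c.ht (α + β) g = c.ht α g + c.ht β g := by
  exact add_dotProduct _ _ _

theorem ht_zero (g : c.G) : c.ht 0 g = 0 := by
  exact zero_dotProduct _

theorem ht_congr (α : Fin k → ℝ) {g g' : c.G} (hg : c.tv g = c.tv g') : c.ht α g = c.ht α g' := by
  rw [ht, ht, hg]

theorem ht_list_prod (α : Fin k → ℝ) (l : List c.G) : c.ht α l.prod = (l.map (c.ht α)).sum := by
  induction l with
  | nil => exact c.ht_one α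
  | cons g l ih => rw [List.prod_cons, c.ht_mul, ih, List.map_cons, List.sum_cons]

theorem abs_ht_le (α : Fin k → ℝ) (g : c.G) {R : ℝ} (hR : ∀ i, |(c.tv g i : ℝ)| ≤ R) : |c.ht α g| ≤ (∑ i, |α i|) * R := by
  rw [Finset.sum_mul, ht, dotProduct]
  refine (Finset.abs_sum_le_sum_abs _ _).trans (Finset.sum_le_sum fun i _ => ?_)
  rw [abs_mul]
  exact mul_le_mul_of_nonneg_left (hR i) (abs_nonneg _)

/-- evaluate at elements with `tv g = Pi.single i 1` -/
theorem ht_ext {C : Subgroup c.G} (hC : ∀ a, ∃ g ∈ C, c.tv g = a) {α β : Fin k → ℝ} (hh : ∀ g ∈ C, c.ht α g = c.ht β g) :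
    α = β := by
  funext i
  obtain ⟨g, hg, e⟩ := hC (Pi.single i 1)
  simpa [ht, e, dotProduct, Pi.single_apply] using hh g hg

/-- `α i = f gᵢ` with `tv gᵢ = Pi.single i 1`; `f - ht α` is additive on `C`, depends only on `tv`, and vanishes on generators -/
theorem exists_form {C : Subgroup c.G} (hC : ∀ a, ∃ g ∈ C, c.tv g = a) (f : c.G → ℝ)
    (hf : ∀ g ∈ C, ∀ g' ∈ C, f (g * g') = f g + f g') (h0 : ∀ g ∈ C, c.tv g = 0 → f g = 0) :
    ∃ α, ∀ g ∈ C, f g = c.ht α g := by
  choose s hs ht using hC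
  have h1 : ∀ g ∈ C, ∀ g' ∈ C, c.tv g = c.tv g' → f g = f g' := fun g hg g' hg' e => by
    have hm := C.mul_mem hg (C.inv_mem hg')
    rw [← inv_mul_cancel_right g g', hf _ hm _ hg', h0 _ hm (by rw [c.tv_mul, c.tv_inv, e, add_neg_cancel]), zero_add]
  let φ : (Fin k → ℤ) →+ ℝ := AddMonoidHom.mk' (fun a => f (s a)) fun a b => by
    rw [← hf _ (hs a) _ (hs b)]
    exact h1 _ (hs _) _ (C.mul_mem (hs a) (hs b)) (by rw [c.tv_mul, ht, ht, ht])
  refine ⟨fun i => φ (Pi.single i 1), fun g hg => (h1 _ hg _ (hs _) (ht _).symm).trans ?_⟩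
  rw [Core.ht, dotProduct]
  change φ (c.tv g) = _
  conv_lhs => rw [pi_eq_sum_univ' (c.tv g), map_sum]
  exact Finset.sum_congr rfl fun i _ => by rw [map_zsmul, zsmul_eq_mul, mul_comm]

theorem Ad_inv_Ad (g : c.G) (X : V h) : c.Ad g⁻¹ (c.Ad g X) = X := by
  rw [← Module.End.mul_apply, ← map_mul, inv_mul_cancel, map_one, Module.End.one_apply]

theorem Ad_Ad_inv (g : c.G) (X : V h) : c.Ad g (c.Ad g⁻¹ X) = X := by
  rw [← Module.End.mul_apply, ← map_mul, mul_inv_cancel, map_one, Module.End.one_apply]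

theorem Ad_bch (g : c.G) (X Y : V h) : c.Ad g (c.bch X Y) = c.bch (c.Ad g X) (c.Ad g Y) := by
  apply c.exp_inj
  rw [← c.exp_bch, ← c.conj, ← c.conj, ← c.conj, ← c.exp_bch]
  group

theorem mul_exp (g : c.G) (X : V h) : g * c.exp X = c.exp (c.Ad g X) * g := by
  rw [← c.conj, inv_mul_cancel_right]

end Core

end Crest.Agent.R182
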