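import Crest.Agent.R182.A.CoreA

/-! R182/A: filtrations, subalgebras and subgroups of a `Core`. -/

set_option autoImplicit false
set_option linter.unusedVariables false
set_option linter.unusedSectionVars false
open Set Filter Topology MeasureTheory Crest.GroupTheory
open scoped Pointwise commutatorElement

noncomputable section
namespace Crest.Agent.R182

namespace Core
variable {h k : ℕ} (c : Core h k)

theorem F_zero : c.F 0 = ⊤ := rfl
theorem F_one : c.F 1 = ⊤ := rfl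
theorem F_succ (i : ℕ) : c.F (i + 2) = Submodule.map₂ c.br ⊤ (c.F (i + 1)) := rfl
theorem F_cl : c.F (c.cl + 1) = ⊥ := c.nilp

theorem F_anti : Antitone c.F := by
  refine antitone_nat_of_succ_le fun i => ?_
  induction i using Nat.strong_induction_on with
  | _ i ih =>
    match i, ih with
    | 0, _ => exact le_top
    | 1, _ => exact le_top
    | i + 2, ih => exact Submodule.map₂_le_map₂_right (ih (i + 1) (by omega))

theorem br_mem_F_succ {i : ℕ} (X : V h) {Y : V h} (hY : Y ∈ c.F i) : c.br X Y ∈ c.F (i + 1) := by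
  cases i with
  | zero => exact Submodule.mem_top
  | succ i => exact Submodule.apply_mem_map₂ _ Submodule.mem_top hY

/-- induction on `i` for all `j` (Jacobi: `[[a, b], Y] = [a, [b, Y]] - [b, [a, Y]]`) -/
theorem br_F {i j : ℕ} {X Y : V h} (hX : X ∈ c.F i) (hY : Y ∈ c.F j) : c.br X Y ∈ c.F (i + j) := by
  induction i using Nat.strong_induction_on generalizing j X Y with
  | _ i ih =>
    match i, ih, hX with
    | 0, _, _ => exact c.F_anti (by omega) (c.br_mem_F_succ X hY)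
    | 1, _, _ => exact c.F_anti (by omega) (c.br_mem_F_succ X hY)
    | i + 2, ih, hX =>
      have key : c.F (i + 2) ≤ (c.F (i + 2 + j)).comap (c.br.flip Y) := by
        rw [F_succ, Submodule.map₂_le]
        intro a _ b hb
        have e : c.br (c.br a b) Y = c.br a (c.br b Y) - c.br b (c.br a Y) := by
          rw [c.jacobi a b Y, add_sub_cancel_right]
        rw [Submodule.mem_comap, LinearMap.flip_apply, e]
        exact sub_mem (c.F_anti (by omega) (c.br_mem_F_succ a (ih (i + 1) (by omega) hb hY)))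
          (c.F_anti (by omega) (ih (i + 1) (by omega) hb (c.br_mem_F_succ a hY)))
      exact key hX

theorem isIdl_F (i : ℕ) : c.IsIdl (c.F i) := by
  exact fun X Y hY => c.F_anti (Nat.le_succ i) (c.br_mem_F_succ X hY)

theorem Ad_F (g : c.G) {i : ℕ} {X : V h} (hX : X ∈ c.F i) : c.Ad g X ∈ c.F i := by
  induction i using Nat.strong_induction_on generalizing X with
  | _ i ih =>
    match i, ih, hX with
    | 0, _, _ => exact Submodule.mem_top
    | 1, _, _ => exact Submodule.mem_top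
    | i + 2, ih, hX =>
      have key : c.F (i + 2) ≤ (c.F (i + 2)).comap (c.Ad g) := by
        conv_lhs => rw [F_succ]
        rw [Submodule.map₂_le]
        intro a _ b hb
        rw [Submodule.mem_comap, c.Ad_br]
        exact c.br_mem_F_succ _ (ih (i + 1) (by omega) hb)
      exact key hX

theorem IsIdl.isSub {U : Submodule ℝ (V h)} (hU : c.IsIdl U) : c.IsSub U := fun X _ Y hY => hU X Y hY

theorem br_pow_cl (X : V h) : (c.br X : Module.End ℝ (V h)) ^ c.cl = 0 := by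
  have key : ∀ (n : ℕ) (Y : V h), ((c.br X : Module.End ℝ (V h)) ^ n) Y ∈ c.F (n + 1) := fun n Y => by
    induction n with
    | zero => exact Submodule.mem_top
    | succ n ih =>
      rw [pow_succ', Module.End.mul_apply]
      exact c.br_mem_F_succ X ih
  refine LinearMap.ext fun Y => ?_
  have := key c.cl Y
  rwa [F_cl, Submodule.mem_bot] at this

theorem bch_sub_mem {U : Submodule ℝ (V h)} {X Y : V h} (h0 : c.br X Y ∈ U) (hX : ∀ Z ∈ U, c.br X Z ∈ U)
    (hY : ∀ Z ∈ U, c.br Y Z ∈ U) : c.bch X Y - X - Y ∈ U := by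
  have key : ∀ w : List Bool, nest c.br X Y w ∈ U := fun w => by
    induction w with
    | nil => exact h0
    | cons b w ih =>
      cases b
      · exact hY _ ih
      · exact hX _ ih
  have e : c.bch X Y - X - Y = ∑ w ∈ c.ws, c.coef w • nest c.br X Y w := by
    rw [bch, bchF]
    abel
  rw [e]
  exact U.sum_mem fun w _ => U.smul_mem _ (key w)

theorem bch_sub_mem_F {i j : ℕ} {X Y : V h} (hX : X ∈ c.F i) (hY : Y ∈ c.F j) : c.bch X Y - X - Y ∈ c.F (i + j) := by
  exact c.bch_sub_mem (c.br_F hX hY) (c.isIdl_F _ X) (c.isIdl_F _ Y)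

/-- if `cl = 0` the space is trivial -/
theorem Ad_exp_sub_mem {U : Submodule ℝ (V h)} {X Y : V h} (h0 : c.br X Y ∈ U) (hX : ∀ Z ∈ U, c.br X Z ∈ U) :
    c.Ad (c.exp X) Y - Y ∈ U := by
  have key : ∀ n : ℕ, ((c.br X : Module.End ℝ (V h)) ^ (n + 1)) Y ∈ U := fun n => by
    induction n with
    | zero => simpa using h0
    | succ n ih =>
      rw [pow_succ', Module.End.mul_apply]
      exact hX _ ih
  rcases Nat.eq_zero_or_pos c.cl with h1 | h1
  · have h2 : Y ∈ c.F (c.cl + 1) := by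
      rw [h1]
      exact Submodule.mem_top
    rw [F_cl, Submodule.mem_bot] at h2
    simp [h2]
  · obtain ⟨n, hn⟩ := Nat.exists_eq_succ_of_ne_zero h1.ne'
    rw [c.Ad_exp, hn, ex, Finset.sum_range_succ', LinearMap.add_apply, LinearMap.sum_apply]
    simp only [Nat.factorial_zero, Nat.cast_one, inv_one, pow_zero, one_smul, Module.End.one_apply,
      add_sub_cancel_right, LinearMap.smul_apply]
    exact U.sum_mem fun i _ => U.smul_mem _ (key i)

theorem IsSub.bch_mem {U : Submodule ℝ (V h)} (hU : c.IsSub U) {X Y : V h} (hX : X ∈ U) (hY : Y ∈ U) : c.bch X Y ∈ U := by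
  have := U.add_mem (U.add_mem (c.bch_sub_mem (hU X hX Y hY) (hU X hX) (hU Y hY)) hY) hX
  simpa using this

theorem mem_expSub {U : Submodule ℝ (V h)} (hU : c.IsSub U) {g : c.G} : g ∈ c.expSub U ↔ ∃ X ∈ U, c.exp X = g := by
  refine ⟨fun hg => ?_, fun ⟨X, hX, e⟩ => Subgroup.subset_closure ⟨X, hX, e⟩⟩
  induction hg using Subgroup.closure_induction with
  | mem x hx => exact hx
  | one => exact ⟨0, U.zero_mem, c.exp_zero⟩
  | mul x y _ _ hx hy =>
    obtain ⟨X, hX, rfl⟩ := hx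
    obtain ⟨Y, hY, rfl⟩ := hy
    exact ⟨c.bch X Y, IsSub.bch_mem c hU hX hY, (c.exp_bch X Y).symm⟩
  | inv x _ hx =>
    obtain ⟨X, hX, rfl⟩ := hx
    exact ⟨-X, U.neg_mem hX, c.exp_neg X⟩

theorem exp_mem_expSub {U : Submodule ℝ (V h)} (hU : c.IsSub U) {X : V h} : c.exp X ∈ c.expSub U ↔ X ∈ U := by
  rw [c.mem_expSub hU]
  exact ⟨fun ⟨Y, hY, e⟩ => c.exp_inj e ▸ hY, fun hX => ⟨X, hX, rfl⟩⟩

/-- `br (-X') X = br (-X') (X - X') ∈ U`, `bch_sub_mem` (for `→` note `br (-X') (bch (-X') X) ∈ U`; or apply `←`-type reasoning to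
`exp X = exp X' * exp Z`) -/
theorem inv_mul_mem_expSub {U : Submodule ℝ (V h)} (hU : c.IsIdl U) {X X' : V h} :
    (c.exp X')⁻¹ * c.exp X ∈ c.expSub U ↔ X - X' ∈ U := by
  rw [← c.exp_neg, c.exp_bch, c.exp_mem_expSub (IsIdl.isSub c hU)]
  refine ⟨fun hZ => ?_, fun hX => ?_⟩
  · have e : c.bch X' (c.bch (-X') X) = X := c.exp_inj (by
      rw [← c.exp_bch, ← c.exp_bch, c.exp_neg, mul_inv_cancel_left])
    have := c.bch_sub_mem (hU X' _ hZ) (hU X') (hU _)
    rw [e] at this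
    simpa using U.add_mem this hZ
  · have h0 : c.br (-X') X ∈ U := by
      have := hU (-X') _ hX
      rwa [map_sub, map_neg c.br, LinearMap.neg_apply (x := X'), c.br_self, neg_zero, sub_zero, ← map_neg] at this
    have := U.add_mem (c.bch_sub_mem h0 (hU _) (hU _)) hX
    rwa [show c.bch (-X') X - -X' - X + (X - X') = c.bch (-X') X by abel] at this

theorem conj_mem_expSub {U : Submodule ℝ (V h)} (hU : c.IsSub U) {g x : c.G} (hg : ∀ X ∈ U, c.Ad g X ∈ U)
    (hx : x ∈ c.expSub U) : g * x * g⁻¹ ∈ c.expSub U := by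
  obtain ⟨X, hX, rfl⟩ := (c.mem_expSub hU).1 hx
  rw [c.conj, c.exp_mem_expSub hU]
  exact hg X hX

theorem expSub_top : c.expSub ⊤ = c.τ.ker := by
  ext g
  rw [c.mem_expSub fun _ _ _ _ => Submodule.mem_top, MonoidHom.mem_ker, c.τ_ker]
  simp

theorem expSub_bot : c.expSub ⊥ = ⊥ := by
  ext g
  rw [c.mem_expSub fun X hX Y hY => by rw [(Submodule.mem_bot ℝ).1 hY, map_zero]; exact Submodule.zero_mem _]
  simp [c.exp_zero, eq_comm]

/-- a subspace is an ideal iff it is invariant under `Ad (exp X)` (`mem_of_ex_mem`) -/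
theorem isIdl_iff {U : Submodule ℝ (V h)} : c.IsIdl U ↔ ∀ X, ∀ Y ∈ U, c.Ad (c.exp X) Y ∈ U := by
  refine ⟨fun hU X Y hY => ?_, fun hU X => mem_of_ex_mem (c.br_pow_cl X) fun Y hY => ?_⟩
  · simpa using U.add_mem (c.Ad_exp_sub_mem (hU X Y hY) (hU X)) hY
  · rw [← c.Ad_exp]
    exact hU X Y hY

/-- each factor `Ad (exp X) - 1` maps `F i` to `F (i + 1)` -/
theorem unip : Unip c.Ad c.τ.ker c.cl := by
  have key : ∀ l : List c.G, (∀ x ∈ l, x ∈ c.τ.ker) → ∀ Y : V h,
      (l.map fun x => c.Ad x - 1).prod Y ∈ c.F (l.length + 1) := fun l hl Y => by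
    induction l with
    | nil => exact Submodule.mem_top
    | cons x l ih =>
      obtain ⟨X, rfl⟩ := (c.τ_ker x).1 (hl x List.mem_cons_self)
      rw [List.map_cons, List.prod_cons, Module.End.mul_apply, LinearMap.sub_apply, Module.End.one_apply]
      exact c.Ad_exp_sub_mem (c.br_mem_F_succ X (ih fun y hy => hl y (List.mem_cons_of_mem _ hy))) (c.isIdl_F _ X)
  intro l h1 h2
  refine LinearMap.ext fun Y => ?_
  have := key l h2 Y
  rwa [h1, F_cl, Submodule.mem_bot] at this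

theorem unipC : Unip c.AdC c.τ.ker c.cl := by
  intro l h1 h2
  have := congrArg (cx h) (c.unip l h1 h2)
  rw [map_list_prod, List.map_map, map_zero] at this
  rw [← this]
  congr 1
  refine List.map_congr_left fun x _ => ?_
  rw [Function.comp_apply, map_sub, map_one]
  rfl

/-- `F i ≤ U ⊔ F (i + 1)` for all `i ≥ 1` by induction -/
theorem IsSub.eq_top {U : Submodule ℝ (V h)} (hU : c.IsSub U) (h2 : U ⊔ c.F 2 = ⊤) : U = ⊤ := by
  have key : ∀ i : ℕ, c.F (i + 1) ≤ (U ⊓ c.F (i + 1)) ⊔ c.F (i + 2) := fun i => by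
    induction i with
    | zero => rw [Nat.zero_add, F_one, inf_top_eq, h2]
    | succ i ih =>
      conv_lhs => rw [F_succ]
      rw [Submodule.map₂_le]
      intro a ha b hb
      rw [← h2] at ha
      obtain ⟨u, hu, a', ha', rfl⟩ := Submodule.mem_sup.1 ha
      obtain ⟨v, hv, b', hb', rfl⟩ := Submodule.mem_sup.1 (ih hb)
      have e : c.br (u + a') (v + b') = c.br u v + (c.br a' v + c.br (u + a') b') := by
        simp only [map_add, LinearMap.add_apply]
        abel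
      rw [e]
      refine Submodule.add_mem_sup ⟨hU u hu v hv.1, c.br_mem_F_succ u hv.2⟩ (add_mem ?_ (c.br_mem_F_succ _ hb'))
      exact c.F_anti (by omega) (c.br_F ha' hv.2)
  have key2 : ∀ i : ℕ, ⊤ ≤ U ⊔ c.F (i + 1) := fun i => by
    induction i with
    | zero => exact le_sup_right
    | succ i ih =>
      exact ih.trans (sup_le le_sup_left ((key i).trans (sup_le_sup_right inf_le_left _)))
  have := key2 c.cl
  rwa [F_cl, sup_bot_eq, top_le_iff] at this

theorem corebb_clm : ∃ L : V h →L[ℝ] V h →L[ℝ] V h, ∀ X Y, L X Y = c.br X Y :=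
  ⟨LinearMap.toContinuousLinearMap ((LinearMap.toContinuousLinearMap (𝕜 := ℝ) (E := V h) (F' := V h)).toLinearMap ∘ₗ
    c.br), fun _ _ => rfl⟩

theorem corebb_br {α : Type*} [TopologicalSpace α] {f g : α → V h} (hf : Continuous f) (hg : Continuous g) :
    Continuous fun a => c.br (f a) (g a) := by
  obtain ⟨L, hL⟩ := c.corebb_clm
  simp only [← hL]
  exact (L.continuous.comp hf).clm_apply hg

theorem continuous_bch : Continuous fun p : V h × V h => c.bch p.1 p.2 := by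
  refine (continuous_fst.add continuous_snd).add (continuous_finsetSum _ fun w hw => Continuous.fun_const_smul ?_ _)
  clear hw
  induction w with
  | nil => exact c.corebb_br continuous_fst continuous_snd
  | cons b w ih =>
    cases b
    · exact c.corebb_br continuous_snd ih
    · exact c.corebb_br continuous_fst ih

theorem continuous_Ad_exp : Continuous fun p : V h × V h => c.Ad (c.exp p.1) p.2 := by
  simp only [c.Ad_exp, ex, LinearMap.sum_apply, LinearMap.smul_apply]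
  refine continuous_finsetSum _ fun i hi => Continuous.fun_const_smul ?_ _
  clear hi
  induction i with
  | zero => exact continuous_snd
  | succ i ih =>
    simp only [pow_succ', Module.End.mul_apply]
    exact c.corebb_br continuous_fst ih

theorem exists_norm_br : ∃ B : ℝ, 0 ≤ B ∧ ∀ X Y, ‖c.br X Y‖ ≤ B * ‖X‖ * ‖Y‖ := by
  obtain ⟨L, hL⟩ := c.corebb_clm
  exact ⟨‖L‖, L.opNorm_nonneg, fun X Y => hL X Y ▸ L.le_opNorm₂ X Y⟩

theorem exists_norm_Ad (g : c.G) : ∃ B : ℝ, 0 ≤ B ∧ ∀ X, ‖c.Ad g X‖ ≤ B * ‖X‖ := by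
  exact ⟨_, norm_nonneg _, (LinearMap.toContinuousLinearMap (c.Ad g)).le_opNorm⟩

theorem corebc_br {i : ℕ} (Y Z : V h) {p Z' : V h} (hp : p ∈ c.F i) (hZ : c.br Y (Z' - Z) ∈ c.F (i + 1)) :
    c.br (Y + p) Z' - c.br Y Z ∈ c.F (i + 1) := by
  convert sub_mem hZ (c.br_mem_F_succ Z' hp) using 1
  rw [c.br_anti Z' p, map_add, map_sub, LinearMap.add_apply]
  abel

theorem corebc_nest {i : ℕ} (Y Z : V h) {p q : V h} (hp : p ∈ c.F i) (hq : q ∈ c.F i) (w : List Bool) :
    nest c.br (Y + p) (Z + q) w - nest c.br Y Z w ∈ c.F (i + 1) := by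
  induction w with
  | nil => exact c.corebc_br Y Z hp (c.br_mem_F_succ Y (by simpa using hq))
  | cons b w ih =>
    cases b
    · exact c.corebc_br Z _ hq (c.isIdl_F _ Z _ ih)
    · exact c.corebc_br Y _ hp (c.isIdl_F _ Y _ ih)

/-- By induction on `i ≥ 1`: `exp X = exp Y * exp Z * exp R` with `R ∈ F i`.  Step: `R = a + b`-decomposition modulo `F (i + 1)` has to stay in
`F i`, whence the hypothesis `hF`; `bch_sub_mem_F`. -/
theorem exists_mul_decomp {a b : Submodule ℝ (V h)} (hF : ∀ i, c.F i ≤ (c.F i ⊓ a) ⊔ (c.F i ⊓ b)) (X : V h) :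
    ∃ Y ∈ a, ∃ Z ∈ b, c.exp X = c.exp Y * c.exp Z := by
  have key : ∀ i, ∃ Y ∈ a, ∃ Z ∈ b, X - c.bch Y Z ∈ c.F (i + 1) := fun i => by
    induction i with
    | zero => exact ⟨0, a.zero_mem, 0, b.zero_mem, trivial⟩
    | succ i ih =>
      obtain ⟨Y, hY, Z, hZ, hR⟩ := ih
      obtain ⟨p, hp, q, hq, e⟩ := Submodule.mem_sup.1 (hF _ hR)
      refine ⟨Y + p, a.add_mem hY hp.2, Z + q, b.add_mem hZ hq.2, ?_⟩
      have h := Submodule.sum_mem _ fun w (_ : w ∈ c.ws) =>
        Submodule.smul_mem _ (c.coef w) (c.corebc_nest Y Z hp.1 hq.1 w)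
      simp only [smul_sub, Finset.sum_sub_distrib] at h
      convert neg_mem h using 1
      rw [eq_add_of_sub_eq' e.symm]
      simp only [bch, bchF]
      abel
  obtain ⟨Y, hY, Z, hZ, h⟩ := key c.cl
  rw [F_cl, Submodule.mem_bot, sub_eq_zero] at h
  exact ⟨Y, hY, Z, hZ, by rw [exp_bch, h]⟩

theorem corebc_step {γ : c.G} {U U' : Submodule ℝ (V h)} (hle : U' ≤ U) (hb : ∀ X, ∀ Y ∈ U, c.br X Y ∈ U')
    (h1 : ∀ X ∈ U, c.Ad γ X - X ∈ U') (h2 : ∀ X ∈ U', c.Ad γ⁻¹ X ∈ U') :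
    ⁅c.τ.ker ⊔ Subgroup.zpowers γ, c.expSub U⁆ ≤ c.expSub U' := by
  have hi : c.IsIdl U' := fun X Y hY => hb X Y (hle hY)
  let M : Submonoid c.G :=
    { carrier := {g | ∀ X ∈ U, c.Ad g X - X ∈ U'}
      one_mem' := fun X _ => by simp
      mul_mem' := fun {g g'} hg hg' X hX => by
        convert add_mem (add_mem (hg _ (hle (hg' X hX))) (hg' X hX)) (hg X hX) using 1
        simp }
  let S : Subgroup c.G :=
    { carrier := {g | g ∈ M ∧ g⁻¹ ∈ M}
      one_mem' := ⟨M.one_mem, by simp⟩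
      mul_mem' := fun {g g'} hg hg' => ⟨M.mul_mem hg.1 hg'.1, mul_inv_rev g g' ▸ M.mul_mem hg'.2 hg.2⟩
      inv_mem' := fun {g} hg => ⟨hg.2, (inv_inv g).symm ▸ hg.1⟩ }
  have h3 : ∀ g ∈ c.τ.ker, g ∈ M := fun g hg X hX => by
    obtain ⟨Y, rfl⟩ := (c.τ_ker g).1 hg
    exact c.Ad_exp_sub_mem (hb Y X hX) (hi Y)
  have h4 : c.τ.ker ⊔ Subgroup.zpowers γ ≤ S := by
    refine sup_le (fun g hg => ⟨h3 g hg, h3 _ (inv_mem hg)⟩) (Subgroup.zpowers_le.2 ⟨h1, fun X hX => ?_⟩)
    simpa [Ad_inv_Ad] using neg_mem (h2 _ (h1 X hX))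
  refine Subgroup.commutator_le.2 fun g hg x hx => ?_
  obtain ⟨X, hX, rfl⟩ := (c.mem_expSub fun X _ Y hY => hle (hb X Y hY)).1 hx
  rw [commutatorElement_def, c.conj, ← exp_neg, ← inv_inv (c.exp (c.Ad g X)), ← exp_neg, c.inv_mul_mem_expSub hi,
    neg_sub_neg]
  exact (h4 hg).1 X hX

/-- If `U' ≤ U` are `Ad γ`- and `Ad γ⁻¹`-invariant ideals, `[𝔫, U] ≤ U'` and `(Ad γ - 1) U ≤ U'` then `⁅H, expSub U⁆ ≤ expSub U'` for
`H = ker ⊔ ⟨γ⟩`: `{g | Ad g U' ≤ U', Ad g⁻¹ U' ≤ U', (Ad g - 1) U ≤ U'}` is a subgroup containing `γ` and all `exp Y`, and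
`⁅g, exp X⁆ = exp (bch (Ad g X) (-X))`.  Use the chain `U i s = (F i).map ((Ad γ - 1) ^ s) ⊔ F (i + 1)`; by induction on `i`,
`∃ m, itc H H m ≤ expSub (F (i + 1))`; `nilpotent_of_itc`. -/
theorem nilpotent_of_unip {γ : c.G} (hγ : IsNilpotent (c.Ad γ - 1)) :
    Group.IsNilpotent (c.τ.ker ⊔ Subgroup.zpowers γ : Subgroup c.G) := by
  obtain ⟨n, hn⟩ := hγ
  let P : Submodule ℝ (V h) → Prop := fun U =>
    ∃ m, itc (c.τ.ker ⊔ Subgroup.zpowers γ) (c.τ.ker ⊔ Subgroup.zpowers γ) m ≤ c.expSub U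
  have hT : ∀ (s j : ℕ), ∀ X ∈ c.F j, ((c.Ad γ - 1) ^ s) X ∈ c.F j := fun s j X hX => by
    induction s with
    | zero => exact hX
    | succ s ih => rw [pow_succ']; exact sub_mem (c.Ad_F γ ih) ih
  have h1 : ∀ i s, P (c.F i ⊓ (c.F (i + 1)).comap ((c.Ad γ - 1) ^ s)) → P (c.F (i + 1)) := fun i s => by
    induction s with
    | zero => exact fun ⟨m, hm⟩ => ⟨m, hm.trans (Subgroup.closure_mono (image_mono fun X hX => hX.2))⟩
    | succ s ih =>
      refine fun ⟨m, hm⟩ => ih ⟨m + 1, (Subgroup.commutator_mono le_rfl hm).trans (c.corebc_step ?_ ?_ ?_ ?_)⟩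
      · refine fun X hX => ⟨hX.1, ?_⟩
        rw [pow_succ']
        exact sub_mem (c.Ad_F γ hX.2) hX.2
      · exact fun X Y hY => ⟨c.isIdl_F i X Y hY.1, hT s _ _ (c.br_mem_F_succ X hY.1)⟩
      · exact fun X hX => ⟨sub_mem (c.Ad_F γ hX.1) hX.1, by rw [pow_succ] at hX; exact hX.2⟩
      · refine fun X hX => ⟨c.Ad_F _ hX.1, ?_⟩
        have e := (((Commute.refl γ).inv_left.map c.Ad).sub_right (Commute.one_right _)).pow_right s
        exact Submodule.mem_comap.2 (mem_of_eq_of_mem (LinearMap.congr_fun e X).symm (c.Ad_F γ⁻¹ hX.2))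
  have h2 : ∀ i, P (c.F (i + 1)) := fun i => by
    induction i with
    | zero => exact ⟨1, Subgroup.commutator_le.2 fun a _ b _ => by rw [F_one, expSub_top]; exact c.comm_mem_ker a b⟩
    | succ i ih => exact h1 _ n (by simpa [hn] using ih)
  obtain ⟨m, hm⟩ := h2 c.cl
  rw [F_cl, expSub_bot, le_bot_iff] at hm
  exact nilpotent_of_itc hm

end Core

end Crest.Agent.R182
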