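import Crest.Agent.R182.D.Defs
import Crest.Prelude.Def_QuasiIsometry

/-! # R182, block A (the model): definitions (FROZEN; owner helper36)

`P` virtually polycyclic ⇒ finite index `Γ` with `Str Γ k` (A/Grp1-3) ⇒ the nilpotent kernel `N` acts faithfully and unipotently
on its integer valued polynomial functions (`Lin`, A/Swan) ⇒ Malcev completion `U = exp 𝔫` (`Pre`, A/Log, A/BCH, A/Mal) ⇒
`G = U.Γ` (`Core` + `Arith`, A/Ext) ⇒ root grading and supplement `C` (`Grading`, A/Tri, A/Dyn, A/Cartan, A/Grade) ⇒ adapted basis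
(`Model`, A/Basis) ⇒ quasi-isometry `P → M.G` (A/QI, A/Main). -/

set_option autoImplicit false
set_option linter.unusedVariables false
set_option linter.unusedSectionVars false
open Set Filter Topology MeasureTheory Crest.GroupTheory
open scoped Pointwise commutatorElement

noncomputable section
namespace Crest.Agent.R182

section Grp
variable {G : Type*} [Group G]

/-- poly-infinite-cyclic subgroups -/
inductive PZ : Subgroup G → Prop
  | bot : PZ ⊥
  | step (H : Subgroup G) (g : G) : PZ H → Nz g H → (∀ n : ℤ, g ^ n ∈ H → n = 0) → PZ (H ⊔ Subgroup.zpowers g)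

/-- iterated commutators `[N, [N, … [N, K]]]` -/
def itc (N K : Subgroup G) : ℕ → Subgroup G
  | 0 => K
  | i + 1 => ⁅N, itc N K i⁆

/-- `N` acts unipotently: products of `c` elements `ρ x - 1`, `x ∈ N`, vanish -/
def Unip {R : Type*} [Ring R] (ρ : G →* R) (N : Subgroup G) (c : ℕ) : Prop :=
  ∀ l : List G, l.length = c → (∀ x ∈ l, x ∈ N) → (l.map fun x => ρ x - 1).prod = 0

/-- preimage of the torsion subgroup of the abelianisation of `K` -/
def isol (K : Subgroup G) : Subgroup G := Subgroup.closure {a | a ∈ K ∧ ∃ n : ℕ, 0 < n ∧ a ^ n ∈ ⁅K, K⁆}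

/-- (maximal nilpotent, poly-`ℤ`)-by-`ℤ ^ k` -/
structure Str (Γ : Type*) [Group Γ] (k : ℕ) where
  τ : Γ →* Multiplicative (Fin k → ℤ)
  surj : Function.Surjective τ
  pz : PZ (⊤ : Subgroup τ.ker)
  nil : Group.IsNilpotent τ.ker
  max : ∀ N : Subgroup Γ, τ.ker ≤ N → Group.IsNilpotent N → N = τ.ker

/-- the difference operator `f ↦ (y ↦ f (y * x) - f y)` -/
def dl (x : G) : Module.End ℤ (G → ℤ) := LinearMap.funLeft ℤ ℤ (fun y => y * x) - 1

/-- integer valued polynomial functions of degree `< c` -/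
def Pol (G : Type*) [Group G] : ℕ → Submodule ℤ (G → ℤ)
  | 0 => ⊥
  | c + 1 => ⨅ x : G, (Pol G c).comap (dl x)

/-- polynomial functions of degree `< c` separate points -/
def Sep (G : Type*) [Group G] (c : ℕ) : Prop := ∀ x : G, x ≠ 1 → ∃ f ∈ Pol G c, f x ≠ f 1

/-- a faithful unipotent integral representation of `N` on which conjugation by `G` is implemented -/
structure Lin (N : Subgroup G) (d c : ℕ) where
  ρ : N →* Matrix (Fin d) (Fin d) ℤ
  κ : G →* Matrix (Fin d) (Fin d) ℤ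
  inj : Function.Injective ρ
  unip : Unip ρ ⊤ c
  conj : ∀ (γ : G) (x y : N), (y : G) = γ * x * γ⁻¹ → κ γ * ρ x = ρ y * κ γ

/-- a strictly increasing flag of `U₀` on whose quotients `H` acts by scalars -/
structure Flag {E : Type*} [AddCommGroup E] [Module ℂ E] (ρ : G →* Module.End ℂ E) (H : Subgroup G)
    (U₀ : Submodule ℂ E) (n : ℕ) where
  U : ℕ → Submodule ℂ E
  χ : ℕ → G → ℂ
  zero : U 0 = ⊥
  top : U n = U₀
  lt : ∀ j < n, U j < U (j + 1)
  step : ∀ j < n, ∀ g ∈ H, ∀ v ∈ U (j + 1), ρ g v - χ j g • v ∈ U j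

/-- vectors that grow like `exp (b * j)` (up to polynomial factors) under `t ^ j`, `j : ℤ` -/
def dyn {𝕜 E : Type*} [NormedField 𝕜] [NormedAddCommGroup E] [NormedSpace 𝕜 E] (ρ : G →* Module.End 𝕜 E) (t : G)
    (b : ℝ) : Submodule 𝕜 E where
  carrier := {v | ∃ (C : ℝ) (D : ℕ), 0 ≤ C ∧ ∀ j : ℤ, ‖ρ (t ^ j) v‖ ≤ C * (1 + |(j : ℝ)|) ^ D * Real.exp (b * j)}
  zero_mem' := ⟨0, 0, le_rfl, fun j => by simp⟩
  add_mem' := by
    rintro v w ⟨C, D, hC, h⟩ ⟨C', D', hC', h'⟩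
    refine ⟨C + C', D + D', by positivity, fun j => ?_⟩
    have h1 : (1 : ℝ) ≤ 1 + |(j : ℝ)| := by simp
    have h2 := pow_le_pow_right₀ h1 (Nat.le_add_right D D')
    have h3 := pow_le_pow_right₀ h1 (Nat.le_add_left D' D)
    have h4 := (Real.exp_pos (b * j)).le
    rw [map_add, add_mul, add_mul]
    refine (norm_add_le _ _).trans (add_le_add ((h j).trans ?_) ((h' j).trans ?_)) <;> gcongr
  smul_mem' := by
    rintro a v ⟨C, D, hC, h⟩
    refine ⟨‖a‖ * C, D, by positivity, fun j => ?_⟩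
    rw [map_smul, norm_smul, mul_assoc, mul_assoc, ← mul_assoc C]
    exact mul_le_mul_of_nonneg_left (h j) (norm_nonneg a)

end Grp

section Alg
variable {A : Type*} [Ring A] [Algebra ℝ A]

/-- truncated exponential -/
def ex (c : ℕ) (X : A) : A := ∑ i ∈ Finset.range c, ((i.factorial : ℝ)⁻¹) • X ^ i

/-- truncated logarithm -/
def lg (c : ℕ) (g : A) : A := ∑ i ∈ Finset.range c, ((-1 : ℝ) ^ (i + 1) / i) • (g - 1) ^ i

/-- a nilpotent non-unital subalgebra -/
structure Nil (J : Submodule ℝ A) (c : ℕ) : Prop where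
  mul : J * J ≤ J
  pow : J ^ c = ⊥

/-- the commutator bracket -/
def lie (A : Type*) [Ring A] [Algebra ℝ A] : A →ₗ[ℝ] A →ₗ[ℝ] A := LinearMap.mul ℝ A - (LinearMap.mul ℝ A).flip

variable {n : Type*} [AddCommGroup n] [Module ℝ n]

/-- the right-nested bracket `[z₁, [z₂, … [X, Y]]]` with letters `X` (true), `Y` (false) -/
def nest (br : n →ₗ[ℝ] n →ₗ[ℝ] n) (X Y : n) (w : List Bool) : n :=
  w.foldr (fun b Z => br (if b then X else Y) Z) (br X Y)

/-- the Baker-Campbell-Hausdorff polynomial with given coefficients -/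
def bchF (br : n →ₗ[ℝ] n →ₗ[ℝ] n) (ws : Finset (List Bool)) (coef : List Bool → ℝ) (X Y : n) : n :=
  X + Y + ∑ w ∈ ws, coef w • nest br X Y w

/-- lower central series, `lcs 0 = lcs 1 = ⊤` -/
def lcs (br : n →ₗ[ℝ] n →ₗ[ℝ] n) : ℕ → Submodule ℝ n
  | 0 => ⊤
  | 1 => ⊤
  | i + 2 => Submodule.map₂ br ⊤ (lcs br (i + 1))

end Alg

/-- the Lie algebra -/
abbrev V (h : ℕ) : Type := Fin h → ℝ

/-- integer vectors -/
def IsInt {ι : Type*} (X : ι → ℝ) : Prop := ∀ j, ∃ z : ℤ, X j = z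

/-- complexification of operators -/
def cx (h : ℕ) : Module.End ℝ (V h) →+* Module.End ℂ (Fin h → ℂ) :=
  (Matrix.toLinAlgEquiv' (R := ℂ) (n := Fin h)).toRingEquiv.toRingHom.comp (Complex.ofRealHom.mapMatrix.comp
    (LinearMap.toMatrixAlgEquiv' (R := ℝ) (n := Fin h)).toRingEquiv.toRingHom)

def reV {h : ℕ} (v : Fin h → ℂ) : V h := fun j => (v j).re
def imV {h : ℕ} (v : Fin h → ℂ) : V h := fun j => (v j).im
def emb {h : ℕ} (X : V h) : Fin h → ℂ := fun j => (X j : ℂ)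

/-- complexification of subspaces -/
def cxS {h : ℕ} (U : Submodule ℝ (V h)) : Submodule ℂ (Fin h → ℂ) where
  carrier := {v | reV v ∈ U ∧ imV v ∈ U}
  zero_mem' := ⟨U.zero_mem, U.zero_mem⟩
  add_mem' := fun h h' => ⟨U.add_mem h.1 h'.1, U.add_mem h.2 h'.2⟩
  smul_mem' := by
    rintro a v ⟨h1, h2⟩
    have e1 : reV (a • v) = a.re • reV v - a.im • imV v := by ext j; simp [reV, imV]
    have e2 : imV (a • v) = a.re • imV v + a.im • reV v := by ext j; simp [reV, imV]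
    exact ⟨e1 ▸ U.sub_mem (U.smul_mem _ h1) (U.smul_mem _ h2), e2 ▸ U.add_mem (U.smul_mem _ h2) (U.smul_mem _ h1)⟩

/-- coordinate weight spaces -/
def coordW {h k : ℕ} (wt : Fin h → Fin k → ℝ) (α : Fin k → ℝ) : Submodule ℝ (V h) :=
  ⨅ j : {j // wt j ≠ α}, LinearMap.ker (LinearMap.proj (R := ℝ) (φ := fun _ : Fin h => ℝ) j.1)

/-- A group `G`, extension of `ℤ ^ k` by the simply connected nilpotent Lie group `exp 𝔫`, `𝔫 = V h`. -/
structure Core (h k : ℕ) where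
  G : Type
  [grp : Group G]
  br : V h →ₗ[ℝ] V h →ₗ[ℝ] V h
  br_self : ∀ X, br X X = 0
  jacobi : ∀ X Y Z, br X (br Y Z) = br (br X Y) Z + br Y (br X Z)
  cl : ℕ
  nilp : lcs br (cl + 1) = ⊥
  exp : V h → G
  exp_inj : Function.Injective exp
  ws : Finset (List Bool)
  coef : List Bool → ℝ
  exp_mul : ∀ X Y, exp X * exp Y = exp (bchF br ws coef X Y)
  Ad : G →* Module.End ℝ (V h)
  conj : ∀ g X, g * exp X * g⁻¹ = exp (Ad g X)
  Ad_br : ∀ g X Y, Ad g (br X Y) = br (Ad g X) (Ad g Y)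
  Ad_exp : ∀ X, Ad (exp X) = ex cl (br X)
  τ : G →* Multiplicative (Fin k → ℤ)
  τ_surj : Function.Surjective τ
  τ_ker : ∀ g, τ g = 1 ↔ ∃ X, exp X = g

attribute [instance] Core.grp

namespace Core
variable {h k : ℕ} (c : Core h k)

/-- the group law in exponential coordinates -/
def bch (X Y : V h) : V h := bchF c.br c.ws c.coef X Y
/-- lower central series -/
def F (i : ℕ) : Submodule ℝ (V h) := lcs c.br i
/-- the class of `g` in `ℤ ^ k` -/
def tv (g : c.G) : Fin k → ℤ := Multiplicative.toAdd (c.τ g)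
/-- the height of `g` for the linear form `α` -/
def ht (α : Fin k → ℝ) (g : c.G) : ℝ := α ⬝ᵥ fun i => (c.tv g i : ℝ)
/-- the complexified adjoint representation -/
def AdC : c.G →* Module.End ℂ (Fin h → ℂ) := (cx h).toMonoidHom.comp c.Ad
/-- Lie subalgebras -/
def IsSub (U : Submodule ℝ (V h)) : Prop := ∀ X ∈ U, ∀ Y ∈ U, c.br X Y ∈ U
/-- ideals -/
def IsIdl (U : Submodule ℝ (V h)) : Prop := ∀ X, ∀ Y ∈ U, c.br X Y ∈ U
/-- the subgroup `exp U` (for a subalgebra `U`, see `mem_expSub`) -/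
def expSub (U : Submodule ℝ (V h)) : Subgroup c.G := Subgroup.closure (c.exp '' U)

/-- lattices -/
structure Lat (Γ : Subgroup c.G) : Prop where
  surj : ∀ a, ∃ γ ∈ Γ, c.tv γ = a
  fin : ∀ R : ℝ, {X | c.exp X ∈ Γ ∧ ‖X‖ ≤ R}.Finite
  cc : ∃ R : ℝ, ∀ X, ∃ γ ∈ Γ, ∃ Y, ‖Y‖ ≤ R ∧ c.exp X = γ * c.exp Y

/-- the standard basis is integral -/
structure Arith (Γ : Subgroup c.G) : Prop where
  lat : c.Lat Γ
  int_br : ∀ X Y, IsInt X → IsInt Y → IsInt (c.br X Y)
  int_Ad : ∀ γ ∈ Γ, ∀ X, IsInt X → IsInt (c.Ad γ X)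
  unip : ∀ γ ∈ Γ, IsNilpotent (c.Ad γ - 1) → c.τ γ = 1

/-- root grading and the supplement `C` -/
structure Grading (C : Subgroup c.G) (W : (Fin k → ℝ) → Submodule ℝ (V h)) : Prop where
  indep : iSupIndep W
  graded : ∀ U : Submodule ℝ (V h), (∀ g ∈ C, ∀ X ∈ U, c.Ad g X ∈ U) → U ≤ ⨆ α, U ⊓ W α
  br_W : ∀ α β, ∀ X ∈ W α, ∀ Y ∈ W β, c.br X Y ∈ W (α + β)
  C_surj : ∀ a, ∃ g ∈ C, c.tv g = a
  C_exp : ∀ X, c.exp X ∈ C ↔ X ∈ W 0
  C_W : ∀ g ∈ C, ∀ α, ∀ X ∈ W α, c.Ad g X ∈ W α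
  growth : ∀ R : ℝ, ∃ (B : ℝ) (D : ℕ), 0 ≤ B ∧ ∀ l : List c.G,
    (∀ g ∈ l, g ∈ C ∧ (∀ X, ‖c.Ad g X‖ ≤ R * ‖X‖) ∧ ∀ i, |(c.tv g i : ℝ)| ≤ R) →
      ∀ α, ∀ X ∈ W α, ‖c.Ad l.prod X‖ ≤ B * (1 + l.length) ^ D * Real.exp (c.ht α l.prod) * ‖X‖

/-- unimodularity on every term of the lower central series -/
def Unimod : Prop := ∀ (g : c.G) (i : ℕ) (hi : ∀ X ∈ c.F i, c.Ad g X ∈ c.F i),
  |LinearMap.det ((c.Ad g).restrict hi)| = 1

end Core

/-- the Malcev completion of `N` with the action of `Γ` -/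
structure Pre {Γ : Type} [Group Γ] (N : Subgroup Γ) (h : ℕ) where
  c : Core h 0
  ι : N →* c.G
  inj : Function.Injective ι
  b : Γ →* Module.End ℝ (V h)
  b_br : ∀ γ X Y, b γ (c.br X Y) = c.br (b γ X) (b γ Y)
  b_ι : ∀ (γ : Γ) (x y : N) (X : V h), (y : Γ) = γ * x * γ⁻¹ → ι x = c.exp X → ι y = c.exp (b γ X)
  b_N : ∀ x : N, b x = c.Ad (ι x)
  lat : c.Lat ι.range
  int_br : ∀ X Y, IsInt X → IsInt Y → IsInt (c.br X Y)
  int_b : ∀ γ X, IsInt X → IsInt (b γ X)

/-- The model: the standard basis of `𝔫 = V h` is adapted to the lower central series (`dep`) and to the roots (`wt`). -/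
structure Model (h k : ℕ) extends Core h k where
  C : Subgroup toCore.G
  Γ : Subgroup toCore.G
  dep : Fin h → ℕ
  wt : Fin h → Fin k → ℝ
  mem_F : ∀ i X, X ∈ toCore.F i ↔ ∀ j, dep j < i → X j = 0
  gr : toCore.Grading C (coordW wt)
  lat : toCore.Lat Γ
  unimod : toCore.Unimod
  proper : ∀ a : Fin k → ℝ, (∀ j, wt j ⬝ᵥ a = 0) → a = 0

namespace Model
variable {h k : ℕ} (M : Model h k)

/-- root spaces -/
def W (α : Fin k → ℝ) : Submodule ℝ (V h) := coordW M.wt α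
/-- generators of `C` modulo `exp (W 0)` -/
def gen (i : Fin k) : M.G := Classical.choose (M.gr.C_surj (Pi.single i 1))
/-- a section `ℤ ^ k → C` -/
def sec (a : Fin k → ℤ) : M.G := (List.ofFn fun i => M.gen i ^ a i).prod
/-- `g = exp (lgm g) * sec (tv g)` -/
def lgm (g : M.G) : V h := Function.invFun M.exp (g * (M.sec (M.tv g))⁻¹)
/-- coordinates -/
def chart (g : M.G) : V h × (Fin k → ℤ) := (M.lgm g, M.tv g)
/-- inverse coordinates -/
def par (p : V h × (Fin k → ℤ)) : M.G := M.exp p.1 * M.sec p.2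
/-- the compact generating set -/
def K : Set M.G := M.exp '' Metric.closedBall 0 1 ∪ range M.gen
/-- word length -/
def len (g : M.G) : ℕ := wordLength M.K g
/-- the exponential radical: the ideal generated by the nonzero root spaces -/
def E : Submodule ℝ (V h) := sInf {U | M.IsIdl U ∧ ∀ α, α ≠ 0 → M.W α ≤ U}

instance : TopologicalSpace M.G := TopologicalSpace.induced M.chart inferInstance
instance : MeasurableSpace M.G := borel M.G
instance : BorelSpace M.G := ⟨rfl⟩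
instance : MeasureSpace M.G := ⟨((volume : Measure (V h)).prod (Measure.count : Measure (Fin k → ℤ))).map M.par⟩

end Model

end Crest.Agent.R182
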