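import Crest.Agent.R182.A.Mal

/-! R182/A: the group `exp 𝔫 . Γ`. -/

set_option autoImplicit false
set_option linter.unusedVariables false
set_option linter.unusedSectionVars false
open Set Filter Topology MeasureTheory Crest.GroupTheory
open scoped Pointwise commutatorElement

noncomputable section
namespace Crest.Agent.R182

/-- `G = (U ⋊[act] Γ) ⧸ D`, `D` = range of the homomorphism `x ↦ (inl (ι x))⁻¹ * inr x` (these elements commute with `inl U`);
`SemidirectProduct.lift`, `QuotientGroup.lift` -/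
theorem exists_pushout {Γ U : Type} [Group Γ] [Group U] (N : Subgroup Γ) [N.Normal] (ι : N →* U) (hι : Function.Injective ι)
    (act : Γ →* MulAut U) (h1 : ∀ (γ : Γ) (x y : N), (y : Γ) = γ * x * γ⁻¹ → act γ (ι x) = ι y)
    (h2 : ∀ (x : N) (u : U), act x u = ι x * u * (ι x)⁻¹) :
    ∃ (G : Type) (_ : Group G) (j : U →* G) (i : Γ →* G), Function.Injective j ∧ Function.Injective i ∧
      (∀ γ u, i γ * j u * (i γ)⁻¹ = j (act γ u)) ∧ (∀ x : N, i x = j (ι x)) ∧ (∀ g, ∃ u γ, g = j u * i γ) ∧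
      ∀ (M : Type) [Group M] (a : U →* M) (b : Γ →* M), (∀ γ u, b γ * a u * (b γ)⁻¹ = a (act γ u)) →
        (∀ x : N, b x = a (ι x)) → ∃ f : G →* M, (∀ u, f (j u) = a u) ∧ ∀ γ, f (i γ) = b γ := by
  let d : N →* U ⋊[act] Γ := MonoidHom.mk' (fun x => ⟨(ι x)⁻¹, x⟩) fun x y => by
    ext
    · simp [h2, mul_assoc]
    · simp
  have hd : ∀ x : N, d x = (SemidirectProduct.inl (ι x))⁻¹ * SemidirectProduct.inr (x : Γ) := fun x => by
    ext <;> simp [d]
  have hN : d.range.Normal := ⟨by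
    rintro _ ⟨x, rfl⟩ p
    obtain ⟨y, hy⟩ : ∃ y : N, (y : Γ) = p.right * x * p.right⁻¹ :=
      ⟨⟨_, Subgroup.Normal.conj_mem inferInstance _ x.2 _⟩, rfl⟩
    refine ⟨y, ?_⟩
    have e1 := h1 p.right x y hy
    have e2 : act (p.right * x) (act p.right⁻¹ p.left⁻¹) = ι y * p.left⁻¹ * (ι y)⁻¹ := by
      rw [← h2, hy, map_mul act _ p.right⁻¹, MulAut.mul_apply]
    ext
    · show (ι y)⁻¹ = p.left * act p.right (ι x)⁻¹ * act (p.right * x) (act p.right⁻¹ p.left⁻¹)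
      rw [e2, map_inv, e1]
      group
    · exact hy⟩
  refine ⟨(U ⋊[act] Γ) ⧸ d.range, inferInstance, (QuotientGroup.mk' _).comp SemidirectProduct.inl,
    (QuotientGroup.mk' _).comp SemidirectProduct.inr, ?_, ?_, fun γ u => ?_, fun x => ?_, fun g => ?_,
    fun M _ a b hab hx => ?_⟩
  · refine (injective_iff_map_eq_one _).2 fun u hu => ?_
    obtain ⟨x, hx⟩ := (QuotientGroup.eq_one_iff _).1 hu
    have e1 : (x : Γ) = 1 := congrArg SemidirectProduct.right hx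
    have e2 : (ι x)⁻¹ = u := congrArg SemidirectProduct.left hx
    rw [← e2, show x = 1 from Subtype.ext e1, map_one, inv_one]
  · refine (injective_iff_map_eq_one _).2 fun γ hγ => ?_
    obtain ⟨x, hx⟩ := (QuotientGroup.eq_one_iff _).1 hγ
    have e1 : (x : Γ) = γ := congrArg SemidirectProduct.right hx
    have e2 : (ι x)⁻¹ = 1 := congrArg SemidirectProduct.left hx
    rw [← e1, (injective_iff_map_eq_one _).1 hι x (inv_eq_one.1 e2)]
    rfl
  · simp only [MonoidHom.comp_apply]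
    rw [SemidirectProduct.inl_aut, map_mul, map_mul, map_inv, map_inv]
  · exact (QuotientGroup.eq.2 (MonoidHom.mem_range.2 ⟨x, hd x⟩)).symm
  · obtain ⟨p, rfl⟩ := QuotientGroup.mk'_surjective _ g
    exact ⟨p.left, p.right, by
      simp only [MonoidHom.comp_apply]
      rw [← map_mul, SemidirectProduct.inl_left_mul_inr_right]⟩
  · have hc : ∀ γ, a.comp (act γ).toMonoidHom = (MulAut.conj (b γ)).toMonoidHom.comp a :=
      fun γ => MonoidHom.ext fun u => (hab γ u).symm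
    refine ⟨QuotientGroup.lift _ (SemidirectProduct.lift a b hc) ?_,
      fun u => SemidirectProduct.lift_inl a b hc u, fun γ => SemidirectProduct.lift_inr a b hc γ⟩
    rintro _ ⟨x, rfl⟩
    rw [MonoidHom.mem_ker, hd, map_mul, map_inv, SemidirectProduct.lift_inl, SemidirectProduct.lift_inr, hx,
      inv_mul_cancel]

theorem extb_surj {h : ℕ} (c : Core h 0) : Function.Surjective c.exp := fun g => (c.τ_ker g).1 (Subsingleton.elim _ _)

/-- `exp` is a bijection (`k = 0`) and `b γ` commutes with `bch` -/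
theorem Pre.exists_act {Γ : Type} [Group Γ] {N : Subgroup Γ} {h : ℕ} (p : Pre N h) :
    ∃ act : Γ →* MulAut p.c.G, ∀ γ X, act γ (p.c.exp X) = p.c.exp (p.b γ X) := by
  have hb : ∀ γ X Y, p.b γ (p.c.bch X Y) = p.c.bch (p.b γ X) (p.b γ Y) := fun γ X Y => by
    have : ∀ w, p.b γ (nest p.c.br X Y w) = nest p.c.br (p.b γ X) (p.b γ Y) w := fun w => by
      induction w with
      | nil => exact p.b_br γ X Y
      | cons a w ih =>
        simp only [nest, List.foldr_cons] at ih ⊢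
        rw [p.b_br, ih, apply_ite (p.b γ)]
    simp only [Core.bch, bchF, map_add, map_sum, map_smul, this]
  let e := Equiv.ofBijective p.c.exp ⟨p.c.exp_inj, extb_surj p.c⟩
  have he : ∀ X, e.symm (p.c.exp X) = X := e.symm_apply_apply
  have hi : ∀ γ δ g, γ * δ = 1 → p.c.exp (p.b γ (e.symm (p.c.exp (p.b δ (e.symm g))))) = g := fun γ δ g h => by
    rw [he, ← Module.End.mul_apply, ← map_mul, h, map_one]
    exact e.apply_symm_apply g
  refine ⟨MonoidHom.mk' (fun γ => ⟨⟨fun g => p.c.exp (p.b γ (e.symm g)), fun g => p.c.exp (p.b γ⁻¹ (e.symm g)),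
    fun g => hi _ _ g (inv_mul_cancel γ), fun g => hi _ _ g (mul_inv_cancel γ)⟩, fun g g' => ?_⟩) fun γ δ => ?_,
    fun γ X => congrArg (fun Y => p.c.exp (p.b γ Y)) (he X)⟩
  · obtain ⟨X, rfl⟩ := extb_surj p.c g
    obtain ⟨Y, rfl⟩ := extb_surj p.c g'
    simp only [Core.exp_bch, he, hb]
  · ext g
    change p.c.exp (p.b (γ * δ) (e.symm g)) = p.c.exp (p.b γ (e.symm (p.c.exp (p.b δ (e.symm g)))))
    rw [he, map_mul, Module.End.mul_apply]

/-- `exists_pushout`; `Ad` and `τ` from the universal property (`M = (Module.End ℝ (V h))ˣ`, `MonoidHom.toHomUnits`; the compatibility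
`b γ * Ad u * (b γ)⁻¹ = Ad (act γ u)` follows from `exp_inj` and `conj`) -/
theorem exists_core {Γ : Type} [Group Γ] {k h : ℕ} (s : Str Γ k) (p : Pre s.τ.ker h) :
    ∃ (c : Core h k) (i : Γ →* c.G) (j : p.c.G →* c.G), Function.Injective i ∧ Function.Injective j ∧ c.br = p.c.br ∧
      (∀ X, c.exp X = j (p.c.exp X)) ∧ (∀ γ, c.Ad (i γ) = p.b γ) ∧ (∀ γ, c.τ (i γ) = s.τ γ) ∧
      ∀ x : s.τ.ker, i x = j (p.ι x) := by
  obtain ⟨act, ha⟩ := p.exists_act
  obtain ⟨G, _, j, i, hj, hi, h1, h2, h3, h4⟩ := exists_pushout s.τ.ker p.ι p.inj act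
    (fun γ x y e => by
      obtain ⟨X, hX⟩ := extb_surj p.c (p.ι x)
      rw [← hX, ha, p.b_ι γ x y X e hX.symm])
    (fun x u => by
      obtain ⟨X, rfl⟩ := extb_surj p.c u
      rw [ha, p.b_N, p.c.conj])
  obtain ⟨A, hA1, hA2⟩ := h4 (Module.End ℝ (V h))ˣ p.c.Ad.toHomUnits p.b.toHomUnits
    (fun γ u => by
      rw [mul_inv_eq_iff_eq_mul]
      refine Units.ext (LinearMap.ext fun Y => p.c.exp_inj ?_)
      change p.c.exp (p.b γ (p.c.Ad u Y)) = p.c.exp (p.c.Ad (act γ u) (p.b γ Y))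
      rw [← ha, ← p.c.conj, ← p.c.conj, ← ha, map_mul, map_mul, map_inv])
    (fun x => Units.ext (p.b_N x))
  obtain ⟨t, ht1, ht2⟩ := h4 (Multiplicative (Fin k → ℤ)) 1 s.τ (fun γ u => by simp) (fun x => x.2)
  have hA : ∀ u γ X, (A (j u * i γ) : Module.End ℝ (V h)) X = p.c.Ad u (p.b γ X) := fun u γ X => by
    rw [map_mul, hA1, hA2]
    rfl
  refine ⟨⟨G, p.c.br, p.c.br_self, p.c.jacobi, p.c.cl, p.c.nilp, fun X => j (p.c.exp X), hj.comp p.c.exp_inj, p.c.ws,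
    p.c.coef, fun X Y => by rw [← map_mul, p.c.exp_mul], (Units.coeHom _).comp A, fun g X => ?_, fun g X Y => ?_,
    fun X => (congrArg Units.val (hA1 _)).trans (p.c.Ad_exp X), t, fun a => ?_, fun g => ⟨fun hg => ?_, ?_⟩⟩, i, j, hi, hj,
    rfl, fun X => rfl, fun γ => congrArg Units.val (hA2 γ), ht2, h2⟩
  · obtain ⟨u, γ, rfl⟩ := h3 g
    change _ = j (p.c.exp ((A (j u * i γ) : Module.End ℝ (V h)) X))
    rw [hA, ← p.c.conj, ← ha, map_mul, map_mul, ← h1, map_inv]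
    group
  · obtain ⟨u, γ, rfl⟩ := h3 g
    change (A (j u * i γ) : Module.End ℝ (V h)) _ =
      p.c.br ((A (j u * i γ) : Module.End ℝ (V h)) X) ((A (j u * i γ) : Module.End ℝ (V h)) Y)
    rw [hA, hA, hA, p.b_br, p.c.Ad_br]
  · obtain ⟨γ, rfl⟩ := s.surj a
    exact ⟨i γ, ht2 γ⟩
  · obtain ⟨u, γ, rfl⟩ := h3 g
    rw [map_mul, ht1, ht2, MonoidHom.one_apply, one_mul] at hg
    obtain ⟨X, hX⟩ := extb_surj p.c (u * p.ι ⟨γ, hg⟩)
    exact ⟨X, by rw [hX, map_mul, ← h2]⟩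
  · rintro ⟨X, rfl⟩
    exact ht1 _

/-- `unip`: `Core.nilpotent_of_unip`, pull back along the injective `i`, `s.max` -/
theorem exists_arith {Γ : Type} [Group Γ] {k h : ℕ} (s : Str Γ k) (p : Pre s.τ.ker h) :
    ∃ (c : Core h k) (i : Γ →* c.G), Function.Injective i ∧ c.Arith i.range := by
  obtain ⟨c, i, j, hi, hj, h1, h2, h3, h4, h5⟩ := exists_core s p
  refine ⟨c, i, hi, ⟨fun a => ?_, fun R => (p.lat.fin R).subset ?_, ?_⟩, h1 ▸ p.int_br, ?_, ?_⟩
  · obtain ⟨γ, hγ⟩ := s.surj (Multiplicative.ofAdd a)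
    exact ⟨i γ, ⟨γ, rfl⟩, by rw [Core.tv, h4, hγ]; rfl⟩
  · rintro X ⟨⟨γ, hγ⟩, hX⟩
    have : γ ∈ s.τ.ker := by rw [MonoidHom.mem_ker, ← h4, hγ, c.τ_ker]; exact ⟨X, rfl⟩
    exact ⟨⟨⟨γ, this⟩, hj (by rw [← h5, ← h2, hγ])⟩, hX⟩
  · obtain ⟨R, hR⟩ := p.lat.cc
    refine ⟨R, fun X => ?_⟩
    obtain ⟨_, ⟨x, rfl⟩, Y, hY, e⟩ := hR X
    exact ⟨i x, ⟨x, rfl⟩, Y, hY, by rw [h2, h2, e, map_mul, h5]⟩
  · rintro _ ⟨γ, rfl⟩ X hX
    exact h3 γ ▸ p.int_b γ X hX
  · rintro _ ⟨γ, rfl⟩ hγ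
    have := c.nilpotent_of_unip hγ
    have h6 := s.max ((c.τ.ker ⊔ Subgroup.zpowers (i γ)).comap i)
      (fun x hx => Subgroup.mem_sup_left ((h4 x).trans hx))
      (Subgroup.isNilpotent_of_ker_le_center (i.subgroupComap _) fun x hx => by
        rw [show x = 1 from Subtype.ext (hi ((congrArg Subtype.val hx).trans i.map_one.symm))]
        exact one_mem _)
    rw [h4, ← MonoidHom.mem_ker, ← h6]
    exact Subgroup.mem_sup_right (Subgroup.mem_zpowers _)

end Crest.Agent.R182
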