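import Crest.Agent.R182.A.Defs
import Crest.Agent.R182.D.Ext

/-! R182/A: Lie-Kolchin-Malcev for polycyclic groups. -/

set_option autoImplicit false
set_option linter.unusedVariables false
set_option linter.unusedSectionVars false
open Set Filter Topology MeasureTheory Crest.GroupTheory
open scoped Pointwise commutatorElement

noncomputable section
namespace Crest.Agent.R182

universe u v
variable {G : Type*} [Group G]

theorem Nz.mem_sup {K : Subgroup G} {t : G} (ht : Nz t K) {x : G} :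
    x ∈ K ⊔ Subgroup.zpowers t ↔ ∃ y ∈ K, ∃ j : ℤ, x = y * t ^ j := by
  constructor
  · intro hx
    obtain ⟨n, hn⟩ := pca_mem ht hx
    exact ⟨_, hn, n, by rw [inv_mul_cancel_right]⟩
  · rintro ⟨y, hy, j, rfl⟩
    exact mul_mem (Subgroup.mem_sup_left hy) (Subgroup.mem_sup_right ⟨j, rfl⟩)

/-- the conjugates `t ^ j L t ^ (-j) ≤ K` have the same index in `K` (`finite_index_eq` for the group `K`), two of them agree -/
theorem exists_nz_pow {K L : Subgroup G} (hK : K.FG) (hle : L ≤ K) (hi : L.relIndex K ≠ 0) {t : G} (ht : Nz t K) :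
    ∃ m : ℕ, 0 < m ∧ Nz (t ^ m) L := by
  have hfg : Group.FG K := (Group.fg_iff_subgroup_fg K).2 hK
  have hn : ∀ j : ℤ, t ^ j ∈ Subgroup.normalizer (K : Set G) := fun j => zpow_mem (pca_nz.1 ht) j
  let F : ℤ → Subgroup K := fun j => (L.comap (MulAut.conj (t ^ j)).toMonoidHom).subgroupOf K
  have hF : ∀ j, F j ∈ {H : Subgroup K | H.index = L.relIndex K} := fun j => by
    change (L.comap (MulAut.conj (t ^ j)).toMonoidHom).relIndex K = _
    rw [Subgroup.relIndex_comap]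
    congr 1
    exact Subgroup.mem_normalizer_iff_map_conj_eq.1 (hn j)
  have hfin := (finite_index_eq (G := K) hi).to_subtype
  obtain ⟨m, hm, hz⟩ : ∃ m : ℤ, m ≠ 0 ∧ Nz (t ^ m) L := by
    obtain ⟨i, j, hij, he⟩ := Finite.exists_ne_map_eq_of_infinite
      fun j : ℤ => (⟨F j, hF j⟩ : {H : Subgroup K | H.index = L.relIndex K})
    have he' : F i = F j := congrArg Subtype.val he
    have key : ∀ x ∈ K, t ^ i * x * (t ^ i)⁻¹ ∈ L ↔ t ^ j * x * (t ^ j)⁻¹ ∈ L := fun x hx =>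
      SetLike.ext_iff.1 he' ⟨x, hx⟩
    refine ⟨j - i, sub_ne_zero.2 hij.symm, fun x => ?_⟩
    by_cases hx : x ∈ K
    · have := key _ ((Subgroup.mem_normalizer_iff''.1 (hn i) x).1 hx)
      simpa [zpow_sub, mul_assoc] using this
    · exact iff_of_false (fun h' => hx (hle h')) fun h' => hx ((pca_nz.2 (hn _) x).2 (hle h'))
  refine ⟨m.natAbs, Int.natAbs_pos.2 hm, pca_nz.2 ?_⟩
  rw [← zpow_natCast]
  rcases Int.natAbs_eq m with h | h
  · rw [← h]
    exact pca_nz.1 hz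
  · rw [show (m.natAbs : ℤ) = -m by omega, zpow_neg]
    exact inv_mem (pca_nz.1 hz)

/-- `y * t ^ (r + m q) = t ^ r * y' * (t ^ m) ^ q` with `y' ∈ K`: the cosets of `t ^ r * yᵢ` (`0 ≤ r < m`, `yᵢ` representatives
of `K / L`) cover -/
theorem relIndex_sup_zpowers {K L : Subgroup G} (hle : L ≤ K) (hi : L.relIndex K ≠ 0) {t : G} (ht : Nz t K) {m : ℕ}
    (hm : 0 < m) : (L ⊔ Subgroup.zpowers (t ^ m)).relIndex (K ⊔ Subgroup.zpowers t) ≠ 0 := by
  have hn : ∀ j : ℤ, t ^ j ∈ Subgroup.normalizer (K : Set G) := fun j => zpow_mem (pca_nz.1 ht) j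
  have hm' : (m : ℤ) ≠ 0 := by omega
  obtain ⟨T, hT, hT'⟩ := ext_reps hi
  refine ext_cover _ _ (Set.Finite.image2 (fun (r : ℤ) (s : G) => t ^ r * s) (Set.finite_Ico 0 |(m : ℤ)|) hT)
    fun x hx => ?_
  obtain ⟨n, hn'⟩ := pca_mem ht hx
  obtain ⟨s, hs, hs'⟩ := hT' _ ((Subgroup.mem_normalizer_iff''.1 (hn (n % m)) _).1 hn')
  refine ⟨_, Set.mem_image2_of_mem (a := n % m) ⟨Int.emod_nonneg _ hm', Int.emod_lt_abs _ hm'⟩ hs, ?_⟩
  have e : (t ^ (n % m) * s)⁻¹ * x =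
      s⁻¹ * ((t ^ (n % m))⁻¹ * (x * (t ^ n)⁻¹) * t ^ (n % m)) * (t ^ m) ^ (n / m) := by
    have : t ^ (n % m) * (t ^ m) ^ (n / m) = t ^ n := by
      rw [← zpow_natCast, ← zpow_mul, ← zpow_add, Int.emod_add_mul_ediv]
    simp only [mul_assoc, this, mul_inv_rev, inv_mul_cancel, mul_one]
  rw [e]
  exact mul_mem (Subgroup.mem_sup_left hs') (Subgroup.mem_sup_right ⟨n / m, rfl⟩)

theorem grp1b_sub {E : Type*} [AddCommGroup E] [Module ℂ E] (ρ : G →* Module.End ℂ E) (V : Set E) :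
    ∃ S : Subgroup G, ∀ g, g ∈ S ↔ ∃ a : ℂ, ∀ w ∈ V, ρ g w = a • w := by
  refine ⟨{ carrier := {g | ∃ a : ℂ, ∀ w ∈ V, ρ g w = a • w}, one_mem' := ⟨1, by simp⟩, mul_mem' := ?_, inv_mem' := ?_ },
    fun g => Iff.rfl⟩
  · rintro x y ⟨a, ha⟩ ⟨b, hb⟩
    refine ⟨b * a, fun w hw => ?_⟩
    rw [map_mul, Module.End.mul_apply, hb w hw, map_smul, ha w hw, smul_smul]
  · rintro x ⟨a, ha⟩
    refine ⟨a⁻¹, fun w hw => ?_⟩
    have h1 : ρ x⁻¹ (ρ x w) = w := by
      rw [← Module.End.mul_apply, ← map_mul, inv_mul_cancel, map_one, Module.End.one_apply]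
    rw [ha w hw, map_smul] at h1
    by_cases h0 : a = 0
    · rw [h0, zero_smul] at h1
      rw [← h1, map_zero, smul_zero]
    · rw [← h1, smul_smul, inv_mul_cancel₀ h0, one_smul, h1]

theorem grp1b_ne {E : Type*} [AddCommGroup E] [Module ℂ E] (ρ : G →* Module.End ℂ E) (g : G) {v : E} (hv : v ≠ 0) :
    ρ g v ≠ 0 := fun h => hv <| by
  have h1 : ρ g⁻¹ (ρ g v) = v := by
    rw [← Module.End.mul_apply, ← map_mul, inv_mul_cancel, map_one, Module.End.one_apply]
  rw [← h1, h, map_zero]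

theorem grp1b_conj {E : Type*} [AddCommGroup E] [Module ℂ E] (ρ : G →* Module.End ℂ E) (u x : G) (w : E) :
    ρ x (ρ u w) = ρ u (ρ (u⁻¹ * x * u) w) := by
  rw [← Module.End.mul_apply, ← map_mul, ← Module.End.mul_apply, ← map_mul]
  congr 2
  group

theorem grp1b_step {E : Type*} [AddCommGroup E] [Module ℂ E] [FiniteDimensional ℂ E]
    (ρ : G →* Module.End ℂ E) {L : Subgroup G} (hL : L.FG) {s : G} (hs : Nz s L) {v : E} (hv : v ≠ 0)
    (h : ∀ g ∈ L, ∃ a : ℂ, ρ g v = a • v) :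
    ∃ k : ℕ, 0 < k ∧ ∃ w : E, w ≠ 0 ∧ ∀ g ∈ L ⊔ Subgroup.zpowers (s ^ k), ∃ a : ℂ, ρ g w = a • w := by
  classical
  obtain ⟨T, hT, hf⟩ := (Subgroup.fg_iff _).1 hL
  have hnz : ∀ (j : ℕ) (x : G), x ∈ L → (s ^ j)⁻¹ * x * s ^ j ∈ L := fun j x hx =>
    (Subgroup.mem_normalizer_iff''.1 (pow_mem (pca_nz.1 hs) j) x).1 hx
  have hχ : ∀ (j : ℕ) (x : G), ∃ a : ℂ, x ∈ L → ρ x (ρ (s ^ j) v) = a • ρ (s ^ j) v := by
    intro j x
    by_cases hx : x ∈ L
    · obtain ⟨a, ha⟩ := h _ (hnz j x hx)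
      exact ⟨a, fun _ => by rw [grp1b_conj, ha, map_smul]⟩
    · exact ⟨0, fun h' => absurd h' hx⟩
  choose χ hχ using hχ
  have hTL : ∀ x ∈ T, x ∈ L := fun x hx => hT ▸ Subgroup.subset_closure hx
  have := hf.to_subtype
  obtain ⟨i, j, hij, heq⟩ := Set.Finite.exists_lt_map_eq_of_forall_mem (f := fun (j : ℕ) (x : T) => χ j x)
    (t := Set.pi Set.univ fun x : T => {a | (ρ x).HasEigenvalue a})
    (fun j x _ => Module.End.hasEigenvalue_of_hasEigenvector (x := ρ (s ^ j) v)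
      ⟨Module.End.mem_eigenspace_iff.2 (hχ j x (hTL x x.2)), grp1b_ne ρ _ hv⟩)
    (Set.Finite.pi fun x => Module.End.finite_hasEigenvalue _)
  have hall : ∀ x ∈ L, χ i x = χ j x := by
    obtain ⟨S, hS⟩ := grp1b_sub ρ {ρ (s ^ i) v, ρ (s ^ j) v}
    have hle : L ≤ S := by
      rw [← hT, Subgroup.closure_le]
      intro x hx
      refine (hS x).2 ⟨χ i x, ?_⟩
      rintro w (rfl | rfl)
      · exact hχ i x (hTL x hx)
      · rw [hχ j x (hTL x hx), show χ i x = χ j x from congrFun heq ⟨x, hx⟩]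
    intro x hx
    obtain ⟨a, ha⟩ := (hS x).1 (hle hx)
    have h1 := (hχ i x hx).symm.trans (ha _ (Or.inl rfl))
    have h2 := (hχ j x hx).symm.trans (ha _ (Or.inr rfl))
    rw [smul_left_injective ℂ (grp1b_ne ρ _ hv) h1, smul_left_injective ℂ (grp1b_ne ρ _ hv) h2]
  obtain ⟨k, rfl⟩ := Nat.exists_eq_add_of_lt hij
  let W : Submodule ℂ E := ⨅ x : L, (ρ x).eigenspace (χ i x)
  have hW : ∀ w, w ∈ W ↔ ∀ x ∈ L, ρ x w = χ i x • w := fun w => by
    simp only [W, Submodule.mem_iInf, Module.End.mem_eigenspace_iff, Subtype.forall]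
  have hu : ρ (s ^ (i + k + 1)) v = ρ (s ^ (k + 1)) (ρ (s ^ i) v) := by
    rw [← Module.End.mul_apply, ← map_mul, ← pow_add]
    congr 3
    ring
  have hmap : ∀ w ∈ W, ρ (s ^ (k + 1)) w ∈ W := by
    intro w hw
    rw [hW] at hw ⊢
    intro x hx
    have h1 := hχ (i + k + 1) x hx
    have h2 : ρ x (ρ (s ^ (i + k + 1)) v) = χ i ((s ^ (k + 1))⁻¹ * x * s ^ (k + 1)) • ρ (s ^ (i + k + 1)) v := by
      rw [hu, grp1b_conj, hχ i _ (hnz _ x hx), map_smul]
    rw [grp1b_conj, hw _ (hnz _ x hx), map_smul, hall x hx,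
      smul_left_injective ℂ (grp1b_ne ρ _ hv) (h1.symm.trans h2)]
  have hvi : ρ (s ^ i) v ∈ W := (hW _).2 fun x hx => hχ i x hx
  have : Nontrivial W := ⟨⟨⟨_, hvi⟩, 0, fun h' => grp1b_ne ρ _ hv (congrArg Subtype.val h')⟩⟩
  obtain ⟨c, hc⟩ := Module.End.exists_eigenvalue ((ρ (s ^ (k + 1))).restrict hmap)
  obtain ⟨w, hw1, hw0⟩ := hc.exists_hasEigenvector
  refine ⟨k + 1, Nat.succ_pos k, w, fun h' => hw0 (Subtype.ext h'), ?_⟩
  obtain ⟨S, hS⟩ := grp1b_sub ρ {(w : E)}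
  have hle : L ⊔ Subgroup.zpowers (s ^ (k + 1)) ≤ S := by
    refine sup_le (fun x hx => (hS x).2 ⟨χ i x, ?_⟩) (Subgroup.zpowers_le_of_mem ((hS _).2 ⟨c, ?_⟩))
    · rintro _ rfl
      exact (hW _).1 w.2 x hx
    · rintro _ rfl
      exact congrArg Subtype.val (Module.End.mem_eigenspace_iff.1 hw1)
  intro g hg
  obtain ⟨a, ha⟩ := (hS g).1 (hle hg)
  exact ⟨a, ha _ rfl⟩

/-- Induction on `PC K`.  Step `K = H ⊔ ⟨g⟩`: `L ≤ H` with eigenvector `v`, `s = g ^ m` normalises `L` (`exists_nz_pow`).  The vector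
`ρ (s ^ j) v` is a common eigenvector of `L` with eigenvalue function `χ j : L → ℂ`.  `L` is generated by a finite set `T`
(`PC.of_le`, `PC.fg`) and `χ j` restricted to `T` takes values in the finite spectra, so `χ i = χ j` on `T` for some `i < j`; the space
`{w | ∀ x ∈ T, ρ x w = χ i x • w} = {w | ∀ x ∈ L, ρ x w = χ i x • w}` is nonzero and mapped to itself by `ρ (s ^ (j - i))`, which has an eigenvector
there (`Module.End.exists_eigenvalue`).  Take `L ⊔ ⟨g ^ (m (j - i))⟩`; the elements having a given vector as an eigenvector form a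
subgroup. -/
theorem exists_eigen {E : Type*} [AddCommGroup E] [Module ℂ E] [FiniteDimensional ℂ E] [Nontrivial E]
    (ρ : G →* Module.End ℂ E) {K : Subgroup G} (hK : PC K) :
    ∃ L : Subgroup G, L ≤ K ∧ L.relIndex K ≠ 0 ∧ ∃ v : E, v ≠ 0 ∧ ∀ g ∈ L, ∃ a : ℂ, ρ g v = a • v := by
  induction hK with
  | bot =>
    obtain ⟨v, hv⟩ := exists_ne (0 : E)
    refine ⟨⊥, le_rfl, by simp, v, hv, fun g hg => ⟨1, ?_⟩⟩
    rw [Subgroup.mem_bot.1 hg, map_one, Module.End.one_apply, one_smul]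
  | step H g hH hg ih =>
    obtain ⟨L, hle, hi, v, hv, h⟩ := ih
    obtain ⟨m, hm, hs⟩ := exists_nz_pow hH.fg hle hi hg
    obtain ⟨k, hk, w, hw, h'⟩ := grp1b_step ρ (hH.of_le hle).fg hs hv h
    rw [← pow_mul] at h'
    refine ⟨_, ?_, relIndex_sup_zpowers hle hi hg (Nat.mul_pos hm hk), w, hw, h'⟩
    exact sup_le_sup hle (Subgroup.zpowers_le_of_mem (pow_mem (Subgroup.mem_zpowers g) _))

theorem grp1c_fix {E : Type*} [AddCommGroup E] [Module ℂ E] (ρ : G →* Module.End ℂ E) {L : Subgroup G} {v : E}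
    (h : ∀ g ∈ L, ∃ a : ℂ, ρ g v = a • v) {x : G} (hx : x ∈ ⁅L, L⁆) : ρ x v = v := by
  have inv : ∀ g : G, ρ g⁻¹ (ρ g v) = v := fun g => by
    rw [← Module.End.mul_apply, ← map_mul, inv_mul_cancel, map_one, Module.End.one_apply]
  let S : Subgroup G :=
    { carrier := {g | ρ g v = v}
      one_mem' := by simp
      mul_mem' := fun {g g'} (hg : ρ g v = v) (hg' : ρ g' v = v) => by
        change ρ (g * g') v = v
        rw [map_mul, Module.End.mul_apply, hg', hg]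
      inv_mem' := fun {g} (hg : ρ g v = v) => by
        have := inv g
        rwa [hg] at this }
  refine (Subgroup.commutator_le (H₃ := S)).2 (fun g hg g' hg' => ?_) hx
  obtain ⟨a, ha⟩ := h g hg
  obtain ⟨b, hb⟩ := h g' hg'
  obtain ⟨a', ha'⟩ := h _ (L.inv_mem hg)
  obtain ⟨b', hb'⟩ := h _ (L.inv_mem hg')
  have h1 := inv g
  have h2 := inv g'
  rw [ha, map_smul, ha'] at h1
  rw [hb, map_smul, hb'] at h2
  change ρ ⁅g, g'⁆ v = v
  simp only [commutatorElement_def, map_mul, Module.End.mul_apply, map_smul, ha, hb, ha', hb']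
  rw [smul_comm a' b, smul_comm a' a, h1, smul_comm, h2]

theorem grp1c_lift {L : Subgroup G} {K : Subgroup L} (l : List G) (h : ∀ x ∈ l, x ∈ K.map L.subtype) :
    ∃ l' : List L, l'.map L.subtype = l ∧ ∀ x ∈ l', x ∈ K := by
  induction l with
  | nil => exact ⟨[], rfl, by simp⟩
  | cons x l ih =>
    obtain ⟨l', rfl, h1⟩ := ih fun y hy => h y (List.mem_cons_of_mem _ hy)
    obtain ⟨y, hy, rfl⟩ := h x List.mem_cons_self
    exact ⟨y :: l', rfl, List.forall_mem_cons.2 ⟨hy, h1⟩⟩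

/-- Induction on `n`.  `L₀`, `v` from `exists_eigen`; the group `L₀` (`PC.comap`) acts on `E ⧸ span {v}` (`Submodule.mapQ`); induction gives
`L₁ ≤ L₀`; `L = L₁.map L₀.subtype`, `Subgroup.map_commutator`.  The last `n` factors map `E` into `span {v}`, which is fixed by
`⁅L, L⁆` (the elements fixing `v` form a subgroup containing the commutators of elements of `L₀`). -/
theorem exists_unip (n : ℕ) : ∀ (G : Type u) [Group G] (E : Type v) [AddCommGroup E] [Module ℂ E] [FiniteDimensional ℂ E],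
    Module.finrank ℂ E ≤ n → PC (⊤ : Subgroup G) → ∀ ρ : G →* Module.End ℂ E,
    ∃ L : Subgroup G, L.FiniteIndex ∧ Unip ρ ⁅L, L⁆ n := by
  induction n with
  | zero =>
    intro G _ E _ _ _ hn _ ρ
    have : Subsingleton E := Module.finrank_zero_iff.1 (Nat.le_zero.1 hn)
    exact ⟨⊤, inferInstance, fun _ _ _ => Subsingleton.elim _ _⟩
  | succ n ih =>
    intro G _ E _ _ _ hn hG ρ
    rcases subsingleton_or_nontrivial E with hE | hE
    · exact ⟨⊤, inferInstance, fun _ _ _ => Subsingleton.elim _ _⟩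
    obtain ⟨L₀, -, hi, v, hv, hL⟩ := exists_eigen ρ hG
    rw [Subgroup.relIndex_top_right] at hi
    have hW : ∀ g : L₀, (ℂ ∙ v) ≤ (ℂ ∙ v).comap (ρ g) := fun g => by
      obtain ⟨a, ha⟩ := hL g g.2
      rw [Submodule.span_singleton_le_iff_mem, Submodule.mem_comap, ha]
      exact Submodule.smul_mem _ _ (Submodule.mem_span_singleton_self v)
    let ρ' : L₀ →* Module.End ℂ (E ⧸ (ℂ ∙ v)) :=
      { toFun := fun g => (ℂ ∙ v).mapQ (ℂ ∙ v) (ρ g) (hW g)
        map_one' := by ext w; simp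
        map_mul' := fun g g' => by ext w; simp }
    have hr : Module.finrank ℂ (E ⧸ (ℂ ∙ v)) ≤ n := by
      have := Submodule.finrank_quotient_add_finrank (ℂ ∙ v)
      rw [finrank_span_singleton hv] at this
      omega
    obtain ⟨L₁, hf, hU⟩ := ih L₀ _ hr
      (by simpa using hG.comap L₀.subtype Subtype.val_injective) ρ'
    refine ⟨L₁.map L₀.subtype, ⟨by rw [Subgroup.index_map_subtype]; exact mul_ne_zero hf.1 hi⟩, fun l hl hm => ?_⟩
    obtain _ | ⟨x, l⟩ := l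
    · simp at hl
    have hx : ρ x v = v := grp1c_fix ρ hL (Subgroup.commutator_mono (Subgroup.map_subtype_le _)
      (Subgroup.map_subtype_le _) (hm x List.mem_cons_self))
    rw [← Subgroup.map_commutator] at hm
    obtain ⟨l', rfl, h1⟩ := grp1c_lift l fun y hy => hm y (List.mem_cons_of_mem _ hy)
    have key : ∀ (l' : List L₀) (w : E), (ℂ ∙ v).mkQ (((l'.map L₀.subtype).map fun y => ρ y - 1).prod w) =
        (l'.map fun y => ρ' y - 1).prod ((ℂ ∙ v).mkQ w) := fun l' w => by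
      induction l' with
      | nil => rfl
      | cons y l' ih' =>
        simp only [List.map_cons, List.prod_cons, Module.End.mul_apply]
        rw [← ih']
        rfl
    ext w
    have h2 := key l' w
    rw [hU l' (by simpa using hl) h1, LinearMap.zero_apply, Submodule.mkQ_apply, Submodule.Quotient.mk_eq_zero,
      Submodule.mem_span_singleton] at h2
    obtain ⟨a, ha⟩ := h2
    rw [List.map_cons, List.prod_cons, Module.End.mul_apply, ← ha, map_smul, LinearMap.sub_apply, hx]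
    simp

end Crest.Agent.R182
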