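import Crest.Agent.R182.A.Grp2

/-! R182/A: the structure theorem. -/

set_option autoImplicit false
set_option linter.unusedVariables false
set_option linter.unusedSectionVars false
open Set Filter Topology MeasureTheory Crest.GroupTheory
open scoped Pointwise commutatorElement

noncomputable section
namespace Crest.Agent.R182

universe u
variable {G G' : Type*} [Group G] [Group G']

theorem PZ.pc {K : Subgroup G} (h : PZ K) : PC K := by
  induction h with
  | bot => exact PC.bot
  | step H g _ hg _ ih => exact PC.step H g ih hg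

/-- Induction.  For `K = H ⊔ ⟨g⟩` the exponents `{n : ℤ | ∃ x, ∃ y ∈ H, f x = y * g ^ n}` form a cyclic subgroup of `ℤ`
(`Int.subgroup_cyclic`) with generator `r`; if `r = 0` then `K.comap f = H.comap f`, otherwise `K.comap f = H.comap f ⊔ ⟨q⟩` with
`f q = y * g ^ r`. -/
theorem PZ.comap {K : Subgroup G} (h : PZ K) (f : G' →* G) (hf : Function.Injective f) : PZ (K.comap f) := by
  induction h with
  | bot => rw [MonoidHom.comap_bot, (MonoidHom.ker_eq_bot_iff f).2 hf]; exact PZ.bot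
  | step H g _ hg hn ih =>
    have hN := pca_le hg
    have hgn : ∀ n : ℤ, g ^ n ∈ H ⊔ Subgroup.zpowers g := fun n => Subgroup.mem_sup_right ⟨n, rfl⟩
    have hz : ∀ x ∈ H ⊔ Subgroup.zpowers g, ∀ y ∈ H, x * y * x⁻¹ ∈ H := fun x hx y hy =>
      (Subgroup.mem_normalizer_iff.1 (hN hx) y).1 hy
    have hmul : ∀ (x y : G) (a b : ℤ), x * (g ^ a)⁻¹ ∈ H → y * (g ^ b)⁻¹ ∈ H → x * y * (g ^ (a + b))⁻¹ ∈ H := by
      intro x y a b hx hy
      have := H.mul_mem hx (hz _ (hgn a) _ hy)
      convert this using 1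
      group
    have hinv : ∀ (x : G) (a : ℤ), x * (g ^ a)⁻¹ ∈ H → x⁻¹ * (g ^ (-a))⁻¹ ∈ H := by
      intro x a hx
      have := hz _ (hgn (-a)) _ (H.inv_mem hx)
      convert this using 1
      group
    let A : AddSubgroup ℤ :=
      { carrier := {n | ∃ x, f x * (g ^ n)⁻¹ ∈ H}
        zero_mem' := ⟨1, by simp⟩
        add_mem' := by
          rintro a b ⟨x, hx⟩ ⟨y, hy⟩
          exact ⟨x * y, by rw [map_mul]; exact hmul _ _ _ _ hx hy⟩
        neg_mem' := by
          rintro a ⟨x, hx⟩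
          exact ⟨x⁻¹, by rw [map_inv]; exact hinv _ _ hx⟩ }
    obtain ⟨r, hr⟩ := Int.subgroup_cyclic A
    obtain ⟨q, hq⟩ : r ∈ A := hr ▸ AddSubgroup.mem_closure_singleton_self r
    have hpow : ∀ j : ℤ, f (q ^ j) * (g ^ (j * r))⁻¹ ∈ H := by
      intro j
      induction j using Int.induction_on with
      | zero => simp
      | succ j ih => rw [zpow_add_one, map_mul, add_one_mul]; exact hmul _ _ _ _ ih hq
      | pred j ih => rw [zpow_sub_one, map_mul, map_inv, sub_one_mul, sub_eq_add_neg]; exact hmul _ _ _ _ ih (hinv _ _ hq)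
    have hqK : f q ∈ H ⊔ Subgroup.zpowers g := by
      have := Subgroup.mul_mem _ (Subgroup.mem_sup_left hq) (hgn r)
      rwa [inv_mul_cancel_right] at this
    have e : (H ⊔ Subgroup.zpowers g).comap f = H.comap f ⊔ Subgroup.zpowers q := by
      refine le_antisymm (fun x hx => ?_) (sup_le (Subgroup.comap_mono le_sup_left) (Subgroup.zpowers_le_of_mem hqK))
      obtain ⟨n, hn⟩ := pca_mem hg hx
      have h2 : n ∈ A := ⟨x, hn⟩
      rw [hr, AddSubgroup.mem_closure_singleton] at h2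
      obtain ⟨j, rfl⟩ := h2
      have h1 : x * (q ^ j)⁻¹ ∈ H.comap f := by
        have := H.mul_mem hn (H.inv_mem (hpow j))
        rw [Subgroup.mem_comap, map_mul, map_inv]
        convert this using 1
        rw [smul_eq_mul]
        group
      have := Subgroup.mul_mem _ (Subgroup.mem_sup_left h1) (Subgroup.mem_sup_right (Subgroup.zpow_mem_zpowers q j))
      rwa [inv_mul_cancel_right] at this
    rw [e]
    by_cases h0 : r = 0
    · have : q ∈ H.comap f := by simpa [h0] using hq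
      rwa [sup_eq_left.2 (Subgroup.zpowers_le_of_mem this)]
    · refine PZ.step _ _ ih (fun x => ?_) fun n h1 => ?_
      · simp only [Subgroup.mem_comap, map_mul, map_inv]
        exact Subgroup.mem_normalizer_iff.1 (hN hqK) _
      · have h2 := H.mul_mem (H.inv_mem (hpow n)) h1
        have h3 := hn (n * r) (by simpa using h2)
        exact (mul_eq_zero.1 h3).resolve_right h0

/-- Induction.  `K = H ⊔ ⟨g⟩`, `L ≤ H`.  If `g ^ n ∈ H` for some `n ≠ 0` then `H` has finite index in `K` (`relIndex_sup_zpowers`) and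
`L` works; otherwise take `L ⊔ ⟨g ^ m⟩` (`exists_nz_pow`). -/
theorem exists_pz {K : Subgroup G} (h : PC K) : ∃ L : Subgroup G, L ≤ K ∧ L.relIndex K ≠ 0 ∧ PZ L := by
  induction h with
  | bot => exact ⟨⊥, le_rfl, by simp, PZ.bot⟩
  | step H g hH hg ih =>
    obtain ⟨L, h1, h2, h3⟩ := ih
    by_cases h4 : ∀ n : ℤ, g ^ n ∈ H → n = 0
    · obtain ⟨m, hm, hm'⟩ := exists_nz_pow hH.fg h1 h2 hg
      refine ⟨L ⊔ Subgroup.zpowers (g ^ m), sup_le_sup h1 (Subgroup.zpowers_le_of_mem (pow_mem (Subgroup.mem_zpowers g) m)),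
        relIndex_sup_zpowers h1 h2 hg hm, PZ.step _ _ h3 hm' fun n hn => ?_⟩
      have h5 := h4 (m * n) (by rw [zpow_mul, zpow_natCast]; exact h1 hn)
      exact (mul_eq_zero.1 h5).resolve_left (by omega)
    · push Not at h4
      obtain ⟨n, hn, hn0⟩ := h4
      have h5 := relIndex_sup_zpowers le_rfl (by simp) hg (Int.natAbs_pos.2 hn0)
      have h6 : g ^ n.natAbs ∈ H := by
        rcases Int.natAbs_eq n with h | h
        · rwa [← zpow_natCast, ← h]
        · rw [h, zpow_neg, zpow_natCast] at hn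
          exact inv_mem_iff.1 hn
      rw [sup_eq_left.2 (Subgroup.zpowers_le_of_mem h6)] at h5
      exact ⟨L, h1.trans le_sup_left, Subgroup.relIndex_ne_zero_trans h2 h5, h3⟩

/-- the union of an increasing sequence of subgroups is finitely generated -/
theorem PC.wf (hG : PC (⊤ : Subgroup G)) : WellFoundedGT (Subgroup G) := by
  refine wellFoundedGT_iff_monotone_chain_condition.2 fun a => ?_
  obtain ⟨T, hT⟩ := (hG.of_le (le_top : ⨆ n, a n ≤ ⊤)).fg
  have h : ∀ x : T, ∃ n, x.1 ∈ a n := fun x =>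
    (Subgroup.mem_iSup_of_directed a.monotone.directed_le).1 (hT ▸ Subgroup.subset_closure x.2)
  choose n hn using h
  obtain ⟨b, hb⟩ := (finite_range n).bddAbove
  refine ⟨b, fun m hm => (a.monotone hm).antisymm ((le_iSup a m).trans ?_)⟩
  rw [← hT, Subgroup.closure_le]
  exact fun x hx => a.monotone (hb ⟨⟨x, hx⟩, rfl⟩) (hn ⟨x, hx⟩)

theorem grp3b_free {B : Type*} [Group B] [Finite B] {k : ℕ} (N : Subgroup G) (φ : G →* Multiplicative (Fin k → ℤ) × B)
    (h1 : Function.Surjective φ) (h2 : ∀ x, φ x = 1 ↔ x ∈ N) :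
    ∃ (L : Subgroup G) (k : ℕ) (τ : L →* Multiplicative (Fin k → ℤ)), L.FiniteIndex ∧ N ≤ L ∧ Function.Surjective τ ∧
      ∀ x : L, τ x = 1 ↔ (x : G) ∈ N := by
  refine ⟨((MonoidHom.snd _ _).comp φ).ker, k, ((MonoidHom.fst _ _).comp φ).comp (Subgroup.subtype _), inferInstance,
    fun x hx => congrArg Prod.snd ((h2 x).2 hx), fun a => ?_, fun x => ?_⟩
  · obtain ⟨x, hx⟩ := h1 (a, 1)
    exact ⟨⟨x, congrArg Prod.snd hx⟩, congrArg Prod.fst hx⟩
  · exact ⟨fun h => (h2 x).1 (Prod.ext h x.2), fun h => congrArg Prod.fst ((h2 x).2 h)⟩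

/-- `G ⧸ N` is a finitely generated commutative group: `AddCommGroup.equiv_free_prod_directSum_zmod`; `L` is the kernel of the projection to
the finite factor -/
theorem exists_free [Group.FG G] (N : Subgroup G) (hN : ∀ a b : G, ⁅a, b⁆ ∈ N) :
    ∃ (L : Subgroup G) (k : ℕ) (τ : L →* Multiplicative (Fin k → ℤ)), L.FiniteIndex ∧ N ≤ L ∧ Function.Surjective τ ∧
      ∀ x : L, τ x = 1 ↔ (x : G) ∈ N := by
  have hn : N.Normal := ⟨fun x hx g => by simpa [commutatorElement_def] using N.mul_mem (hN g x) hx⟩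
  let _ : CommGroup (G ⧸ N) := { (inferInstance : Group (G ⧸ N)) with
    mul_comm := fun a b => QuotientGroup.induction_on a fun a => QuotientGroup.induction_on b fun b =>
      QuotientGroup.eq.2 (by simpa [commutatorElement_def, mul_assoc] using hN b⁻¹ a⁻¹) }
  obtain ⟨k, ι, _, p, hp, e, ⟨f⟩⟩ := AddCommGroup.equiv_free_prod_directSum_zmod (Additive (G ⧸ N))
  have : ∀ i, NeZero (p i ^ e i) := fun i => ⟨pow_ne_zero _ (hp i).ne_zero⟩
  let f' := (f.trans (Finsupp.addEquivFunOnFinite.prodCongr (DirectSum.addEquivProd _))).toMultiplicativeRight.trans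
    (MulEquiv.prodMultiplicative _ _)
  exact grp3b_free N (f'.toMonoidHom.comp (QuotientGroup.mk' N)) (f'.surjective.comp (QuotientGroup.mk'_surjective N))
    fun x => f'.map_eq_one_iff.trans (QuotientGroup.eq_one_iff x)

theorem grp3c_nil [Group.IsNilpotent G'] (f : G →* G') (hf : Function.Injective f) : Group.IsNilpotent G :=
  Group.nilpotent_of_mulEquiv (MonoidHom.ofInjective hf).symm

/-- `N` maximal among the nilpotent subgroups containing the commutator subgroup (`PC.wf`), `exists_free` -/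
theorem exists_str_aux (hz : PZ (⊤ : Subgroup G)) (hn : Group.IsNilpotent (commutator G)) :
    ∃ (L : Subgroup G) (k : ℕ), L.FiniteIndex ∧ Nonempty (Str L k) := by
  have hG := hz.pc
  obtain ⟨N, ⟨h1, h2⟩, hmax⟩ := hG.wf.wf.has_min {N : Subgroup G | commutator G ≤ N ∧ Group.IsNilpotent N}
    ⟨commutator G, le_rfl, hn⟩
  have : Group.FG G := ⟨hG.fg⟩
  obtain ⟨L, k, τ, hL, hNL, hs, hk⟩ := exists_free N fun a b =>
    h1 (Subgroup.commutator_mem_commutator (Subgroup.mem_top a) (Subgroup.mem_top b))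
  refine ⟨L, k, hL, ⟨⟨τ, hs, ?_, ?_, fun N' hN' hn' => le_antisymm (fun x hx => ?_) hN'⟩⟩⟩
  · simpa using hz.comap (L.subtype.comp τ.ker.subtype) (L.subtype_injective.comp τ.ker.subtype_injective)
  · exact grp3c_nil ((L.subtype.comp τ.ker.subtype).codRestrict N fun x => (hk x.1).1 x.2)
      fun x y e => Subtype.ext (Subtype.ext (Subtype.ext_iff.1 e :))
  · have hle : N ≤ N'.map L.subtype := fun y hy => ⟨⟨y, hNL hy⟩, hN' ((hk _).2 hy), rfl⟩
    have e := (hle.lt_or_eq).resolve_left (hmax _ ⟨h1.trans hle,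
      Group.nilpotent_of_mulEquiv (N'.equivMapOfInjective L.subtype L.subtype_injective)⟩)
    exact (hk x).2 (e ▸ Subgroup.mem_map_of_mem L.subtype hx)

/-- apply `exists_str_aux` to the intersection of the subgroups from `exists_nil` and `exists_pz` -/
theorem exists_str {G : Type u} [Group G] (hG : PC (⊤ : Subgroup G)) :
    ∃ (Γ : Type u) (_ : Group Γ) (k : ℕ) (i : Γ →* G), Function.Injective i ∧ i.range.FiniteIndex ∧ Nonempty (Str Γ k) := by
  obtain ⟨L₁, f₁, n₁⟩ := exists_nil hG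
  obtain ⟨L₂, -, f₂, z₂⟩ := exists_pz hG
  have : L₂.FiniteIndex := ⟨by rwa [Subgroup.relIndex_top_right] at f₂⟩
  have hz : PZ (⊤ : Subgroup (L₁ ⊓ L₂ : Subgroup G)) := by
    have h := z₂.comap (L₁ ⊓ L₂).subtype (L₁ ⊓ L₂).subtype_injective
    rwa [show L₂.comap (L₁ ⊓ L₂).subtype = ⊤ from eq_top_iff.2 fun x _ => x.2.2] at h
  have hn : Group.IsNilpotent (commutator (L₁ ⊓ L₂ : Subgroup G)) :=
    grp3c_nil (((L₁ ⊓ L₂).subtype.comp (commutator (L₁ ⊓ L₂ : Subgroup G)).subtype).codRestrict ⁅L₁, L₁⁆ fun x =>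
      Subgroup.commutator_mono inf_le_left inf_le_left
        ((L₁ ⊓ L₂).map_subtype_commutator ▸ Subgroup.mem_map_of_mem (L₁ ⊓ L₂).subtype x.2))
      fun x y e => Subtype.ext (Subtype.ext (Subtype.ext_iff.1 e :))
  obtain ⟨L, k, hL, hS⟩ := exists_str_aux hz hn
  refine ⟨L, inferInstance, k, (L₁ ⊓ L₂).subtype.comp L.subtype,
    (L₁ ⊓ L₂).subtype_injective.comp L.subtype_injective, ⟨?_⟩, hS⟩
  rw [MonoidHom.range_comp, L.range_subtype, Subgroup.index_map_subtype]
  exact mul_ne_zero hL.1 Subgroup.FiniteIndex.index_ne_zero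

/-- finitely generated groups are countable, `Shrink.mulEquiv` -/
theorem exists_small (G : Type*) [Group G] [Group.FG G] : ∃ (G₀ : Type) (_ : Group G₀), Nonempty (G₀ ≃* G) := by
  have : Countable G := by
    obtain ⟨S, hS, φ, hφ⟩ := Group.fg_iff_exists_freeGroup_hom_surjective.1 (inferInstance : Group.FG G)
    have := hS.to_subtype
    exact hφ.countable
  exact ⟨Shrink.{0} G, inferInstance, ⟨Shrink.mulEquiv⟩⟩

end Crest.Agent.R182
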