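import Crest.Agent.R182.A.Defs

/-! R182/A: truncated exponential and logarithm. -/

set_option autoImplicit false
set_option linter.unusedVariables false
set_option linter.unusedSectionVars false
open Set Filter Topology MeasureTheory Crest.GroupTheory
open scoped Pointwise commutatorElement

noncomputable section
namespace Crest.Agent.R182

variable {A B : Type*} [Ring A] [Algebra ℝ A] [Ring B] [Algebra ℝ B] {c : ℕ} {J : Submodule ℝ A}

theorem lie_apply (X Y : A) : lie A X Y = X * Y - Y * X := rfl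

theorem ex_eq {c' : ℕ} {X : A} (hX : X ^ c = 0) (h : c ≤ c') : ex c' X = ex c X := by
  refine (Finset.sum_subset (Finset.range_mono h) fun i _ hi => ?_).symm
  rw [pow_eq_zero_of_le (by simpa using hi) hX, smul_zero]

/-- binomial formula (`Commute.add_pow`), or `IsNilpotent.exp_add_of_commute` with `Module.compHom A (algebraMap ℚ ℝ)` -/
theorem ex_add {X Y : A} (h : Commute X Y) (hX : X ^ c = 0) (hY : Y ^ c = 0) (hXY : (X + Y) ^ c = 0) :
    ex c (X + Y) = ex c X * ex c Y := by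
  let : Module ℚ A := Module.compHom A (algebraMap ℚ ℝ)
  have e : ∀ Z : A, Z ^ c = 0 → ex c Z = IsNilpotent.exp Z := fun Z hZ => by
    rw [IsNilpotent.exp_eq_sum hZ, ex]
    refine Finset.sum_congr rfl fun i _ => ?_
    change _ = algebraMap ℚ ℝ _ • Z ^ i
    simp
  rw [e _ hX, e _ hY, e _ hXY, IsNilpotent.exp_add_of_commute h ⟨c, hX⟩ ⟨c, hY⟩]

theorem ex_mul_neg {X : A} (hX : X ^ c = 0) : ex c X * ex c (-X) = 1 := by
  rcases c with _ | n
  · exact (subsingleton_of_zero_eq_one (by simpa using hX.symm)).elim _ _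
  · rw [← ex_add (Commute.refl X).neg_right hX (by rw [neg_pow, hX, mul_zero]) (by simp), add_neg_cancel,
      ex_eq (c := 1) (pow_one _) n.succ_pos]
    simp [ex]

theorem ex_neg_mul {X : A} (hX : X ^ c = 0) : ex c (-X) * ex c X = 1 := by
  simpa using ex_mul_neg (X := -X) (by rw [neg_pow, hX, mul_zero])

theorem map_ex (f : A →ₐ[ℝ] B) (X : A) : f (ex c X) = ex c (f X) := by
  simp [ex]

theorem map_lg (f : A →ₐ[ℝ] B) (g : A) : f (lg c g) = lg c (f g) := by
  simp [lg]

theorem loga_conj_pow {u v : A} (huv : u * v = 1) (hvu : v * u = 1) (X : A) (i : ℕ) :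
    u * X ^ i * v = (u * X * v) ^ i := by
  induction i with
  | zero => simpa using huv
  | succ i ih =>
    rw [pow_succ, pow_succ, ← ih]
    simp only [mul_assoc]
    rw [← mul_assoc v u, hvu, one_mul]

theorem conj_ex {u v : A} (huv : u * v = 1) (hvu : v * u = 1) (X : A) : u * ex c X * v = ex c (u * X * v) := by
  simp only [ex, Finset.mul_sum, Finset.sum_mul, mul_smul_comm, smul_mul_assoc, loga_conj_pow huv hvu]

theorem conj_lg {u v : A} (huv : u * v = 1) (hvu : v * u = 1) (g : A) : u * lg c g * v = lg c (u * g * v) := by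
  simp only [lg, Finset.mul_sum, Finset.sum_mul, mul_smul_comm, smul_mul_assoc, loga_conj_pow huv hvu, mul_sub,
    sub_mul, mul_one, huv]

section logb
open Polynomial

theorem logb_int {r : ℝ[X]} {n : ℕ} (h0 : X ∣ r) (h : X ^ n ∣ derivative r) : X ^ (n + 1) ∣ r := by
  rw [X_pow_dvd_iff] at h ⊢
  rintro (_ | d) hd
  · exact X_dvd_iff.1 h0
  · have := h d (by omega)
    rw [coeff_derivative] at this
    exact (mul_eq_zero.1 this).resolve_right (by positivity)

theorem logb_ex_succ (n : ℕ) (p : A) : ex (n + 1) p = ex n p + (n.factorial : ℝ)⁻¹ • p ^ n :=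
  Finset.sum_range_succ _ _

theorem logb_dex (n : ℕ) (p : ℝ[X]) : derivative (ex (n + 1) p) = ex n p * derivative p := by
  rw [ex, ex, Finset.sum_range_succ', Finset.sum_mul]
  simp only [map_add, map_sum, derivative_smul, derivative_pow_succ, pow_zero, derivative_one, smul_zero, add_zero]
  refine Finset.sum_congr rfl fun i _ => ?_
  rw [← C_add, mul_assoc, ← smul_eq_C_mul, smul_smul, smul_mul_assoc, Nat.factorial_succ]
  congr 1
  push_cast
  field_simp

theorem logb_dlg (n : ℕ) (g : ℝ[X]) :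
    derivative (lg (n + 1) g) = (∑ i ∈ Finset.range n, (1 - g) ^ i) * derivative g := by
  rw [lg, Finset.sum_range_succ', Finset.sum_mul]
  simp only [map_add, map_sum, derivative_smul, derivative_pow_succ, pow_zero, derivative_one, smul_zero, add_zero,
    map_sub, sub_zero]
  refine Finset.sum_congr rfl fun i _ => ?_
  have e : (-1 : ℝ) ^ (i + 1 + 1) / ((i + 1 : ℕ) : ℝ) * ((i : ℝ) + 1) = (-1) ^ i := by
    push_cast
    field_simp
    ring
  rw [← C_add, mul_assoc, ← smul_eq_C_mul, smul_smul, e, ← smul_mul_assoc, ← _root_.smul_pow, neg_smul, one_smul, neg_sub]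

theorem logb_dvd_ex (n : ℕ) {p : ℝ[X]} (h : X ∣ p) : X ∣ ex (n + 1) p - 1 := by
  rw [ex, Finset.sum_range_succ']
  simp only [Nat.factorial_zero, Nat.cast_one, inv_one, pow_zero, one_smul, add_sub_cancel_right]
  exact Finset.dvd_sum fun i _ => dvd_smul_of_dvd _ (h.trans (dvd_pow_self p i.succ_ne_zero))

theorem logb_dvd_lg (n : ℕ) {g : ℝ[X]} (h : X ∣ g - 1) : X ∣ lg (n + 1) g := by
  rw [lg, Finset.sum_range_succ']
  simp only [Nat.cast_zero, div_zero, zero_smul, add_zero]
  exact Finset.dvd_sum fun i _ => dvd_smul_of_dvd _ (h.trans (dvd_pow_self _ i.succ_ne_zero))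

theorem logb_geom (n : ℕ) (g : ℝ[X]) : g * ∑ i ∈ Finset.range n, (1 - g) ^ i = 1 - (1 - g) ^ n := by
  rw [← mul_neg_geom_sum, sub_sub_cancel]

theorem logb_lg_ex (n : ℕ) : (X : ℝ[X]) ^ (n + 1) ∣ lg (n + 1) (ex (n + 1) X) - X := by
  have h1 := logb_dvd_ex n (dvd_refl (X : ℝ[X]))
  refine logb_int (dvd_sub (logb_dvd_lg n h1) dvd_rfl) ?_
  have h2 : X ^ n ∣ (1 - ex (n + 1) (X : ℝ[X])) ^ n := pow_dvd_pow_of_dvd (dvd_sub_comm.1 h1) n
  have e := logb_geom n (ex (n + 1) (X : ℝ[X]))
  rw [map_sub, logb_dlg, logb_dex, derivative_X, mul_one]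
  convert dvd_sub (dvd_neg.2 h2) ((dvd_smul_of_dvd (n.factorial : ℝ)⁻¹ (dvd_refl ((X : ℝ[X]) ^ n))).mul_left
    (∑ i ∈ Finset.range n, (1 - ex (n + 1) (X : ℝ[X])) ^ i)) using 1
  rw [eq_sub_of_add_eq (logb_ex_succ n (X : ℝ[X])).symm]
  linear_combination e

theorem logb_ode {r : ℝ[X]} (h0 : X ∣ r) (n : ℕ) (h : X ^ n ∣ (1 + X) * derivative r - r) : X ^ (n + 1) ∣ r := by
  induction n with
  | zero => simpa using h0
  | succ n ih =>
    have h1 := dvd_add h (ih ((pow_dvd_pow _ n.le_succ).trans h))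
    rw [sub_add_cancel] at h1
    exact logb_int h0 (IsCoprime.dvd_of_dvd_mul_left (IsCoprime.pow_left ⟨-1, 1, by ring⟩) h1)

theorem logb_ex_lg (n : ℕ) : (X : ℝ[X]) ^ (n + 1) ∣ ex (n + 1) (lg (n + 1) (1 + X)) - (1 + X) := by
  have h1 := logb_dvd_lg n (g := 1 + X) (by simp)
  refine logb_ode ?_ n ?_
  · convert dvd_sub (logb_dvd_ex n h1) dvd_rfl using 1
    ring
  · have h2 : X ^ n ∣ (1 - (1 + X : ℝ[X])) ^ n := pow_dvd_pow_of_dvd (by simp) n
    have e := logb_geom n (1 + X : ℝ[X])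
    rw [map_sub, logb_dex, logb_dlg, logb_ex_succ n (lg _ _), map_add, derivative_one, derivative_X, zero_add, mul_one]
    convert dvd_sub (dvd_neg.2 (h2.mul_left (ex n (lg (n + 1) (1 + X)))))
      (dvd_smul_of_dvd (n.factorial : ℝ)⁻¹ (pow_dvd_pow_of_dvd h1 n)) using 1
    linear_combination ex n (lg (n + 1) (1 + X : ℝ[X])) * e

end logb

/-- It is enough to show `X ^ c ∣ lg c (ex c X) - X` in `ℝ[X]` (apply `Polynomial.aeval`, `map_ex`, `map_lg`).  `p = lg c (ex c X)` has
`p.coeff 0 = 0` and `X ^ (c - 1) ∣ p' - 1` (geometric sum: `(lg)' (1 + a) * (1 + a) = 1 - (-a) ^ (c - 1)`). -/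
theorem lg_ex {X : A} (hX : X ^ c = 0) : lg c (ex c X) = X := by
  rcases c with _ | n
  · exact (subsingleton_of_zero_eq_one (by simpa using hX.symm)).elim _ _
  · have := map_dvd (Polynomial.aeval X) (logb_lg_ex n)
    rwa [map_pow, map_sub, map_lg, map_ex, Polynomial.aeval_X, hX, zero_dvd_iff, sub_eq_zero] at this

/-- In `ℝ[X]`: `q = ex c (lg c (1 + X))` has `q.coeff 0 = 1` and `X ^ (c - 1) ∣ (1 + X) * q' - q`; compare coefficients. -/
theorem ex_lg {g : A} (hg : (g - 1) ^ c = 0) : ex c (lg c g) = g := by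
  rcases c with _ | n
  · exact (subsingleton_of_zero_eq_one (by simpa using hg.symm)).elim _ _
  · have := map_dvd (Polynomial.aeval (g - 1)) (logb_ex_lg n)
    rwa [map_pow, map_sub, map_ex, map_lg, map_add, map_one, Polynomial.aeval_X, hg, zero_dvd_iff, sub_eq_zero,
      add_sub_cancel] at this

theorem Nil.pow_eq_zero (hJ : Nil J c) {X : A} (hX : X ∈ J) : X ^ c = 0 := by
  simpa [hJ.pow] using Submodule.pow_mem_pow J hX c

theorem Nil.pow_anti (hJ : Nil J c) {i j : ℕ} (hi : 1 ≤ i) (h : i ≤ j) : J ^ j ≤ J ^ i := by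
  induction j, h using Nat.le_induction with
  | base => exact le_rfl
  | succ j h ih =>
    obtain ⟨k, rfl⟩ : ∃ k, j = k + 1 := ⟨j - 1, by omega⟩
    refine le_trans ?_ ih
    rw [pow_succ, pow_succ, mul_assoc]
    exact mul_le_mul_right hJ.mul _

theorem Nil.pow_eq_bot (hJ : Nil J c) {i : ℕ} (h : c ≤ i) : J ^ i = ⊥ := by
  obtain ⟨k, rfl⟩ := Nat.exists_eq_add_of_le h
  rw [pow_add, hJ.pow, Submodule.bot_mul]

theorem Nil.prod_eq_zero (hJ : Nil J c) {l : List A} (hl : c ≤ l.length) (h : ∀ x ∈ l, x ∈ J) : l.prod = 0 := by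
  have : l.prod ∈ J ^ l.length := by
    clear hl
    induction l with
    | nil =>
      rw [List.prod_nil, List.length_nil, pow_zero]
      exact Submodule.one_le.1 (le_refl (1 : Submodule ℝ A))
    | cons x l ih =>
      rw [List.prod_cons, List.length_cons, pow_succ']
      exact Submodule.mul_mem_mul (h x List.mem_cons_self) (ih fun y hy => h y (List.mem_cons_of_mem _ hy))
  simpa [hJ.pow_eq_bot hl] using this

theorem logc_pow_mem (hJ : Nil J c) {X : A} (hX : X ∈ J) (i : ℕ) : X ^ (i + 1) ∈ J := by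
  have := hJ.pow_anti le_rfl (Nat.le_add_left 1 i) (Submodule.pow_mem_pow J hX (i + 1))
  rwa [pow_one] at this

/-- for `c = 0` the ring is trivial -/
theorem Nil.ex_sub_one_mem (hJ : Nil J c) {X : A} (hX : X ∈ J) : ex c X - 1 ∈ J := by
  rcases c with _ | n
  · have := subsingleton_of_zero_eq_one (M₀ := A) (by simpa using (hJ.pow_eq_zero hX).symm)
    rw [Subsingleton.elim (ex 0 X - 1) 0]
    exact J.zero_mem
  · rw [ex, Finset.sum_range_succ']
    simp only [Nat.factorial_zero, Nat.cast_one, inv_one, pow_zero, one_smul, add_sub_cancel_right]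
    exact J.sum_mem fun i _ => J.smul_mem _ (logc_pow_mem hJ hX i)

theorem Nil.lg_mem (hJ : Nil J c) {g : A} (hg : g - 1 ∈ J) : lg c g ∈ J := by
  refine J.sum_mem fun i _ => ?_
  rcases i with _ | i
  · simp
  · exact J.smul_mem _ (logc_pow_mem hJ hg i)

theorem Nil.mul_sub_one_mem (hJ : Nil J c) {g g' : A} (hg : g - 1 ∈ J) (hg' : g' - 1 ∈ J) : g * g' - 1 ∈ J := by
  have e : g * g' - 1 = (g - 1) * (g' - 1) + (g - 1) + (g' - 1) := by noncomm_ring
  rw [e]
  exact J.add_mem (J.add_mem (hJ.mul (Submodule.mul_mem_mul hg hg')) hg) hg' 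

theorem Nil.lie_pow_mem (hJ : Nil J c) {X Y : A} (hX : X ∈ J) {i : ℕ} (hY : Y ∈ J ^ i) (j : ℕ) :
    ((lie A X) ^ j) Y ∈ J ^ (i + j) := by
  induction j with
  | zero => exact hY
  | succ j ih =>
    rw [pow_succ', Module.End.mul_apply, lie_apply, ← add_assoc]
    refine Submodule.sub_mem _ ?_ ?_
    · rw [pow_succ']
      exact Submodule.mul_mem_mul hX ih
    · rw [pow_succ]
      exact Submodule.mul_mem_mul ih hX

/-- `ex_add` in `Module.End ℝ A` for the commuting operators `mulLeft X`, `-mulRight X` (with `2 c` terms), then truncate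
(`Nil.lie_pow_mem`) -/
theorem Nil.ad_ex (hJ : Nil J c) {X Y : A} (hX : X ∈ J) (hY : Y ∈ J) :
    ex c X * Y * ex c (-X) = ex c (lie A X : Module.End ℝ A) Y := by
  have h0 := hJ.pow_eq_zero hX
  have hL : LinearMap.mulLeft ℝ X ^ c = 0 := by rw [LinearMap.pow_mulLeft, h0, LinearMap.mulLeft_zero_eq_zero]
  have hR : LinearMap.mulRight ℝ (-X) ^ c = 0 := by
    rw [LinearMap.pow_mulRight, hJ.pow_eq_zero (J.neg_mem hX), LinearMap.mulRight_zero_eq_zero]
  have hc := LinearMap.commute_mulLeft_right (R := ℝ) X (-X)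
  have h := ex_add (c := c + c) hc (pow_eq_zero_of_le (Nat.le_add_right c c) hL)
    (pow_eq_zero_of_le (Nat.le_add_right c c) hR)
    (hc.add_pow_eq_zero_of_add_le_succ_of_pow_eq_zero hL hR (Nat.le_succ _))
  rw [ex_eq hL (Nat.le_add_right c c), ex_eq hR (Nat.le_add_right c c)] at h
  have e : LinearMap.mulLeft ℝ X + LinearMap.mulRight ℝ (-X) = lie A X := by
    ext Z
    simp [lie_apply, sub_eq_add_neg]
  have h1 := LinearMap.congr_fun h Y
  rw [e, Module.End.mul_apply] at h1
  have h2 : ex (c + c) (lie A X : Module.End ℝ A) Y = ex c (lie A X : Module.End ℝ A) Y := by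
    simp only [ex, LinearMap.sum_apply, LinearMap.smul_apply]
    refine (Finset.sum_subset (Finset.range_mono (Nat.le_add_right c c)) fun i _ hi => ?_).symm
    have := hJ.lie_pow_mem hX (i := 1) (by rwa [pow_one]) i
    rw [hJ.pow_eq_bot (by simp at hi; omega), Submodule.mem_bot] at this
    rw [this, smul_zero]
  rw [← h2, h1]
  simp only [ex, LinearMap.sum_apply, LinearMap.smul_apply, LinearMap.pow_mulLeft, LinearMap.pow_mulRight,
    LinearMap.mulLeft_apply, LinearMap.mulRight_apply, Finset.sum_mul, Finset.mul_sum, smul_mul_assoc, mul_smul_comm,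
    mul_assoc, map_sum, map_smul]

/-- `D = lg c (ex c D)` is a polynomial in `ex c D` -/
theorem mem_of_ex_mem {E : Type*} [AddCommGroup E] [Module ℝ E] {D : Module.End ℝ E} (hD : D ^ c = 0) {U : Submodule ℝ E}
    (h : ∀ v ∈ U, ex c D v ∈ U) : ∀ v ∈ U, D v ∈ U := by
  intro v hv
  have key : ∀ i : ℕ, (((ex c D - 1) ^ i : Module.End ℝ E)) v ∈ U := fun i => by
    induction i with
    | zero => exact hv
    | succ i ih =>
      rw [pow_succ', Module.End.mul_apply, LinearMap.sub_apply]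
      exact U.sub_mem (h _ ih) ih
  rw [← lg_ex hD, lg, LinearMap.sum_apply]
  exact U.sum_mem fun i _ => U.smul_mem _ (key i)

/-- `mem_of_ex_mem` for the restriction of `lie A X` to `J` -/
theorem Nil.lie_mem_of_conj (hJ : Nil J c) {U : Submodule ℝ A} (hU : U ≤ J) {X : A} (hX : X ∈ J)
    (h : ∀ Y ∈ U, ex c X * Y * ex c (-X) ∈ U) : ∀ Y ∈ U, lie A X Y ∈ U := by
  have hm : ∀ Y ∈ J, lie A X Y ∈ J := fun Y hY =>
    J.sub_mem (hJ.mul (Submodule.mul_mem_mul hX hY)) (hJ.mul (Submodule.mul_mem_mul hY hX))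
  have hp : ∀ (i : ℕ) (v : J), ((((lie A X).restrict hm) ^ i) v : A) = ((lie A X) ^ i) v := fun i v => by
    induction i with
    | zero => rfl
    | succ i ih => rw [pow_succ', pow_succ', Module.End.mul_apply, Module.End.mul_apply, ← ih]; rfl
  intro Y hY
  refine mem_of_ex_mem (c := c) (D := (lie A X).restrict hm) ?_ (U := U.comap J.subtype) (fun v hv => ?_)
    ⟨Y, hU hY⟩ hY
  · ext v
    have := hJ.lie_pow_mem hX (i := 1) (by rw [pow_one]; exact v.2) c
    rw [hJ.pow_eq_bot (Nat.le_add_left c 1), Submodule.mem_bot] at this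
    rw [hp, this]
    rfl
  · have := h v hv
    rw [hJ.ad_ex hX v.2] at this
    rw [Submodule.mem_comap]
    convert this using 1
    simp only [ex, LinearMap.sum_apply, LinearMap.smul_apply, map_sum, map_smul, Submodule.subtype_apply, hp]

end Crest.Agent.R182
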