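import Crest.Agent.R182.A.Basis
import Crest.Agent.R182.A.Ext
import Crest.Agent.R182.A.ApiLen

/-! R182/A: the model of a virtually polycyclic group. -/

set_option autoImplicit false
set_option linter.unusedVariables false
set_option linter.unusedSectionVars false
open Set Filter Topology MeasureTheory Crest.GroupTheory
open scoped Pointwise commutatorElement

noncomputable section
namespace Crest.Agent.R182

open Crest.Geometry

theorem exists_model_of_str {Γ : Type} [Group Γ] {k : ℕ} (s : Str Γ k) :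
    ∃ (h : ℕ) (M : Model h k), Nonempty (M.Γ ≃* Γ) := by
  have hN := s.pz.pc
  have : Group.FG s.τ.ker := ⟨hN.fg⟩
  have := s.nil
  obtain ⟨c, hc⟩ := exists_sep s.pz
  obtain ⟨d, ⟨L⟩⟩ := exists_lin s.τ.ker (hc.of_equiv Subgroup.topEquiv.symm)
  obtain ⟨h, ⟨p⟩⟩ := exists_pre s.τ.ker hN L
  obtain ⟨co, i, hi, ha⟩ := exists_arith s p
  obtain ⟨M, ⟨e⟩⟩ := exists_model_of_arith co ha
  exact ⟨h, M, ⟨e.trans (MonoidHom.ofInjective hi).symm⟩⟩

/-- **Block A.** -/
theorem exists_model {P : Type*} [Group P] (S : Finset P) (hS : Subgroup.closure (S : Set P) = ⊤)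
    (hP : IsVirtuallyPolycyclic P) : ∃ (h k : ℕ) (M : Model h k) (F : P → M.G),
      IsQuasiIsometry (wordDist (S : Set P)) (wordDist M.K) F := by
  obtain ⟨Q, hQ, hpc⟩ := hP
  rw [pc_top_iff] at hpc
  have : Group.FG Q := ⟨hpc.fg⟩
  obtain ⟨Q₀, _, ⟨e₀⟩⟩ := exists_small Q
  have h0 : PC (⊤ : Subgroup Q₀) := by simpa using hpc.comap e₀.toMonoidHom e₀.injective
  obtain ⟨Γ, _, k, i, hi, hr, ⟨s⟩⟩ := exists_str h0
  obtain ⟨h, M, ⟨e⟩⟩ := exists_model_of_str s
  have h1 : PC (⊤ : Subgroup M.Γ) := by simpa using h0.comap (i.comp e.toMonoidHom) (hi.comp e.injective)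
  obtain ⟨T, hT⟩ := h1.fg
  let j : M.Γ →* P := Q.subtype.comp (e₀.toMonoidHom.comp (i.comp e.toMonoidHom))
  have hj : Function.Injective j := Subtype.val_injective.comp (e₀.injective.comp (hi.comp e.injective))
  have hjr : j.range.FiniteIndex := by
    have e1 : j.range = (i.range.map e₀.toMonoidHom).map Q.subtype := by
      simp only [j, MonoidHom.range_comp]
      rw [(MonoidHom.range_eq_top (f := e.toMonoidHom)).2 e.surjective, ← MonoidHom.range_eq_map]
    refine ⟨?_⟩
    rw [e1, Subgroup.index_map_subtype, Subgroup.index_map_of_bijective e₀.bijective]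
    exact mul_ne_zero hr.1 hQ.1
  obtain ⟨f, hf⟩ := qi_inv hT hS (qi_of_finiteIndex hT T.finite_toSet hS S.finite_toSet j hj hjr)
  exact ⟨h, k, M, _, qi_comp M.closure_K hf (qi_of_lattice hT T.finite_toSet M.closure_K M.Γ.subtype M.lat_fin M.lat_cc)⟩

end Crest.Agent.R182
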