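import Crest.Agent.R182.A.Defs

/-! R182/A: invariant flags. -/

set_option autoImplicit false
set_option linter.unusedVariables false
set_option linter.unusedSectionVars false
open Set Filter Topology MeasureTheory Crest.GroupTheory
open scoped Pointwise commutatorElement

noncomputable section
namespace Crest.Agent.R182

variable {G E : Type*} [Group G]

section
variable [AddCommGroup E] [Module ℂ E] [FiniteDimensional ℂ E] {ρ : G →* Module.End ℂ E} {H : Subgroup G}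
  {U₀ : Submodule ℂ E} {n : ℕ}

theorem tria_surj (T : Module.End ℂ E) {U₀ U' : Submodule ℂ E} (hlt : U' < U₀) (h₀ : ∀ v ∈ U₀, T v ∈ U₀)
    (h' : ∀ v ∈ U', T v ∈ U') : ∃ μ : ℂ, ¬ U₀ ≤ U' ⊔ U₀.map (T - μ • 1) := by
  have : Nontrivial (U₀ ⧸ U'.comap U₀.subtype) := Submodule.Quotient.nontrivial_iff.2 fun e =>
    hlt.not_ge (Submodule.comap_subtype_eq_top.1 e)
  let Q : Module.End ℂ (U₀ ⧸ U'.comap U₀.subtype) := Submodule.mapQ _ _ (T.restrict h₀) fun v hv => h' _ hv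
  obtain ⟨μ, hμ⟩ := Module.End.exists_eigenvalue Q
  obtain ⟨x, hx⟩ := hμ.exists_hasEigenvector
  refine ⟨μ, fun hle => hx.2 ?_⟩
  have hs : Function.Surjective (Q - μ • 1 : Module.End ℂ _) := fun y => by
    obtain ⟨u, rfl⟩ := Submodule.Quotient.mk_surjective _ y
    obtain ⟨a, ha, _, ⟨w, hw, rfl⟩, e⟩ := Submodule.mem_sup.1 (hle u.2)
    refine ⟨Submodule.Quotient.mk ⟨w, hw⟩, ?_⟩
    simp only [Q, LinearMap.sub_apply, LinearMap.smul_apply, Module.End.one_apply, Submodule.mapQ_apply,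
      ← Submodule.Quotient.mk_smul, ← Submodule.Quotient.mk_sub]
    refine (Submodule.Quotient.eq _).2 ?_
    change T w - μ • w - u ∈ U'
    rw [← e]
    simpa using ha
  exact (injective_iff_map_eq_zero _).1 (LinearMap.injective_iff_surjective.2 hs) x (by simp [hx.apply_eq_smul])

theorem tria_step (ρ : G →* Module.End ℂ E) (H N : Subgroup G) (hN : ∀ a b : G, ⁅a, b⁆ ∈ N) {c : ℕ} (hu : Unip ρ N c)
    (U₀ : Submodule ℂ E) (hU : ∀ g ∈ H, ∀ v ∈ U₀, ρ g v ∈ U₀) (h0 : U₀ ≠ ⊥) :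
    ∃ (U' : Submodule ℂ E) (χ : G → ℂ), U' < U₀ ∧ (∀ g ∈ H, ∀ v ∈ U', ρ g v ∈ U') ∧
      ∀ g ∈ H, ∀ v ∈ U₀, ρ g v - χ g • v ∈ U' := by
  have hc : ∀ a ∈ H, ∀ b ∈ H, ⁅a, b⁆ ∈ H := fun a ha b hb =>
    H.mul_mem (H.mul_mem (H.mul_mem ha hb) (H.inv_mem ha)) (H.inv_mem hb)
  let U₁ := Submodule.span ℂ {w | ∃ x ∈ N, x ∈ H ∧ ∃ v ∈ U₀, w = ρ x v - v}
  have h1 : U₁ ≤ U₀ := Submodule.span_le.2 (by
    rintro _ ⟨x, -, hx, v, hv, rfl⟩
    exact U₀.sub_mem (hU x hx v hv) hv)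
  have h2 : ¬ U₀ ≤ U₁ := fun hle => by
    have key : ∀ m ≤ c, ∀ l : List G, l.length = m → (∀ x ∈ l, x ∈ N) → ∀ v ∈ U₀,
        (l.map fun x => ρ x - 1).prod v = 0 := by
      intro m hm
      induction hm using Nat.decreasingInduction with
      | self => exact fun l hl hx v _ => by rw [hu l hl hx]; rfl
      | of_succ m _ ih =>
        refine fun l hl hx v hv => (Submodule.span_le (p := LinearMap.ker _)).2 ?_ (hle hv)
        rintro _ ⟨x, hxN, -, w, hw, rfl⟩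
        simpa using ih (l ++ [x]) (by simp [hl]) (by simpa [or_imp, forall_and, hxN] using hx) w hw
    exact h0 ((Submodule.eq_bot_iff _).2 fun v hv => by simpa using key 0 (Nat.zero_le _) [] rfl (by simp) v hv)
  have h3 : ∀ g ∈ H, ∀ v ∈ U₁, ρ g v ∈ U₁ := fun g hg v hv =>
    (Submodule.span_le (p := U₁.comap (ρ g))).2 (by
      rintro _ ⟨x, hxN, hx, w, hw, rfl⟩
      refine Submodule.subset_span ⟨⁅g, x⁆ * x, N.mul_mem (hN g x) hxN, H.mul_mem (hc g hg x hx) hx, ρ g w,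
        hU g hg w hw, ?_⟩
      rw [map_sub, ← Module.End.mul_apply, ← Module.End.mul_apply, ← map_mul, ← map_mul]
      congr 3
      simp only [commutatorElement_def]
      group) hv
  obtain ⟨U', ⟨hU1, hU2, hU3⟩, hmax⟩ := exists_maximal_of_wellFoundedGT
    (fun U' : Submodule ℂ E => U₁ ≤ U' ∧ U' < U₀ ∧ ∀ g ∈ H, ∀ v ∈ U', ρ g v ∈ U') ⟨U₁, le_rfl, lt_of_le_not_ge h1 h2, h3⟩
  choose! χ hχ using fun g hg => tria_surj (ρ g) hU2 (hU g hg) (hU3 g hg)
  refine ⟨U', χ, hU2, hU3, fun g hg v hv => ?_⟩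
  have hm : ∀ w ∈ U₀, ρ g w - χ g • w ∈ U' ⊔ U₀.map (ρ g - χ g • 1) := fun w hw =>
    Submodule.mem_sup_right ⟨w, hw, rfl⟩
  refine hmax ⟨le_sup_of_le_left hU1, lt_of_le_not_ge (sup_le hU2.le ?_) (hχ g hg), fun k hk w' hw' => ?_⟩ le_sup_left (hm v hv)
  · rintro _ ⟨w, hw, rfl⟩
    exact U₀.sub_mem (hU g hg w hw) (U₀.smul_mem _ hw)
  · obtain ⟨a, ha, _, ⟨w, hw, rfl⟩, rfl⟩ := Submodule.mem_sup.1 hw'
    have e : ρ k ((ρ g - χ g • 1) w) = (ρ ⁅k, g⁆ (ρ g (ρ k w)) - ρ g (ρ k w)) + (ρ g (ρ k w) - χ g • ρ k w) := by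
      have : ρ ⁅k, g⁆ (ρ g (ρ k w)) = ρ k (ρ g w) := by
        simp only [← Module.End.mul_apply, ← map_mul]
        congr 2
        simp only [commutatorElement_def]
        group
      rw [this]
      simp
    rw [map_add, e]
    exact add_mem (Submodule.mem_sup_left (hU3 k hk a ha)) (add_mem (Submodule.mem_sup_left (hU1 (Submodule.subset_span
      ⟨_, hN k g, hc k hk g hg, _, hU g hg _ (hU k hk w hw), rfl⟩))) (hm _ (hU k hk w hw)))

/-- Strong induction on `finrank U₀`.  If `U₀ ≠ ⊥`: `U₁ = span {ρ x v - v | x ∈ N ⊓ H, v ∈ U₀}` is `H`-invariant and `< U₀` (`Unip`).  Take `U'` of maximal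
dimension among the `H`-invariant subspaces with `U₁ ≤ U' < U₀`.  For `g ∈ H` let `μ` be an eigenvalue of `ρ g` on `U₀ / U'`; then
`(ρ g - μ) U₀ ⊔ U'` is `H`-invariant (commutators lie in `N`) and `≠ U₀` (not injective on the quotient, so not surjective), hence `= U'`.
Append `U₀` to the flag of `U'`. -/
theorem exists_flag (ρ : G →* Module.End ℂ E) (H N : Subgroup G) (hN : ∀ a b : G, ⁅a, b⁆ ∈ N) {c : ℕ} (hu : Unip ρ N c)
    (U₀ : Submodule ℂ E) (hU : ∀ g ∈ H, ∀ v ∈ U₀, ρ g v ∈ U₀) : ∃ n, Nonempty (Flag ρ H U₀ n) := by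
  induction U₀ using WellFoundedLT.induction with
  | ind U₀ ih =>
  by_cases h0 : U₀ = ⊥
  · exact ⟨0, ⟨⟨fun _ => ⊥, fun _ _ => 1, rfl, h0.symm, fun j hj => absurd hj (Nat.not_lt_zero _),
      fun j hj => absurd hj (Nat.not_lt_zero _)⟩⟩⟩
  obtain ⟨U', χ, h1, h2, h3⟩ := tria_step ρ H N hN hu U₀ hU h0
  obtain ⟨n, ⟨fl⟩⟩ := ih U' h1 h2
  refine ⟨n + 1, ⟨⟨fun j => if j ≤ n then fl.U j else U₀, fun j => if j < n then fl.χ j else χ,
    (if_pos (Nat.zero_le _)).trans fl.zero, if_neg (Nat.not_succ_le_self n), fun j hj => ?_, fun j hj => ?_⟩⟩⟩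
  · rcases (Nat.lt_succ_iff.1 hj).eq_or_lt with rfl | h
    · rwa [if_pos le_rfl, if_neg (Nat.not_succ_le_self _), fl.top]
    · rw [if_pos h.le, if_pos (Nat.succ_le_of_lt h)]
      exact fl.lt j h
  · rcases (Nat.lt_succ_iff.1 hj).eq_or_lt with rfl | h
    · rwa [if_pos le_rfl, if_neg (Nat.not_succ_le_self _), if_neg (lt_irrefl _), fl.top]
    · rw [if_pos h.le, if_pos (Nat.succ_le_of_lt h), if_pos h]
      exact fl.step j h

namespace Flag
variable (fl : Flag ρ H U₀ n)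

theorem trib_uniq {j : ℕ} (hj : j < n) {a b : ℂ} (h : ∀ v ∈ fl.U (j + 1), a • v - b • v ∈ fl.U j) : a = b := by
  obtain ⟨v, hv, hv'⟩ := SetLike.exists_of_lt (fl.lt j hj)
  by_contra hab
  have := h v hv
  rw [← sub_smul, Submodule.smul_mem_iff _ (sub_ne_zero.2 hab)] at this
  exact hv' this
theorem U_le {i j : ℕ} (hij : i ≤ j) (hj : j ≤ n) : fl.U i ≤ fl.U j := by
  induction j, hij using Nat.le_induction with
  | base => exact le_rfl
  | succ j _ ih => exact (ih (by omega)).trans (fl.lt j hj).le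

theorem inv {j : ℕ} (hj : j ≤ n) {g : G} (hg : g ∈ H) {v : E} (hv : v ∈ fl.U j) : ρ g v ∈ fl.U j := by
  cases j with
  | zero =>
    rw [fl.zero, Submodule.mem_bot] at hv ⊢
    rw [hv, map_zero]
  | succ j =>
    rw [← sub_add_cancel (ρ g v) (fl.χ j g • v)]
    exact add_mem ((fl.lt j hj).le (fl.step j hj g hg v hv)) (Submodule.smul_mem _ _ hv)

theorem χ_one {j : ℕ} (hj : j < n) : fl.χ j 1 = 1 := by
  refine (fl.trib_uniq hj fun v hv => ?_).symm
  simpa using fl.step j hj 1 H.one_mem v hv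

theorem χ_mul {j : ℕ} (hj : j < n) {g g' : G} (hg : g ∈ H) (hg' : g' ∈ H) : fl.χ j (g * g') = fl.χ j g * fl.χ j g' := by
  refine (fl.trib_uniq hj fun v hv => ?_).symm
  have h1 := fl.step j hj _ (H.mul_mem hg hg') v hv
  have h2 := fl.inv hj.le hg (fl.step j hj g' hg' v hv)
  have h3 := Submodule.smul_mem _ (fl.χ j g') (fl.step j hj g hg v hv)
  convert sub_mem (sub_mem h1 h2) h3 using 1
  simp only [map_mul, Module.End.mul_apply, map_sub, map_smul, smul_sub, smul_smul, mul_comm (fl.χ j g)]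
  abel

theorem χ_ne_zero {j : ℕ} (hj : j < n) {g : G} (hg : g ∈ H) : fl.χ j g ≠ 0 := by
  have := fl.χ_mul hj hg (H.inv_mem hg)
  rw [mul_inv_cancel, fl.χ_one hj] at this
  exact left_ne_zero_of_mul_eq_one this.symm

/-- `ρ g - χ j g` maps `U (j + 1)` into the smaller space `U j`, so it is not injective there -/
theorem exists_eigen {j : ℕ} (hj : j < n) {g : G} (hg : g ∈ H) : ∃ v ∈ U₀, v ≠ 0 ∧ ρ g v = fl.χ j g • v := by
  let f : fl.U (j + 1) →ₗ[ℂ] fl.U j :=
    (ρ g - fl.χ j g • (1 : Module.End ℂ E)).restrict fun v hv => fl.step j hj g hg v hv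
  have hf : ¬ Function.Injective f := fun h =>
    absurd (LinearMap.finrank_le_finrank_of_injective h) (not_le.2 (Submodule.finrank_lt_finrank_of_lt (fl.lt j hj)))
  rw [injective_iff_map_eq_zero] at hf
  push Not at hf
  obtain ⟨v, h1, h2⟩ := hf
  refine ⟨v, fl.top.le (fl.U_le hj le_rfl v.2), fun h => h2 (Subtype.ext h), sub_eq_zero.1 ?_⟩
  exact congrArg Subtype.val h1

theorem of_eigen {g : G} (hg : g ∈ H) {v : E} (hv : v ∈ U₀) (h0 : v ≠ 0) {μ : ℂ} (hμ : ρ g v = μ • v) :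
    ∃ j < n, μ = fl.χ j g := by
  have key : ∀ j ≤ n, v ∈ fl.U j → ∃ i < n, μ = fl.χ i g := by
    intro j
    induction j with
    | zero =>
      intro _ h
      rw [fl.zero] at h
      exact absurd h h0
    | succ j ih =>
      intro hj h
      by_cases e : μ = fl.χ j g
      · exact ⟨j, hj, e⟩
      · have := fl.step j hj g hg v h
        rw [hμ, ← sub_smul, Submodule.smul_mem_iff _ (sub_ne_zero.2 e)] at this
        exact ih (by omega) this
  exact key n le_rfl (fl.top.symm ▸ hv)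

theorem χ_eq_one {j : ℕ} (hj : j < n) {g : G} (hg : g ∈ H) (hn : IsNilpotent (ρ g - 1)) : fl.χ j g = 1 := by
  obtain ⟨v, -, h0, hv⟩ := fl.exists_eigen hj hg
  obtain ⟨k, hk⟩ := hn
  have key : ∀ k : ℕ, ((ρ g - 1) ^ k) v = (fl.χ j g - 1) ^ k • v := fun k => by
    induction k with
    | zero => simp
    | succ k ih =>
      rw [pow_succ', Module.End.mul_apply, ih, map_smul, LinearMap.sub_apply, hv, Module.End.one_apply, pow_succ,
        mul_smul, sub_smul, one_smul]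
  have := key k
  rw [hk, LinearMap.zero_apply, eq_comm, smul_eq_zero] at this
  exact sub_eq_zero.1 (eq_zero_of_pow_eq_zero (this.resolve_right h0))

theorem pow_eq_zero {g : G} (hg : g ∈ H) (h1 : ∀ j < n, fl.χ j g = 1) {v : E} (hv : v ∈ U₀) : ((ρ g - 1) ^ n) v = 0 := by
  have key : ∀ j ≤ n, ∀ v ∈ fl.U j, ((ρ g - 1) ^ j) v = 0 := by
    intro j
    induction j with
    | zero =>
      intro _ v h
      rw [fl.zero] at h
      simpa using h
    | succ j ih =>
      intro hj v h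
      have := fl.step j hj g hg v h
      rw [h1 j hj, one_smul] at this
      rw [pow_succ, Module.End.mul_apply]
      exact ih (by omega) _ this
  exact key n le_rfl v (fl.top.symm ▸ hv)

/-- a functional vanishing on `U j` but not on `U₀ = U (j + 1)`; on `U₀ / U j` the group acts by scalars -/
theorem exists_dual {j : ℕ} (hj : n = j + 1) : ∃ ℓ : E →ₗ[ℂ] ℂ, (∃ v ∈ U₀, ℓ v ≠ 0) ∧
    ∀ g ∈ H, ∀ v ∈ U₀, ℓ (ρ g v) = fl.χ j g * ℓ v := by
  subst hj
  obtain ⟨v, hv, hv'⟩ := SetLike.exists_of_lt (fl.lt j j.lt_succ_self)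
  obtain ⟨ℓ, h1, h2⟩ := Submodule.exists_le_ker_of_notMem hv'
  refine ⟨ℓ, ⟨v, fl.top ▸ hv, h1⟩, fun g hg w hw => ?_⟩
  have := h2 (fl.step j j.lt_succ_self g hg w (fl.top.symm ▸ hw))
  rwa [LinearMap.mem_ker, map_sub, map_smul, sub_eq_zero] at this

end Flag

theorem Unip.isNilpotent {R : Type*} [Ring R] {σ : G →* R} {N : Subgroup G} {c : ℕ} (h : Unip σ N c) {x : G} (hx : x ∈ N) :
    IsNilpotent (σ x - 1) := by
  refine ⟨c, ?_⟩
  simpa using h (List.replicate c x) (by simp) fun y hy => List.eq_of_mem_replicate hy ▸ hx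

end

/-- Induction on `j` for `v ∈ U j`, inner induction on the list: for `v ∈ U (j + 1)`,
`ρ (l ++ [g]).prod v = χ j g • ρ l.prod v + ρ l.prod (ρ g v - χ j g • v)` and
`‖ρ g v - χ j g • v‖ ≤ (|R| * exp R + 1) * exp (a g) * ‖v‖`; one gets `B j * (1 + l.length) ^ j`. -/
theorem Flag.growth [NormedAddCommGroup E] [NormedSpace ℂ E] {ρ : G →* Module.End ℂ E} {H : Subgroup G}
    {U₀ : Submodule ℂ E} {n : ℕ} (fl : Flag ρ H U₀ n) (R : ℝ) : ∃ B : ℝ, 0 ≤ B ∧ ∀ (a : G → ℝ) (l : List G),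
    (∀ g ∈ l, g ∈ H ∧ (∀ v, ‖ρ g v‖ ≤ R * ‖v‖) ∧ -R ≤ a g ∧ ∀ j < n, ‖fl.χ j g‖ = Real.exp (a g)) →
      ∀ v ∈ U₀, ‖ρ l.prod v‖ ≤ B * (1 + l.length) ^ n * Real.exp (l.map a).sum * ‖v‖ := by
  have hK : 1 ≤ |R| * Real.exp R + 1 := le_add_of_nonneg_left (by positivity)
  generalize hKe : |R| * Real.exp R + 1 = K at hK
  refine ⟨K ^ n, by positivity, fun a => ?_⟩
  suffices H : ∀ j ≤ n, ∀ l : List G,
      (∀ g ∈ l, g ∈ H ∧ (∀ v, ‖ρ g v‖ ≤ R * ‖v‖) ∧ -R ≤ a g ∧ ∀ j < n, ‖fl.χ j g‖ = Real.exp (a g)) →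
        ∀ v ∈ fl.U j, ‖ρ l.prod v‖ ≤ K ^ j * (1 + l.length) ^ j * Real.exp (l.map a).sum * ‖v‖ from
    fun l hl v hv => H n le_rfl l hl v (fl.top.symm ▸ hv)
  intro j
  induction j with
  | zero =>
    intro _ l _ v hv
    rw [fl.zero, Submodule.mem_bot] at hv
    simp [hv]
  | succ j ihj =>
    intro hj l
    induction l using List.reverseRecOn with
    | nil =>
      intro _ v _
      simpa using le_mul_of_one_le_left (norm_nonneg v) (one_le_pow₀ hK)
    | append_singleton l g ih =>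
      intro hl v hv
      obtain ⟨h1, h2, h3, h4⟩ := hl g (by simp)
      have hl' := fun g hg => hl g (List.mem_append_left _ hg)
      have h5 := ih hl' v hv
      have h6 := ihj (by omega) l hl' _ (fl.step j hj g h1 v hv)
      have h7 : ‖ρ g v - fl.χ j g • v‖ ≤ K * Real.exp (a g) * ‖v‖ := by
        have h8 : R ≤ |R| * Real.exp R * Real.exp (a g) := by
          rw [mul_assoc, ← Real.exp_add]
          exact (le_abs_self R).trans (le_mul_of_one_le_right (abs_nonneg R) (Real.one_le_exp (by linarith)))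
        calc _ ≤ ‖ρ g v‖ + ‖fl.χ j g • v‖ := norm_sub_le _ _
          _ ≤ |R| * Real.exp R * Real.exp (a g) * ‖v‖ + Real.exp (a g) * ‖v‖ := by
            rw [norm_smul, h4 j hj]
            exact add_le_add_left ((h2 v).trans (mul_le_mul_of_nonneg_right h8 (norm_nonneg v))) _
          _ = _ := by rw [← hKe]; ring
      have e : ρ (l ++ [g]).prod v = fl.χ j g • ρ l.prod v + ρ l.prod (ρ g v - fl.χ j g • v) := by
        simp
      have h9 : ((1 : ℝ) + l.length) ^ j * (1 + (l.length + 1)) ≤ (1 + (l.length + 1)) ^ (j + 1) := by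
        rw [pow_succ]
        gcongr
        linarith
      rw [e, List.map_append, List.sum_append, Real.exp_add, List.length_append]
      simp only [List.map_cons, List.map_nil, List.sum_cons, List.sum_nil, add_zero, List.length_cons, List.length_nil,
        zero_add, Nat.cast_add, Nat.cast_one]
      calc _ ≤ ‖fl.χ j g • ρ l.prod v‖ + ‖ρ l.prod (ρ g v - fl.χ j g • v)‖ := norm_add_le _ _
        _ ≤ Real.exp (a g) * (K ^ (j + 1) * (1 + l.length) ^ (j + 1) * Real.exp (l.map a).sum * ‖v‖) +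
            K ^ j * (1 + l.length) ^ j * Real.exp (l.map a).sum * (K * Real.exp (a g) * ‖v‖) := by
          rw [norm_smul, h4 j hj]
          exact add_le_add (by gcongr) (h6.trans (by gcongr))
        _ = K ^ (j + 1) * ((1 + l.length) ^ j * (1 + (l.length + 1))) *
            (Real.exp (l.map a).sum * Real.exp (a g)) * ‖v‖ := by ring
        _ ≤ _ := by gcongr

end Crest.Agent.R182
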